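import Vale.Agent.P200.Betti.Free.MoveRank
import Vale.Agent.P200.Betti.MonomialSide

/-!
The complex of cells computes the Betti numbers of a monomial ideal.
-/

namespace Vale.Agent.P200.Betti.Free

open MvPolynomial Module

variable {K : Type*} [Field K] {n : ℕ}

/-- An exponent function as a finitely supported one. -/
noncomputable def fn (a : Fin n → ℕ) : Fin n →₀ ℕ := Finsupp.equivFunOnFinite.symm a

@[simp] lemma fn_apply (a : Fin n → ℕ) (i : Fin n) : fn a i = a i := rfl

lemma degree_fn (a : Fin n → ℕ) : (fn a).degree = ∑ i, a i := by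
  simp [Finsupp.degree_eq_sum]

@[simp] lemma fn_coe (e : Fin n →₀ ℕ) : fn ⇑e = e := Finsupp.ext fun _ => rfl

/-- The exponent functions in the degreewise sets. -/
def setOf' (T : ℕ → Finset (Fin n →₀ ℕ)) : Set (Fin n → ℕ) := {a | fn a ∈ T (∑ i, a i)}

open Classical in
/-- The degreewise sets of a set of exponent functions. -/
noncomputable def degSets (M : Set (Fin n → ℕ)) (d : ℕ) : Finset (Fin n →₀ ℕ) :=
  ((mons n d).filter (· ∈ M)).image fn

lemma mem_degSets {M : Set (Fin n → ℕ)} {d : ℕ} {e : Fin n →₀ ℕ} :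
    e ∈ degSets M d ↔ e.degree = d ∧ ⇑e ∈ M := by
  classical
  simp only [degSets, Finset.mem_image, Finset.mem_filter, mem_mons]
  constructor
  · rintro ⟨a, ⟨h1, h2⟩, rfl⟩
    exact ⟨(degree_fn a).trans h1, h2⟩
  · rintro ⟨h1, h2⟩
    exact ⟨⇑e, ⟨by rw [← h1, ← degree_fn, fn_coe], h2⟩, fn_coe e⟩

lemma card_degSets (M : Set (Fin n → ℕ)) (d : ℕ) : (degSets M d).card = num M d := by
  classical
  exact Finset.card_image_of_injective _ Finsupp.equivFunOnFinite.symm.injective

lemma setOf'_degSets (M : Set (Fin n → ℕ)) : setOf' (degSets M) = M := by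
  ext a
  show fn a ∈ degSets M _ ↔ a ∈ M
  rw [mem_degSets]
  exact ⟨fun h => h.2, fun h => ⟨degree_fn a, h⟩⟩

variable (T : ℕ → Finset (Fin n →₀ ℕ))

lemma num_setOf' (hdeg : ∀ d, ∀ e ∈ T d, e.degree = d) (d : ℕ) :
    num (setOf' T) d = (T d).card := by
  classical
  rw [← card_degSets]
  congr 1
  ext e
  rw [mem_degSets]
  constructor
  · rintro ⟨h1, h2⟩
    have : fn ⇑e ∈ T (∑ i, e i) := h2
    rwa [fn_coe, ← Finsupp.degree_eq_sum, h1] at this
  · intro he
    refine ⟨hdeg d e he, ?_⟩
    show fn ⇑e ∈ T _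
    rw [fn_coe, ← Finsupp.degree_eq_sum, hdeg d e he]
    exact he

lemma isUp_setOf' (hcl : ∀ d, ∀ e ∈ T d, ∀ v, e + Finsupp.single v 1 ∈ T (d + 1)) :
    IsUp (setOf' T) := fun a ha i => by
  show fn (a + dl i) ∈ T (∑ j, (a + dl i) j)
  have e1 : fn (a + dl i) = fn a + Finsupp.single i 1 := by
    ext j
    simp [dl, Finsupp.single_apply, Pi.single_apply, eq_comm]
  rw [e1, show ∑ j, (a + dl i) j = ∑ j, a j + 1 by
    simp [Pi.add_apply, Finset.sum_add_distrib, sum_dl]]
  exact hcl _ _ ha i

variable {T}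

/-- The coefficients of a family of polynomials. -/
noncomputable def coeffs : Kos K n →ₗ[K] (Pt n → K) :=
  LinearMap.pi fun z => (Finsupp.lapply (fn z.2)).comp
    ((AddMonoidAlgebra.coeffLinearEquiv K).toLinearMap.comp (LinearMap.proj z.1))

lemma coeffs_apply (v : Kos K n) (z : Pt n) : coeffs v z = coeff (fn z.2) (v z.1) := rfl

lemma coeffs_injective : Function.Injective (coeffs (K := K) (n := n)) := fun v w h => by
  funext T
  refine MvPolynomial.ext _ _ fun e => ?_
  have := congrFun h (T, ⇑e)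
  rwa [coeffs_apply, coeffs_apply, fn_coe] at this

lemma coeffs_kos (v : Kos K n) : coeffs (kos v) = dd K (coeffs v) := by
  classical
  funext z
  rw [coeffs_apply, kos_apply, coeff_sum, dd_apply]
  refine Finset.sum_congr rfl fun k _ => ?_
  rw [coeff_smul, coeff_X_mul', zsmul_eq_mul]
  have hs : k ∈ (fn z.2).support ↔ 1 ≤ z.2 k := by
    rw [Finsupp.mem_support_iff, fn_apply, Nat.one_le_iff_ne_zero]
  by_cases h : 1 ≤ z.2 k
  · rw [if_pos h, if_pos (hs.2 h), coeffs_apply]
    congr 2
    ext i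
    simp [dl, Finsupp.single_apply, Pi.single_apply, eq_comm]
  · rw [if_neg h, if_neg (fun h' => h (hs.1 h')), mul_zero]

lemma map_coeffs_chains (p d : ℕ) :
    (chains (K := K) (n := n) p d).map coeffs = sp K (cells n p d) := by
  classical
  refine le_antisymm ?_ ?_
  · rintro _ ⟨v, hv, rfl⟩
    refine mem_sp.2 fun z hz => ?_
    rw [coeffs_apply]
    obtain ⟨hhom, hcard⟩ := mem_chains.1 hv z.1
    by_cases hp : z.1.card = p
    · refine hhom.coeff_eq_zero fun h => hz (mem_cells.2 ⟨hp, ?_⟩)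
      rw [← degree_fn]; exact h
    · rw [hcard hp, coeff_zero]
  · refine Submodule.span_le.2 ?_
    rintro _ ⟨⟨⟨S, a⟩, hz⟩, rfl⟩
    obtain ⟨h1, h2⟩ := mem_cells.1 hz
    refine ⟨Pi.single S (monomial (fn a) 1), mem_chains.2 fun S' => ?_, ?_⟩
    · by_cases h : S' = S
      · subst h
        rw [Pi.single_eq_same]
        exact ⟨isHomogeneous_monomial _ ((degree_fn a).trans h2), fun hne => absurd h1 hne⟩
      · rw [Pi.single_eq_of_ne h]
        exact ⟨isHomogeneous_zero _ _ _, fun _ => rfl⟩
    · funext w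
      show _ = unit' K (S, a) w
      rw [coeffs_apply]
      by_cases hS : w.1 = S
      · rw [hS, Pi.single_eq_same, coeff_monomial]
        by_cases ha : a = w.2
        · subst ha
          rw [if_pos rfl, show (S, w.2) = w from Prod.ext hS.symm rfl, unit'_self]
        · rw [if_neg (show fn a ≠ fn w.2 from fun h => ha (Finsupp.equivFunOnFinite.symm.injective h)),
            unit'_of_ne fun h => ha (Prod.ext_iff.1 h).2.symm]
      · rw [Pi.single_eq_of_ne hS, coeff_zero, unit'_of_ne fun h => hS (Prod.ext_iff.1 h).1]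

variable (hdeg : ∀ d, ∀ e ∈ T d, e.degree = d)
  (hcl : ∀ d, ∀ e ∈ T d, ∀ v, e + Finsupp.single v 1 ∈ T (d + 1))

include hdeg hcl in
lemma coeffs_mem_iff (v : Kos K n) :
    v ∈ inI (setIdeal T K) ↔ prj K (setOf' T) (coeffs v) = 0 := by
  classical
  constructor
  · intro h
    funext z
    rw [prj_apply, Pi.zero_apply]
    split_ifs with hz
    · rfl
    · rw [coeffs_apply]
      by_contra hne
      have := (mem_setIdeal hdeg hcl).1 (h z.1 trivial) (fn z.2)
        (MvPolynomial.mem_support_iff.2 hne)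
      rw [degree_fn] at this
      exact hz this
  · intro h T' _
    show v T' ∈ setIdeal T K
    rw [mem_setIdeal hdeg hcl]
    intro e he
    by_contra hne
    have hz : ⇑e ∉ setOf' T := by
      show ¬(fn ⇑e ∈ T _)
      rwa [fn_coe, ← Finsupp.degree_eq_sum]
    have := congrFun h (T', ⇑e)
    rw [prj_apply, if_neg hz, coeffs_apply, fn_coe, Pi.zero_apply] at this
    exact (MvPolynomial.mem_support_iff.1 he) this

include hdeg hcl in
lemma rkI_setIdeal' (p d : ℕ) :
    rkI (setIdeal T K) (p + 1) d = rkM K (setOf' T) (p + 1) d := by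
  classical
  set N := (chains (K := K) (n := n) (p + 1) d).map kos with hN
  have h1 := finrank_map_add_ker (inI (setIdeal T K)).mkQ N
  have h2 := finrank_map_add_ker ((prj K (setOf' T)).comp coeffs) N
  have hk : N ⊓ LinearMap.ker (inI (setIdeal T K)).mkQ =
      N ⊓ LinearMap.ker ((prj K (setOf' T)).comp coeffs) := by
    rw [Submodule.ker_mkQ]
    ext w
    simp only [Submodule.mem_inf, LinearMap.mem_ker, LinearMap.comp_apply]
    exact and_congr_right fun _ => coeffs_mem_iff hdeg hcl w
  rw [hk] at h1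
  have h3 : N.map ((prj K (setOf' T)).comp coeffs) =
      (sp K (cells n (p + 1) d)).map (prj K (setOf' T) ∘ₗ dd K) := by
    rw [← map_coeffs_chains, hN]
    ext w
    simp only [Submodule.mem_map, LinearMap.comp_apply]
    constructor
    · rintro ⟨_, ⟨v, hv, rfl⟩, rfl⟩
      exact ⟨_, ⟨v, hv, rfl⟩, by rw [coeffs_kos]⟩
    · rintro ⟨_, ⟨v, hv, rfl⟩, rfl⟩
      exact ⟨_, ⟨v, hv, rfl⟩, by rw [coeffs_kos]⟩
  rw [h3] at h2
  rw [rkI, Submodule.map_comp, ← hN]
  show _ = finrank K ((sp K (cells n (p + 1) d)).map (prj K (setOf' T) ∘ₗ dd K))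
  omega

include hdeg hcl in
/-- The Betti numbers of a monomial ideal. -/
theorem betti_eq_hM (p d : ℕ) :
    betti (setIdeal T K) p (p + d) = Free.hM K (setOf' T) p d := by
  have hrk : ∀ q e, rkI (setIdeal T K) q e = rkM K (setOf' T) q e := by
    intro q e
    cases q with
    | zero => rw [rkI_zero]; rfl
    | succ q => exact rkI_setIdeal' hdeg hcl q e
  have hm : finrank K (homogeneousSubmodule (Fin n) K d) = (mons n d).card := by
    have h := finrank_monomialIdeal (K := K) (Set.univ : Set (Fin n →₀ ℕ))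
      (fun _ _ _ _ => trivial) d
    have hd : degPart d (Ideal.span ((fun e => monomial e (1 : K)) '' Set.univ)) =
        homogeneousSubmodule (Fin n) K d := by
      have htop : Ideal.span ((fun e : Fin n →₀ ℕ => monomial e (1 : K)) '' Set.univ) = ⊤ :=
        (Ideal.eq_top_iff_one _).2 (Ideal.subset_span ⟨0, trivial, rfl⟩)
      rw [htop]
      ext u
      simp [degPart]
    rw [hd] at h
    rw [h, ← Nat.card_eq_finsetCard]
    exact Nat.card_congr
      { toFun := fun e => ⟨⇑e.1, mem_mons.2 (by rw [← Finsupp.degree_eq_sum]; exact e.2.1)⟩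
        invFun := fun a => ⟨fn a.1, (degree_fn _).trans (mem_mons.1 a.2), trivial⟩
        left_inv := fun e => Subtype.ext (fn_coe _)
        right_inv := fun a => Subtype.ext rfl }
  rw [betti_eq, finrank_degPart_setIdeal hdeg hcl, hm, Free.hM, card_outCells, num_setOf' T hdeg,
    hrk, hrk]

end Vale.Agent.P200.Betti.Free
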