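import Vale.Agent.P200.Betti.Free.Step
import Vale.Agent.P200.Betti.Free.Bridge
import Vale.Agent.P200.Betti.Main
import Vale.Agent.P200.Betti.Combin

/-!
The case without free variables.
-/

namespace Vale.Agent.P200.Betti.Free

open Finset Module
open Vale.Agent.P200.Quad (ind ind_apply degree_ind)

variable {n : ℕ} (F : Type*) [Field F]

/-- The places with exponent one. -/
def ones (a : Fin n → ℕ) : Finset (Fin n) := univ.filter fun i => a i = 1

lemma ind_ones {a : Fin n → ℕ} (h : Red n a) : ind (ones a) = fn a := by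
  ext i
  have := h i i.2
  simp only [ind_apply, ones, mem_filter, mem_univ, true_and, fn_apply]
  split_ifs <;> omega

lemma red_ind (S : Finset (Fin n)) : Red n (⇑(ind S) : Fin n → ℕ) := fun i _ => by
  rw [ind_apply]; split_ifs <;> omega

lemma ones_ind (S : Finset (Fin n)) : ones (⇑(ind S) : Fin n → ℕ) = S := by
  ext i
  simp [ones, ind_apply]

variable {M : Set (Fin n → ℕ)}

lemma degSets_deg (d : ℕ) : ∀ e ∈ degSets M d, e.degree = d := fun _ he => (mem_degSets.1 he).1

lemma degSets_sq (h : HasSq n M) (d : ℕ) :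
    ∀ e : Fin n →₀ ℕ, e.degree = d → (∃ i, 2 ≤ e i) → e ∈ degSets M d :=
  fun _ he ⟨i, hi⟩ => mem_degSets.2 ⟨he, h i i.2 _ hi⟩

lemma degSets_cl (h : IsUp M) (d : ℕ) :
    ∀ e ∈ degSets M d, ∀ v, e + Finsupp.single v 1 ∈ degSets M (d + 1) := fun e he v => by
  obtain ⟨h1, h2⟩ := mem_degSets.1 he
  refine mem_degSets.2 ⟨by simp [h1], ?_⟩
  convert h _ h2 v using 1
  funext i
  simp [dl, Finsupp.single_apply, Pi.single_apply, eq_comm]

lemma hM_eq_hdim (hup : IsUp M) (hsq : HasSq n M) (p d : ℕ) :
    Free.hM F M p d = hdim F (outside (degSets M)) p d := by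
  have h1 := betti_eq_hM (K := F) (T := degSets M) degSets_deg (degSets_cl hup) p d
  rw [setOf'_degSets] at h1
  rw [← h1, betti_setIdeal degSets_deg (degSets_sq hsq) (degSets_cl hup)]

lemma isLexCompl_degSets (hL : IsLPP n M) : IsLexCompl (outside (degSets M)) := by
  refine isLexCompl_outside fun d e he e' he' hr hr' hlt => ?_
  obtain ⟨h1, h2⟩ := mem_degSets.1 he
  refine mem_degSets.2 ⟨he', hL.2.2 _ h2 _ ?_ (fun i _ => hr i) (fun i _ => hr' i) ?_⟩
  · rw [← Finsupp.degree_eq_sum, ← Finsupp.degree_eq_sum, he', h1]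
  · obtain ⟨i, hi, hlt'⟩ := Finsupp.Lex.lt_iff.1 hlt
    exact Box.toLex_lt_of_first i (fun j hj => hi j hj) hlt'

open Classical in
lemma sum_nonFaces (d : ℕ) (u : Finset (Fin n) → ℕ) :
    ∑ a ∈ (mons n d).filter (· ∈ M), (if Red n a then u (ones a) else 0) =
      ∑ S ∈ Combin.nonFaces (outside (degSets M)) d, u S := by
  rw [← sum_filter]
  refine sum_nbij' ones (fun S => ⇑(ind S)) ?_ ?_ ?_ ?_ ?_
  · intro a ha
    obtain ⟨ha, hr⟩ := Finset.mem_filter.1 (Finset.mem_coe.1 ha)
    obtain ⟨h1, h2⟩ := Finset.mem_filter.1 ha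
    have hi := ind_ones hr
    have hc : (ones a).card = d := by rw [← degree_ind, hi, degree_fn, mem_mons.1 h1]
    refine Finset.mem_coe.2 (Combin.mem_nonFaces.2 ⟨hc, fun hout => ?_⟩)
    apply mem_outside.1 hout
    rw [hi, hc, mem_degSets]
    exact ⟨(degree_fn a).trans (mem_mons.1 h1), h2⟩
  · intro S hS
    obtain ⟨h1, h2⟩ := Combin.mem_nonFaces.1 (Finset.mem_coe.1 hS)
    rw [mem_outside, not_not, mem_degSets] at h2
    refine Finset.mem_coe.2 (Finset.mem_filter.2
      ⟨Finset.mem_filter.2 ⟨mem_mons.2 ?_, h2.2⟩, red_ind S⟩)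
    rw [← Finsupp.degree_eq_sum, degree_ind, h1]
  · intro a ha
    rw [ind_ones (Finset.mem_filter.1 (Finset.mem_coe.1 ha)).2]
    rfl
  · intro S _
    exact ones_ind S
  · intro a _
    rfl

/-- The bound when every variable is squared. -/
theorem bound_base : Bound F n n := by
  classical
  refine ⟨fun p d M L hup hsq hL hnum => ?_, fun p d => ?_⟩
  · rw [hM_eq_hdim F hup hsq, hM_eq_hdim F hL.1 hL.2.1]
    obtain ⟨Δ, h1, h2, h3, h4⟩ :=
      exists_shifted F (outside (degSets M)) (isDown_outside (degSets_cl hup))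
    refine (h4 p d).trans (hdim_le_lex F h1 h2 (isDown_outside (degSets_cl hL.1))
      (isLexCompl_degSets hL) (fun e => ?_) p d)
    have a1 := card_level_outside F (degSets_deg (M := M) e) (degSets_sq hsq e)
    have a2 := card_level_outside F (degSets_deg (M := L) e) (degSets_sq hL.2.1 e)
    have a3 := hnum e
    rw [card_degSets] at a1 a2
    rw [h3 e]
    omega
  · set w : Finset (Fin n) → ℕ := fun A =>
      (univ.filter fun T : Finset (Fin n) => T.card + 1 = p ∧ Combin.Below T A).card
    set v : Finset (Fin n) → ℕ := fun B =>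
      (univ.filter fun T : Finset (Fin n) => T.card = p ∧ Combin.Below B T).card +
        if p = d then 1 else 0
    refine ⟨if p = d then n.choose d else 0, fun a => if Red n a then w (ones a) else 0,
      fun a => if Red n a then v (ones a) else 0, fun a => ?_, fun L hL => ?_⟩
    · dsimp only
      split_ifs
      swap
      · exact Nat.zero_le _
      cases p with
      | zero => simp [w, pc]
      | succ q =>
        refine (card_le_card (t := (univ : Finset (Fin n)).powersetCard q) fun T hT => ?_).trans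
          (le_of_eq (by simp [pc]))
        obtain ⟨-, hq, -⟩ := mem_filter.1 hT
        exact mem_powersetCard.2 ⟨subset_univ _, by omega⟩
    set Δ := outside (degSets L)
    have hd : IsDown Δ := isDown_outside (degSets_cl hL.1)
    have hlc : IsLexCompl Δ := isLexCompl_degSets hL
    rw [hM_eq_hdim F hL.1 hL.2.1,
      Combin.hdim_eq_crit F hd (Combin.isShifted_of_isLexCompl hlc),
      sum_nonFaces, sum_nonFaces]
    have hov : (Combin.overPairs p (Combin.nonFaces Δ d)).card =
        ∑ B ∈ Combin.nonFaces Δ d,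
          (univ.filter fun T : Finset (Fin n) => T.card = p ∧ Combin.Below B T).card := by
      rw [Combin.overPairs, card_filter, sum_product_right]
      exact sum_congr rfl fun B _ => (card_filter _ _).symm
    have hun : (Combin.underPairs p (Combin.nonFaces Δ (d + 1))).card =
        ∑ A ∈ Combin.nonFaces Δ (d + 1), w A := by
      rw [Combin.underPairs, card_filter, sum_product_right]
      exact sum_congr rfl fun B _ => (card_filter _ _).symm
    have hcr := Combin.card_crit_add hd p d
    have hnf := Combin.card_nonFaces Δ d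
    rw [show (∑ S ∈ Combin.nonFaces Δ d, v S) =
      (Combin.overPairs p (Combin.nonFaces Δ d)).card +
        (Combin.nonFaces Δ d).card * (if p = d then 1 else 0) by
      rw [hov, sum_add_distrib, sum_const, smul_eq_mul]]
    rw [← hun]
    split_ifs with h
    · rw [mul_one]
      omega
    · rw [mul_zero]
      omega

end Vale.Agent.P200.Betti.Free
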