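import Mathlib

/-!
The Koszul complex modulo a set of monomials with arbitrary exponents, as functions on cells.
-/

namespace Vale.Agent.P200.Betti.Free

open Finset Module

variable {n : ℕ} {F : Type*} [Field F]

/-- Exterior positions and an exponent vector. -/
abbrev Pt (n : ℕ) : Type := Finset (Fin n) × (Fin n → ℕ)

/-- The unit exponent vector. -/
def dl (i : Fin n) : Fin n → ℕ := Pi.single i 1

/-- The monomials of a degree. -/
def mons (n d : ℕ) : Finset (Fin n → ℕ) := univ.piAntidiag d

lemma mem_mons {d : ℕ} {a : Fin n → ℕ} : a ∈ mons n d ↔ ∑ i, a i = d := by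
  simp [mons, mem_piAntidiag]

/-- All cells in a position. -/
def cells (n p d : ℕ) : Finset (Pt n) := univ.powersetCard p ×ˢ mons n d

lemma mem_cells {p d : ℕ} {z : Pt n} : z ∈ cells n p d ↔ z.1.card = p ∧ ∑ i, z.2 i = d := by
  simp [cells, mem_mons, mem_powersetCard]

lemma card_cells (n p d : ℕ) : (cells n p d).card = n.choose p * (mons n d).card := by
  rw [cells, card_product, card_powersetCard, card_univ, Fintype.card_fin]

/-- The sign of the position `k` in `T`. -/
def sg (k : Fin n) (T : Finset (Fin n)) : ℤ := (-1) ^ (T.filter (k < ·)).card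

/-- Closed under multiplication by the variables. -/
def IsUp (M : Set (Fin n → ℕ)) : Prop := ∀ a ∈ M, ∀ i, a + dl i ∈ M

/-- Containing the squares of the first `c` variables. -/
def HasSq (c : ℕ) (M : Set (Fin n → ℕ)) : Prop :=
  ∀ i : Fin n, (i : ℕ) < c → ∀ a : Fin n → ℕ, 2 ≤ a i → a ∈ M

open Classical in
/-- The cells of a position whose monomial is outside `M`. -/
noncomputable def outCells (M : Set (Fin n → ℕ)) (p d : ℕ) : Finset (Pt n) :=
  (cells n p d).filter fun z => z.2 ∉ M

open Classical in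
/-- The number of monomials of a degree in `M`. -/
noncomputable def num (M : Set (Fin n → ℕ)) (d : ℕ) : ℕ := ((mons n d).filter (· ∈ M)).card

lemma num_le (M : Set (Fin n → ℕ)) (d : ℕ) : num M d ≤ (mons n d).card := by
  classical exact card_filter_le _ _

lemma card_outCells (M : Set (Fin n → ℕ)) (p d : ℕ) :
    (outCells M p d).card = n.choose p * ((mons n d).card - num M d) := by
  classical
  have e : outCells M p d = (univ : Finset (Fin n)).powersetCard p ×ˢ
      ((mons n d).filter (· ∉ M)) := by
    ext z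
    simp [outCells, cells, and_assoc]
  have h := card_filter_add_card_filter_not (s := mons n d) (· ∈ M)
  rw [e, card_product, card_powersetCard, card_univ, Fintype.card_fin, num]
  congr 1
  omega

variable (F)

/-- The Koszul boundary. -/
noncomputable def dd : (Pt n → F) →ₗ[F] (Pt n → F) where
  toFun f := fun y => ∑ k ∈ y.1ᶜ,
    if 1 ≤ y.2 k then (sg k y.1 : F) * f (insert k y.1, y.2 - dl k) else 0
  map_add' f g := by
    funext y
    simp only [Pi.add_apply, ← sum_add_distrib]
    exact sum_congr rfl fun k _ => by split_ifs <;> ring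
  map_smul' c f := by
    funext y
    simp only [Pi.smul_apply, smul_eq_mul, RingHom.id_apply, mul_sum]
    exact sum_congr rfl fun k _ => by split_ifs <;> ring

open Classical in
/-- Restriction to a set of cells. -/
noncomputable def keep (Z : Pt n → Prop) : (Pt n → F) →ₗ[F] (Pt n → F) where
  toFun f := fun z => if Z z then f z else 0
  map_add' f g := by
    funext y
    by_cases h : Z y <;> simp [h]
  map_smul' c f := by
    funext y
    by_cases h : Z y <;> simp [h]

/-- Reduction modulo `M`. -/
noncomputable def prj (M : Set (Fin n → ℕ)) : (Pt n → F) →ₗ[F] (Pt n → F) :=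
  keep F fun z => z.2 ∉ M

/-- The function of one cell. -/
noncomputable def unit' (z : Pt n) : Pt n → F := Pi.single z 1

/-- The functions supported on a finite set of cells. -/
noncomputable def sp (Z : Finset (Pt n)) : Submodule F (Pt n → F) :=
  Submodule.span F (Set.range fun z : Z => unit' F (z : Pt n))

/-- The rank of the boundary modulo `M` leaving a position. -/
noncomputable def rkM (M : Set (Fin n → ℕ)) : ℕ → ℕ → ℕ
  | 0, _ => 0
  | p + 1, d => finrank F ((sp F (cells n (p + 1) d)).map (prj F M ∘ₗ dd F))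

/-- The Betti number at position `p` and degree `p + d`. -/
noncomputable def hM (M : Set (Fin n → ℕ)) (p d : ℕ) : ℕ :=
  (outCells M p d).card - rkM F M p d - (if d = 0 then 0 else rkM F M (p + 1) (d - 1))

variable {F}

lemma dd_apply (f : Pt n → F) (y : Pt n) :
    dd F f y = ∑ k ∈ y.1ᶜ,
      if 1 ≤ y.2 k then (sg k y.1 : F) * f (insert k y.1, y.2 - dl k) else 0 := rfl

open Classical in
lemma keep_apply (Z : Pt n → Prop) (f : Pt n → F) (z : Pt n) :
    keep F Z f z = if Z z then f z else 0 := rfl

open Classical in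
lemma prj_apply (M : Set (Fin n → ℕ)) (f : Pt n → F) (z : Pt n) :
    prj F M f z = if z.2 ∈ M then 0 else f z := by
  rw [prj, keep_apply]
  by_cases h : z.2 ∈ M <;> simp [h]

lemma unit'_self (z : Pt n) : unit' F z z = 1 := Pi.single_eq_same _ _

lemma unit'_of_ne {z w : Pt n} (h : w ≠ z) : unit' F z w = 0 := Pi.single_eq_of_ne h _

lemma unit'_mem_sp {Z : Finset (Pt n)} {z : Pt n} (hz : z ∈ Z) : unit' F z ∈ sp F Z :=
  Submodule.subset_span ⟨⟨z, hz⟩, rfl⟩

lemma mem_sp {Z : Finset (Pt n)} {f : Pt n → F} :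
    f ∈ sp F Z ↔ ∀ z, z ∉ Z → f z = 0 := by
  classical
  refine ⟨fun h z hz => ?_, fun h => ?_⟩
  · induction h using Submodule.span_induction with
    | mem y hy =>
      obtain ⟨w, rfl⟩ := hy
      exact unit'_of_ne fun e => hz (e ▸ w.2)
    | zero => rfl
    | add a b _ _ ha hb => simp [ha, hb]
    | smul r a _ ha => simp [ha]
  · have e : f = ∑ z ∈ Z, f z • unit' F z := by
      funext w
      simp only [Finset.sum_apply, Pi.smul_apply, smul_eq_mul, unit', Pi.single_apply]
      by_cases hw : w ∈ Z
      · simp [hw]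
      · simp [hw, h w hw]
    rw [e]
    exact Submodule.sum_mem _ fun z hz => Submodule.smul_mem _ _ (unit'_mem_sp hz)

lemma sp_mono {Z Z' : Finset (Pt n)} (h : Z ⊆ Z') : (sp F Z : Submodule F (Pt n → F)) ≤ sp F Z' :=
  fun _ hf => mem_sp.2 fun z hz => mem_sp.1 hf z fun hz' => hz (h hz')

instance (Z : Finset (Pt n)) : FiniteDimensional F (sp F Z) :=
  FiniteDimensional.span_of_finite F (Set.finite_range _)

lemma finrank_sp (Z : Finset (Pt n)) : finrank F (sp F Z) = Z.card := by
  classical
  have hli : LinearIndependent F fun z : Z => unit' F (z : Pt n) := by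
    rw [Fintype.linearIndependent_iff]
    intro g hg z
    have := congrFun hg z.1
    simp only [Finset.sum_apply, Pi.smul_apply, smul_eq_mul, Pi.zero_apply] at this
    rw [Finset.sum_eq_single z (fun w _ hw => by
      rw [unit'_of_ne (fun e => hw (Subtype.ext e.symm)), mul_zero]) (by simp), unit'_self,
      mul_one] at this
    exact this
  rw [sp, finrank_span_eq_card hli, Fintype.card_coe]

lemma add_sub_dl {a : Fin n → ℕ} {k : Fin n} : a + dl k - dl k = a := by
  funext i; simp

lemma sub_add_dl {a : Fin n → ℕ} {k : Fin n} (h : 1 ≤ a k) : a - dl k + dl k = a := by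
  funext i
  rcases eq_or_ne i k with rfl | hi
  · simp [dl]; omega
  · simp [dl, hi]

lemma sum_dl (k : Fin n) : ∑ i, dl k i = 1 := by simp [dl]

lemma dl_apply_self (k : Fin n) : dl k k = 1 := by simp [dl]

lemma dl_apply_of_ne {i k : Fin n} (h : i ≠ k) : dl k i = 0 := by simp [dl, h]

lemma sum_sub_dl {a : Fin n → ℕ} {k : Fin n} (h : 1 ≤ a k) :
    ∑ i, (a - dl k) i + 1 = ∑ i, a i := by
  conv_rhs => rw [← sub_add_dl h]
  simp [Pi.add_apply, sum_add_distrib, sum_dl]

lemma dd_mem {p d : ℕ} {f : Pt n → F} (hf : f ∈ sp F (cells n (p + 1) d)) :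
    dd F f ∈ sp F (cells n p (d + 1)) := by
  classical
  refine mem_sp.2 fun z hz => ?_
  rw [dd_apply]
  refine sum_eq_zero fun k hk => ?_
  split_ifs with h
  · rw [mem_sp.1 hf, mul_zero]
    intro h'
    obtain ⟨h1, h2⟩ := mem_cells.1 h'
    rw [card_insert_of_notMem (mem_compl.1 hk)] at h1
    have := sum_sub_dl h
    simp only at h2
    exact hz (mem_cells.2 ⟨by omega, by omega⟩)
  · rfl

lemma prj_dd_prj {M : Set (Fin n → ℕ)} (hM : IsUp M) (f : Pt n → F) :
    prj F M (dd F (prj F M f)) = prj F M (dd F f) := by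
  classical
  funext y
  simp only [prj_apply]
  split_ifs with h
  · rfl
  · simp only [dd_apply]
    refine sum_congr rfl fun k _ => ?_
    split_ifs with hk
    · rw [prj_apply, if_neg]
      intro hm
      exact h (sub_add_dl hk ▸ hM _ hm k)
    · rfl

lemma sg_swap {k l : Fin n} {T : Finset (Fin n)} (hk : k ∉ T) (hl : l ∉ T) (h : k ≠ l) :
    sg k T * sg l (insert k T) + sg l T * sg k (insert l T) = 0 := by
  have hk' : k ∉ T.filter (l < ·) := fun h => hk (mem_filter.1 h).1
  have hl' : l ∉ T.filter (k < ·) := fun h => hl (mem_filter.1 h).1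
  unfold sg
  rw [filter_insert, filter_insert]
  rcases lt_or_gt_of_ne h with hlt | hlt
  · rw [if_neg (not_lt.2 hlt.le), if_pos hlt, card_insert_of_notMem hl', pow_succ]
    ring
  · rw [if_pos hlt, if_neg (not_lt.2 hlt.le), card_insert_of_notMem hk', pow_succ]
    ring

lemma dd_dd (f : Pt n → F) : dd F (dd F f) = 0 := by
  classical
  funext y
  simp only [dd_apply, mul_sum, Pi.zero_apply, mul_ite, mul_zero]
  have : ∀ k ∈ y.1ᶜ, (if 1 ≤ y.2 k then ∑ l ∈ (insert k y.1)ᶜ,
      (if 1 ≤ (y.2 - dl k) l then (sg k y.1 : F) *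
        ((sg l (insert k y.1) : F) * f (insert l (insert k y.1), y.2 - dl k - dl l)) else 0) else 0) =
      ∑ l ∈ (insert k y.1)ᶜ, if 1 ≤ y.2 k ∧ 1 ≤ y.2 l then (sg k y.1 : F) *
        ((sg l (insert k y.1) : F) * f (insert l (insert k y.1), y.2 - dl k - dl l)) else 0 := by
    intro k _
    split_ifs with h
    · refine sum_congr rfl fun l hl => ?_
      have hne : l ≠ k := fun e => (mem_compl.1 hl) (e ▸ mem_insert_self _ _)
      simp [dl, hne, h]
    · exact (sum_eq_zero fun l _ => if_neg fun h' => h h'.1).symm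
  rw [sum_congr rfl this, sum_sigma']
  refine sum_involution (fun x _ => (⟨x.2, x.1⟩ : Σ _ : Fin n, Fin n)) ?_ ?_ ?_ ?_
  · rintro ⟨k, l⟩ hx
    simp only [mem_sigma, mem_compl, mem_insert, not_or] at hx
    obtain ⟨hk, hlk, hl⟩ := hx
    simp only
    by_cases hb : 1 ≤ y.2 k ∧ 1 ≤ y.2 l
    · rw [if_pos hb, if_pos ⟨hb.2, hb.1⟩, Finset.insert_comm k l,
        show y.2 - dl l - dl k = y.2 - dl k - dl l by funext i; simp; omega]
      have h := congrArg (fun t : ℤ => (t : F)) (sg_swap hk hl (Ne.symm hlk))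
      simp only [Int.cast_add, Int.cast_mul, Int.cast_zero] at h
      linear_combination (f (insert l (insert k y.1), y.2 - dl k - dl l)) * h
    · rw [if_neg hb, if_neg fun h => hb ⟨h.2, h.1⟩, add_zero]
  · rintro ⟨k, l⟩ hx - h
    simp only [mem_sigma, mem_compl, mem_insert, not_or] at hx
    exact hx.2.1 (congrArg Sigma.fst h)
  · rintro ⟨k, l⟩ hx
    simp only [mem_sigma, mem_compl, mem_insert, not_or] at hx ⊢
    exact ⟨hx.2.2, Ne.symm hx.2.1, hx.1⟩
  · intros
    rfl

end Vale.Agent.P200.Betti.Free
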