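import Vale.Agent.P200.Betti.Free.FramePow
import Vale.Agent.P200.Skew.Final
import Vale.Agent.P200.Cyc.Final

/-!
Ideals containing a regular sequence of forms of one prime degree have Betti numbers at most those
of a monomial ideal with the powers and the same Hilbert function.
-/

namespace Vale.Agent.P200.Betti.Skew

open MvPolynomial Module

universe u

variable {K : Type u} [Field K]

/-- The degeneration for forms of one degree with linear factorisations. -/
theorem exists_monomial_betti_of_factorises {n c q : ℕ} (hq : 0 < q)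
    (H : Vale.Agent.P200.Skew.Factorises (AlgebraicClosure K) n q) (hcn : c ≤ n)
    {f : Fin c → MvPolynomial (Fin n) K}
    (hf : ∀ i, (f i).IsHomogeneous q) (hreg : RegList ⊥ (List.ofFn f))
    {I : Ideal (MvPolynomial (Fin n) K)} (hI : HomogI I) (hfI : ∀ i, f i ∈ I) :
    ∃ T : ℕ → Finset (Fin n →₀ ℕ),
      (∀ d, ∀ e ∈ T d, e.degree = d) ∧
      (∀ d, ∀ e : Fin n →₀ ℕ, e.degree = d → (∃ i : Fin c, q ≤ e (Fin.castLE hcn i)) → e ∈ T d) ∧
      (∀ d, ∀ e ∈ T d, ∀ v, e + Finsupp.single v 1 ∈ T (d + 1)) ∧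
      (∀ d, (T d).card = finrank K (degPart d I)) ∧
      ∀ p j, betti I p j ≤ betti (setIdeal T K) p j := by
  classical
  obtain ⟨m, rfl⟩ : ∃ m, n = c + m := ⟨n - c, by omega⟩
  obtain ⟨D, _, _, _, ⟨M⟩⟩ := exists_datum hq H hf hreg
  have hIf : HomogI (Ideal.span (Set.range f)) := by
    have := homogI_ofList' (L := List.ofFn f) fun g hg => by
      obtain ⟨i, rfl⟩ := List.mem_ofFn.1 hg
      exact ⟨q, hq, hf i⟩
    convert this using 1
    exact congrArg Ideal.span (Set.ext fun x => by simp [List.mem_ofFn])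
  refine ⟨M.exps I, fun d e he => (M.mem_exps.1 he).1, fun d e hd he => ?_,
    fun d e he v => M.exps_closed (fun _ => hq) he v,
    fun d => M.card_exps (fun _ => hq) hIf hI hfI d,
    M.betti_le_exps (fun _ => hq) hIf hI hfI⟩
  obtain ⟨i, hi⟩ := he
  exact M.exps_powers hd ⟨i, hi⟩

/-- Linear factorisations for forms of prime degree, the characteristic not below the degree. -/
theorem factorises_closure {p : ℕ} (hp : p.Prime) (hchar : ringChar K = 0 ∨ p ≤ ringChar K)
    (n : ℕ) : Vale.Agent.P200.Skew.Factorises (AlgebraicClosure K) n p := by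
  by_cases he : ringChar K = p
  · have : Fact p.Prime := ⟨hp⟩
    have : CharP K p := he ▸ ringChar.charP K
    have : CharP (AlgebraicClosure K) p :=
      charP_of_injective_algebraMap (algebraMap K (AlgebraicClosure K)).injective p
    exact Vale.Agent.P200.Skew.factorises_prime n
  · refine fun f hf hreg => Cyc.factorises hp (fun i h1 h2 => ?_) hf hreg
    rw [← map_natCast (algebraMap K (AlgebraicClosure K))]
    intro h
    have h0 : (i : K) = 0 := (map_eq_zero _).1 h
    rw [ringChar.spec] at h0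
    have := Nat.le_of_dvd h1 h0
    rcases hchar with h | h
    · rw [h, zero_dvd_iff] at h0; omega
    · omega

/-- The degeneration for forms of prime degree. -/
theorem exists_monomial_betti_prime {n c p : ℕ} (hp : p.Prime)
    (hchar : ringChar K = 0 ∨ p ≤ ringChar K) (hcn : c ≤ n)
    {f : Fin c → MvPolynomial (Fin n) K}
    (hf : ∀ i, (f i).IsHomogeneous p) (hreg : RegList ⊥ (List.ofFn f))
    {I : Ideal (MvPolynomial (Fin n) K)} (hI : HomogI I) (hfI : ∀ i, f i ∈ I) :
    ∃ T : ℕ → Finset (Fin n →₀ ℕ),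
      (∀ d, ∀ e ∈ T d, e.degree = d) ∧
      (∀ d, ∀ e : Fin n →₀ ℕ, e.degree = d → (∃ i : Fin c, p ≤ e (Fin.castLE hcn i)) → e ∈ T d) ∧
      (∀ d, ∀ e ∈ T d, ∀ v, e + Finsupp.single v 1 ∈ T (d + 1)) ∧
      (∀ d, (T d).card = finrank K (degPart d I)) ∧
      ∀ q j, betti I q j ≤ betti (setIdeal T K) q j :=
  exists_monomial_betti_of_factorises hp.pos (factorises_closure hp hchar n) hcn hf hreg hI hfI

end Vale.Agent.P200.Betti.Skew
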