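import Vale.Agent.P200.Betti.Free.Frame
import Vale.Agent.P200.Quad.Artinian

/-!
Ordered words in twisted commuting linear elements and the filtration by the free ones.
-/

namespace Vale.Agent.P200.Betti.Skew

open MvPolynomial Module
open scoped TensorProduct
open Vale.Agent.P200.Quad (Quo quoDeg mkA finrank_span_one_tmul finite_quoDeg)

universe u

variable {K : Type u} [Field K] {c m : ℕ} {D : Type u} [DivisionRing D] [Algebra K D]
  {Z : Type*} [Field Z] [Algebra Z D]
variable (f : Fin c → MvPolynomial (Fin (c + m)) K)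

attribute [local instance] tensorRing

/-- The data: twisted commuting rows, the last ones multiples of central linear elements, powers of
the first ones lying among the multiples of these and of the later first ones. -/
structure Datum (Z : Type*) [Field Z] [Algebra Z D] (a : Fin c → ℕ) where
  /-- the rows -/
  g : Fin (c + m) → Fin (c + m) → D
  /-- an inverse -/
  E : Fin (c + m) → Fin (c + m) → D
  /-- the factors of the last rows -/
  u : Fin m → D
  /-- the central linear elements -/
  Y : Fin m → D ⊗[K] Quo f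
  /-- the twists -/
  q : Fin (c + m) → Fin (c + m) → Z
  q_ne : ∀ k l, k < l → q k l ≠ 0
  comm : ∀ k l, k < l → ∀ i j, g l j * g k i = algebraMap Z D (q k l) * (g k i * g l j)
  inv : ∀ i j, ∑ k, E i k * g k j = if i = j then 1 else 0
  Y_comm : ∀ j v, v * Y j = Y j * v
  Y_mem : ∀ j, Y j ∈ pc f 1
  u_ne : ∀ j, u j ≠ 0
  lin_eq : ∀ j, lin f (g (Fin.natAdd c j)) = u j ⊗ₜ[K] (1 : Quo f) * Y j
  pow_mem : ∀ k : Fin c, lin f (g (Fin.castAdd m k)) ^ a k ∈
    (⨆ j, (pc (D := D) f (a k - 1)).map (rm f (Y j))) ⊔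
      ⨆ (l : Fin c) (_ : k < l), (pc (D := D) f (a k - 1)).map (rm f (lin f (g (Fin.castAdd m l))))

variable {f} {a : Fin c → ℕ} (M : Datum f (D := D) Z a)

namespace Datum

/-- The linear element of a row. -/
noncomputable def G (k : Fin (c + m)) : D ⊗[K] Quo f := lin f (M.g k)

lemma G_mem (k : Fin (c + m)) : M.G k ∈ pc f 1 := lin_mem_pc f _

/-- Multiples of products of `j` central linear elements, in degree `d`. -/
noncomputable def fl : ℕ → ℕ → Submodule D (D ⊗[K] Quo f)
  | d, 0 => pc f d
  | 0, _ + 1 => ⊥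
  | d + 1, j + 1 => ⨆ i, (fl d j).map (rm f (M.Y i))

lemma fl_zero (d : ℕ) : M.fl d 0 = pc f d := by cases d <;> rfl

lemma mul_Y_mem {d j : ℕ} {v : D ⊗[K] Quo f} (hv : v ∈ M.fl d j) (i : Fin m) :
    v * M.Y i ∈ M.fl (d + 1) (j + 1) :=
  le_iSup (fun i => (M.fl d j).map (rm f (M.Y i))) i ⟨v, hv, rfl⟩

lemma mul_pc_mem : ∀ (j d : ℕ) {e : ℕ} {v w : D ⊗[K] Quo f},
    v ∈ M.fl d j → w ∈ pc f e → v * w ∈ M.fl (d + e) j := by
  intro j
  induction j with
  | zero =>
    intro d e v w hv hw
    rw [fl_zero] at hv ⊢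
    exact mul_mem_pc f hv hw
  | succ j ih =>
    intro d e v w hv hw
    cases d with
    | zero =>
      rw [show M.fl 0 (j + 1) = ⊥ from rfl, Submodule.mem_bot] at hv
      rw [hv, zero_mul]
      exact zero_mem _
    | succ d =>
      change v ∈ ⨆ i, (M.fl d j).map (rm f (M.Y i)) at hv
      induction hv using Submodule.iSup_induction' with
      | mem i x hx =>
        obtain ⟨y, hy, rfl⟩ := hx
        rw [rm_apply, mul_assoc, ← M.Y_comm, ← mul_assoc, show d + 1 + e = d + e + 1 by omega]
        exact M.mul_Y_mem (ih d hy hw) i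
      | zero => simp
      | add x y _ _ hx hy => rw [add_mul]; exact add_mem hx hy

lemma fl_succ_le : ∀ (j d : ℕ), M.fl d (j + 1) ≤ M.fl d j := by
  intro j
  induction j with
  | zero =>
    intro d
    cases d with
    | zero => exact bot_le
    | succ d =>
      refine iSup_le fun i => Submodule.map_le_iff_le_comap.2 fun v hv => ?_
      rw [fl_zero] at hv ⊢
      exact mul_mem_pc f hv (M.Y_mem i)
  | succ j ih =>
    intro d
    cases d with
    | zero => exact bot_le
    | succ d => exact iSup_mono fun i => Submodule.map_mono (ih d)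

lemma fl_antitone (d : ℕ) : Antitone (M.fl d) := antitone_nat_of_succ_le fun j => M.fl_succ_le j d

lemma tmul_one_mem (x : D) : x ⊗ₜ[K] (1 : Quo f) ∈ pc f 0 :=
  mem_pc_tmul f x ⟨1, isHomogeneous_one _ _,
    map_one (Ideal.Quotient.mkₐ K (Ideal.span (Set.range f)))⟩

lemma pc_zero_le : pc (D := D) f 0 ≤ Submodule.span D {(1 : D ⊗[K] Quo f)} := by
  refine Submodule.span_le.2 ?_
  rintro _ ⟨q, ⟨u, hu, rfl⟩, rfl⟩
  rw [show u = C (coeff 0 u) from totalDegree_eq_zero_iff_eq_C.1 (Nat.le_zero.1 hu.totalDegree_le),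
    C_eq_smul_one, map_smul, show mkA f 1 = 1 from
      map_one (Ideal.Quotient.mkₐ K (Ideal.span (Set.range f)))]
  simp only [SetLike.mem_coe, TensorProduct.tmul_smul]
  exact Submodule.smul_of_tower_mem _ _ (Submodule.subset_span rfl)

lemma pc_succ_le (d : ℕ) : pc (D := D) f (d + 1) ≤ ⨆ k, (pc f d).map (rm f (M.G k)) := by
  refine Submodule.span_le.2 ?_
  rintro _ ⟨q, ⟨u, hu, rfl⟩, rfl⟩
  have hu' : u ∈ homogeneousSubmodule (Fin (c + m)) K d * homogeneousSubmodule (Fin (c + m)) K 1 := by
    rw [← homogeneousSubmodule_one_pow (σ := Fin (c + m)) (R := K) d, ← pow_succ,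
      homogeneousSubmodule_one_pow]
    exact hu
  clear hu
  induction hu' using Submodule.mul_induction_on' with
  | mem_mul_mem x hx y hy =>
    rw [homogeneousSubmodule_one_eq_span_X] at hy
    induction hy using Submodule.span_induction with
    | mem y hy =>
      obtain ⟨i, rfl⟩ := hy
      have key : ∑ k, (M.E i k ⊗ₜ[K] mkA f x) * M.G k = (1 : D) ⊗ₜ[K] mkA f (x * X i) := by
        simp only [G, lin, Finset.mul_sum, tmul_mul]
        rw [Finset.sum_comm]
        simp only [← TensorProduct.sum_tmul, M.inv]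
        rw [Finset.sum_eq_single i (fun j _ hj => by simp [Ne.symm hj]) (by simp), if_pos rfl,
          show mkA f (x * X i) = mkA f x * mkA f (X i) from
            map_mul (Ideal.Quotient.mkₐ K (Ideal.span (Set.range f))) _ _]
      show (1 : D) ⊗ₜ[K] mkA f (x * X i) ∈ ⨆ k, (pc f d).map (rm f (M.G k))
      rw [← key]
      exact sum_mem fun k _ => le_iSup (fun k => (pc f d).map (rm f (M.G k))) k
        ⟨_, mem_pc_tmul f _ ⟨x, hx, rfl⟩, rfl⟩
    | zero => simp
    | add y y' _ _ hy hy' =>
      simp only [SetLike.mem_coe] at hy hy' ⊢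
      rw [mul_add, map_add, TensorProduct.tmul_add]; exact add_mem hy hy'
    | smul r y _ hy =>
      simp only [SetLike.mem_coe] at hy ⊢
      rw [mul_smul_comm, map_smul, TensorProduct.tmul_smul]
      exact Submodule.smul_of_tower_mem _ _ hy
  | add x _ y _ hx hy =>
    simp only [SetLike.mem_coe] at hx hy ⊢
    rw [map_add, TensorProduct.tmul_add]; exact add_mem hx hy

lemma mul_G_y {d j : ℕ} {v : D ⊗[K] Quo f} (hv : v ∈ M.fl d j) (i : Fin m) :
    v * M.G (Fin.natAdd c i) ∈ M.fl (d + 1) (j + 1) := by
  rw [G, M.lin_eq, ← mul_assoc]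
  exact M.mul_Y_mem (by simpa using M.mul_pc_mem j d hv (tmul_one_mem (M.u i))) i

lemma fl_succ_le_G (d j : ℕ) :
    M.fl (d + 1) (j + 1) ≤ ⨆ i, (M.fl d j).map (rm f (M.G (Fin.natAdd c i))) := by
  refine iSup_mono fun i => ?_
  rintro _ ⟨v, hv, rfl⟩
  refine ⟨v * ((M.u i)⁻¹ ⊗ₜ[K] (1 : Quo f)),
    by simpa using M.mul_pc_mem j d hv (tmul_one_mem (M.u i)⁻¹), ?_⟩
  simp only [rm_apply, G, M.lin_eq]
  rw [mul_assoc, ← mul_assoc (_ ⊗ₜ[K] _) (_ ⊗ₜ[K] _) (M.Y i), tmul_mul, inv_mul_cancel₀ (M.u_ne i),
    one_mul, ← Algebra.TensorProduct.one_def, one_mul]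

lemma mul_central (z : Z) (w v : D ⊗[K] Quo f) :
    w * (algebraMap Z D z • v) = algebraMap Z D z • (w * v) := by
  induction v using TensorProduct.induction_on with
  | zero => simp
  | add a b ha hb => simp only [smul_add, mul_add, ha, hb]
  | tmul x p =>
    induction w using TensorProduct.induction_on with
    | zero => simp
    | add a b ha hb => simp only [smul_add, add_mul, ha, hb]
    | tmul y r =>
      simp only [TensorProduct.smul_tmul', smul_eq_mul, tmul_mul]
      rw [← mul_assoc, ← Algebra.commutes z y, mul_assoc]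

lemma G_swap {k l : Fin (c + m)} (h : k < l) :
    M.G l * M.G k = algebraMap Z D (M.q k l) • (M.G k * M.G l) := by
  simp only [G, lin, Finset.sum_mul_sum, tmul_mul, Finset.smul_sum, TensorProduct.smul_tmul',
    smul_eq_mul]
  rw [Finset.sum_comm]
  refine Finset.sum_congr rfl fun i _ => Finset.sum_congr rfl fun j _ => ?_
  rw [M.comm k l h, mul_comm (mkA f (X j))]

/-- The product of the elements along a list. -/
noncomputable def word (l : List (Fin (c + m))) : D ⊗[K] Quo f := (l.map M.G).prod

/-- The number of free positions. -/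
def yc (l : List (Fin (c + m))) : ℕ := l.countP fun k : Fin (c + m) => decide (c ≤ (k : ℕ))

lemma word_perm {l l' : List (Fin (c + m))} (h : l.Perm l') :
    ∃ z : Z, M.word l = algebraMap Z D z • M.word l' := by
  induction h with
  | nil => exact ⟨1, by simp⟩
  | cons k _ ih =>
    obtain ⟨z, hz⟩ := ih
    refine ⟨z, ?_⟩
    simp only [word, List.map_cons, List.prod_cons] at hz ⊢
    rw [hz, mul_central]
  | swap x y l =>
    simp only [word, List.map_cons, List.prod_cons, ← mul_assoc]
    rcases lt_trichotomy x y with h | h | h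
    · exact ⟨M.q x y, by rw [M.G_swap h, smul_mul_assoc]⟩
    · exact ⟨1, by rw [h, map_one, one_smul]⟩
    · refine ⟨(M.q y x)⁻¹, ?_⟩
      rw [M.G_swap h, smul_mul_assoc, smul_smul, ← map_mul, inv_mul_cancel₀ (M.q_ne _ _ h),
        map_one, one_smul]
  | trans _ _ ih₁ ih₂ =>
    obtain ⟨z, hz⟩ := ih₁
    obtain ⟨z', hz'⟩ := ih₂
    exact ⟨z * z', by rw [hz, hz', smul_smul, map_mul]⟩

lemma mul_word_mem : ∀ (l : List (Fin (c + m))) {d j : ℕ} {v : D ⊗[K] Quo f},
    v ∈ M.fl d j → v * M.word l ∈ M.fl (d + l.length) (j + yc l)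
  | [], d, j, v, hv => by simpa [word, yc] using hv
  | k :: l, d, j, v, hv => by
    simp only [word, List.map_cons, List.prod_cons, ← mul_assoc]
    induction k using Fin.addCases with
    | left i =>
      have h := mul_word_mem l (M.mul_pc_mem j d hv (M.G_mem (Fin.castAdd m i)))
      simpa [word, yc, List.countP_cons, add_assoc, add_comm 1] using h
    | right i =>
      have h := mul_word_mem l (M.mul_G_y hv i)
      simpa [word, yc, List.countP_cons, add_assoc, add_comm 1] using h

lemma fl_le_words : ∀ (d j : ℕ),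
    M.fl d j ≤ Submodule.span D (M.word '' {l | l.length = d ∧ j ≤ yc l}) := by
  intro d
  induction d with
  | zero =>
    intro j
    cases j with
    | zero =>
      rw [fl_zero]
      refine pc_zero_le.trans (Submodule.span_mono ?_)
      rintro _ rfl
      exact ⟨[], by simp, by simp [word]⟩
    | succ j => exact bot_le
  | succ d ih =>
    have step : ∀ (j : ℕ) (k : Fin (c + m)) v, v ∈ M.fl d j →
        v * M.G k ∈ Submodule.span D
          (M.word '' {l | l.length = d + 1 ∧ j + (if c ≤ (k : ℕ) then 1 else 0) ≤ yc l}) := by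
      intro j k v hv
      have hv' := ih j hv
      clear hv
      induction hv' using Submodule.span_induction with
      | mem x hx =>
        obtain ⟨l, ⟨hl, hj⟩, rfl⟩ := hx
        refine Submodule.subset_span ⟨l ++ [k], ⟨by simp [hl], ?_⟩, by simp [word]⟩
        simp only [yc, List.countP_append, List.countP_singleton, decide_eq_true_eq] at hj ⊢
        omega
      | zero => simp
      | add x y _ _ hx hy => rw [add_mul]; exact add_mem hx hy
      | smul r x _ hx => rw [smul_mul_assoc]; exact Submodule.smul_mem _ _ hx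
    intro j
    cases j with
    | zero =>
      rw [fl_zero]
      refine (M.pc_succ_le d).trans (iSup_le fun k => ?_)
      rintro _ ⟨v, hv, rfl⟩
      refine Submodule.span_mono (Set.image_mono ?_) (step 0 k v (by rwa [fl_zero]))
      exact fun l hl => ⟨hl.1, Nat.zero_le _⟩
    | succ j =>
      refine (M.fl_succ_le_G d j).trans (iSup_le fun i => ?_)
      rintro _ ⟨v, hv, rfl⟩
      refine Submodule.span_mono (Set.image_mono ?_) (step j _ v hv)
      intro l hl
      exact ⟨hl.1, by simpa using hl.2⟩

/-- The increasing list of an exponent vector. -/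
noncomputable def expList (e : Fin (c + m) →₀ ℕ) : List (Fin (c + m)) :=
  (List.finRange (c + m)).flatMap fun i => List.replicate (e i) i

lemma count_expList (e : Fin (c + m) →₀ ℕ) (i : Fin (c + m)) : (expList e).count i = e i := by
  rw [expList, List.count_flatMap, show List.count i ∘ (fun j => List.replicate (e j) j) =
    fun j => if j = i then e j else 0 by
      funext j
      simp [List.count_replicate]]
  rw [← List.ofFn_eq_map, List.sum_ofFn]
  simp

lemma pairwise_expList (e : Fin (c + m) →₀ ℕ) : (expList e).Pairwise (· ≤ ·) := by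
  rw [expList, List.pairwise_flatMap]
  refine ⟨fun i _ => List.pairwise_replicate.2 (Or.inr le_rfl), ?_⟩
  refine List.Pairwise.imp ?_ (List.pairwise_lt_finRange (c + m))
  intro x y hxy x' hx' y' hy'
  rw [List.eq_of_mem_replicate hx', List.eq_of_mem_replicate hy']
  exact hxy.le

lemma length_expList (e : Fin (c + m) →₀ ℕ) : (expList e).length = e.degree := by
  rw [expList, List.length_flatMap, Finsupp.degree_eq_sum]
  simp [← List.ofFn_eq_map, List.sum_ofFn]

/-- The total exponent of the free positions. -/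
def ydeg (e : Fin (c + m) →₀ ℕ) : ℕ := ∑ i : Fin m, e (Fin.natAdd c i)

lemma yc_expList (e : Fin (c + m) →₀ ℕ) : yc (expList e) = ydeg e := by
  rw [yc, expList, List.countP_flatMap]
  simp only [Function.comp_def, List.countP_replicate, decide_eq_true_eq, ← List.ofFn_eq_map,
    List.sum_ofFn, Fin.sum_univ_add, Fin.val_castAdd, Fin.val_natAdd]
  rw [Finset.sum_eq_zero fun i _ => if_neg (by omega), zero_add]
  exact Finset.sum_congr rfl fun i _ => if_pos (by omega)

/-- The increasing word of an exponent vector. -/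
noncomputable def w (e : Fin (c + m) →₀ ℕ) : D ⊗[K] Quo f := M.word (expList e)

lemma w_mem (e : Fin (c + m) →₀ ℕ) : M.w e ∈ M.fl e.degree (ydeg e) := by
  have h := M.mul_word_mem (expList e) (d := 0) (j := 0) (v := 1)
    (by rw [fl_zero, Algebra.TensorProduct.one_def]; exact tmul_one_mem 1)
  simpa [w, length_expList, yc_expList] using h

lemma word_eq_w (l : List (Fin (c + m))) (e : Fin (c + m) →₀ ℕ) (h : ∀ i, l.count i = e i) :
    ∃ z : Z, M.word l = algebraMap Z D z • M.w e :=
  M.word_perm (List.perm_iff_count.2 fun i => by rw [h, count_expList])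

lemma word_mul_G : ∀ (l : List (Fin (c + m))) (k : Fin (c + m)), l.Pairwise (· ≤ ·) →
    M.word l * M.G k = algebraMap Z D ((l.map fun i => if k < i then M.q k i else 1).prod) •
      M.word (l.orderedInsert (· ≤ ·) k)
  | [], k, _ => by simp [word]
  | x :: l, k, h => by
    obtain ⟨hx, hl⟩ := List.pairwise_cons.1 h
    have ih := word_mul_G l k hl
    simp only [word, List.map_cons, List.prod_cons] at ih ⊢
    rw [mul_assoc, ih, mul_central]
    by_cases hkx : k ≤ x
    · rw [List.orderedInsert_cons, if_pos hkx]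
      have hins : l.orderedInsert (· ≤ ·) k = k :: l := by
        cases l with
        | nil => rfl
        | cons y l => rw [List.orderedInsert_cons, if_pos (hkx.trans (hx y (by simp)))]
      rw [hins]
      simp only [List.map_cons, List.prod_cons, ← mul_assoc]
      rcases eq_or_lt_of_le hkx with rfl | hlt
      · rw [if_neg (lt_irrefl _), one_mul]
      · rw [if_pos hlt, M.G_swap hlt, smul_mul_assoc, smul_smul, ← map_mul, mul_comm]
    · rw [List.orderedInsert_cons, if_neg hkx, if_neg (fun h' => hkx h'.le), one_mul]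
      simp [mul_assoc]

/-- The twist met when a position enters an increasing word. -/
noncomputable def tw (k : Fin (c + m)) (e : Fin (c + m) →₀ ℕ) : Z :=
  ∏ i ∈ Finset.univ.filter (k < ·), M.q k i ^ e i

lemma w_mul_G (e : Fin (c + m) →₀ ℕ) (k : Fin (c + m)) :
    M.w e * M.G k = algebraMap Z D (M.tw k e) • M.w (e + Finsupp.single k 1) := by
  rw [w, M.word_mul_G _ k (pairwise_expList e), w]
  congr 2
  · rw [tw, expList, List.map_flatMap, List.flatMap, List.prod_flatten, List.map_map, Function.comp_def]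
    simp only [List.map_replicate, List.prod_replicate, ← List.ofFn_eq_map, List.prod_ofFn]
    rw [Finset.prod_filter]
    exact Finset.prod_congr rfl fun i _ => by split_ifs <;> simp
  · refine List.Perm.eq_of_pairwise' (r := (· ≤ ·)) ((pairwise_expList e).orderedInsert k _)
      (pairwise_expList _) ?_
    refine List.perm_iff_count.2 fun i => ?_
    rw [(List.perm_orderedInsert _ k _).count_eq, List.count_cons, count_expList, count_expList,
      Finsupp.add_apply, Finsupp.single_apply]
    simp

/-- The reduced exponents of a degree. -/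
noncomputable def red (a : Fin c → ℕ) (d : ℕ) : Finset (Fin (c + m) →₀ ℕ) :=
  ((Finset.univ : Finset (Fin (c + m))).finsuppAntidiag d).filter
    fun e => ∀ k : Fin c, e (Fin.castAdd m k) < a k

lemma mem_red {d : ℕ} {e : Fin (c + m) →₀ ℕ} :
    e ∈ red a d ↔ e.degree = d ∧ ∀ k : Fin c, e (Fin.castAdd m k) < a k := by
  simp [red, Finsupp.degree_eq_sum]

/-- The order on exponents: few free variables first, then more weight on early positions. -/
def key (e : Fin (c + m) →₀ ℕ) : Lex (OrderDual ℕ × OrderDual (Lex (Fin (c + m) →₀ ℕ))) :=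
  toLex (OrderDual.toDual (ydeg e),
    OrderDual.toDual (toLex (Finsupp.equivMapDomain Fin.revPerm e)))

lemma key_lt_iff {e e' : Fin (c + m) →₀ ℕ} :
    key e < key e' ↔ ydeg e' < ydeg e ∨ (ydeg e = ydeg e' ∧
      toLex (Finsupp.equivMapDomain Fin.revPerm e') <
        toLex (Finsupp.equivMapDomain Fin.revPerm e)) := by
  rw [key, key, Prod.Lex.toLex_lt_toLex]
  simp

lemma key_injective : Function.Injective (key (c := c) (m := m)) := fun e e' h => by
  have h2 := congrArg (fun x => ofLex (OrderDual.ofDual (ofLex x).2)) h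
  simp only [key, ofLex_toLex, OrderDual.ofDual_toDual] at h2
  ext i
  simpa using DFunLike.congr_fun h2 (Fin.revPerm i)

lemma ydeg_add (x e : Fin (c + m) →₀ ℕ) : ydeg (x + e) = ydeg x + ydeg e := by
  simp [ydeg, Finset.sum_add_distrib]

lemma key_add_lt_iff (x : Fin (c + m) →₀ ℕ) {e e' : Fin (c + m) →₀ ℕ} :
    key (x + e) < key (x + e') ↔ key e < key e' := by
  have hlex : ∀ u v : Fin (c + m) →₀ ℕ,
      toLex (Finsupp.equivMapDomain Fin.revPerm (x + u)) <
        toLex (Finsupp.equivMapDomain Fin.revPerm (x + v)) ↔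
      toLex (Finsupp.equivMapDomain Fin.revPerm u) <
        toLex (Finsupp.equivMapDomain Fin.revPerm v) := fun u v => by
    simp only [Finsupp.Lex.lt_iff, ofLex_toLex, Finsupp.equivMapDomain_apply, Finsupp.add_apply,
      Nat.add_left_cancel_iff, add_lt_add_iff_left]
  simp only [key_lt_iff, ydeg_add, add_lt_add_iff_left, Nat.add_left_cancel_iff, hlex]

/-- The exponent vector of a list. -/
noncomputable def cnt (l : List (Fin (c + m))) : Fin (c + m) →₀ ℕ :=
  Finsupp.equivFunOnFinite.symm fun i => l.count i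

lemma perm_cnt (l : List (Fin (c + m))) : l.Perm (expList (cnt l)) :=
  List.perm_iff_count.2 fun i => by rw [count_expList]; rfl

lemma degree_cnt (l : List (Fin (c + m))) : (cnt l).degree = l.length := by
  rw [← length_expList, ← (perm_cnt l).length_eq]

lemma ydeg_cnt (l : List (Fin (c + m))) : ydeg (cnt l) = yc l := by
  rw [← yc_expList, yc, yc, (perm_cnt l).countP_eq]

/-- A word with a high exponent lies among smaller ones. -/
lemma w_bad_lt (ha : ∀ k, 0 < a k) {e : Fin (c + m) →₀ ℕ} {k : Fin c}
    (h : a k ≤ e (Fin.castAdd m k)) :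
    M.w e ∈ Submodule.span D (M.w '' {e' | e'.degree = e.degree ∧ key e' < key e}) := by
  set k' := Fin.castAdd m k
  obtain ⟨e', rfl⟩ : ∃ e', e = Finsupp.single k' (a k) + e' :=
    le_iff_exists_add.1 (Finsupp.single_le_iff.2 h)
  obtain ⟨z, hz⟩ := M.word_perm (l := expList (Finsupp.single k' (a k) + e'))
    (l' := List.replicate (a k) k' ++ expList e') (List.perm_iff_count.2 fun i => by
      rw [List.count_append, count_expList, count_expList, List.count_replicate, Finsupp.add_apply,
        Finsupp.single_apply]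
      simp)
  rw [w, hz]
  refine Submodule.smul_mem _ _ ?_
  simp only [word, List.map_append, List.map_replicate, List.prod_append, List.prod_replicate]
  set S := Submodule.span D (M.w '' {e'' | e''.degree = (Finsupp.single k' (a k) + e').degree ∧
    key e'' < key (Finsupp.single k' (a k) + e')}) with hS
  have hdeg : (Finsupp.single k' (a k) + e').degree = a k + e'.degree := by
    rw [map_add, Finsupp.degree_single]
  have hy0 : ydeg (Finsupp.single k' (a k)) = 0 :=
    Finset.sum_eq_zero fun i _ => Finsupp.single_eq_of_ne (by simp [k', Fin.ext_iff]; omega)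
  have hword : ∀ l : List (Fin (c + m)), l.length = a k + e'.degree →
      key (cnt l) < key (Finsupp.single k' (a k) + e') → M.word l ∈ S := fun l hl hlt => by
    obtain ⟨z, hz⟩ := M.word_eq_w l (cnt l) fun i => rfl
    rw [hz]
    exact S.smul_mem _ (Submodule.subset_span ⟨_, ⟨by rw [degree_cnt, hl, hdeg], hlt⟩, rfl⟩)
  obtain ⟨b, hb⟩ : ∃ b, a k = b + 1 := ⟨a k - 1, by have := ha k; omega⟩
  have h2 := M.pow_mem k
  rw [hb, Nat.add_sub_cancel] at h2
  obtain ⟨y, hy, x, hx, hyx⟩ := Submodule.mem_sup.1 h2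
  rw [show M.G k' = lin f (M.g k') from rfl, hb, ← hyx, add_mul]
  refine add_mem ?_ ?_
  · have hy' : y ∈ M.fl (b + 1) 1 := by
      show y ∈ ⨆ i, (M.fl b 0).map (rm f (M.Y i))
      rwa [fl_zero]
    have h3 := M.fl_le_words _ _ (M.mul_word_mem (expList e') hy')
    refine Submodule.span_le.2 ?_ h3
    rintro _ ⟨l, ⟨hl, hj⟩, rfl⟩
    refine hword l (by rw [hl, length_expList, hb]) (key_lt_iff.2 (Or.inl ?_))
    rw [yc_expList] at hj
    rw [ydeg_add, hy0, ydeg_cnt]
    omega
  · have hle : (⨆ (l : Fin c) (_ : k < l),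
        (pc (D := D) f b).map (rm f (lin f (M.g (Fin.castAdd m l))))) ≤
        S.comap (rm f (M.word (expList e'))) := by
      refine iSup₂_le fun l hl => Submodule.map_le_iff_le_comap.2 ?_
      rw [← M.fl_zero]
      refine (M.fl_le_words b 0).trans (Submodule.span_le.2 ?_)
      rintro _ ⟨l₁, ⟨hl₁, -⟩, rfl⟩
      show M.word l₁ * M.G (Fin.castAdd m l) * M.word (expList e') ∈ S
      rw [show M.word l₁ * M.G (Fin.castAdd m l) * M.word (expList e') =
        M.word (l₁ ++ [Fin.castAdd m l] ++ expList e') by simp [word, mul_assoc]]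
      refine hword _ (by simp only [List.length_append, List.length_singleton, length_expList, hl₁, hb]) ?_
      rw [show cnt (l₁ ++ [Fin.castAdd m l] ++ expList e') =
          e' + cnt (l₁ ++ [Fin.castAdd m l]) by
        ext i
        simp only [cnt, Finsupp.equivFunOnFinite_symm_apply_apply, Finsupp.add_apply]
        rw [List.count_append, count_expList]
        omega,
        add_comm (Finsupp.single k' (a k)) e', key_add_lt_iff]
      set u := cnt (l₁ ++ [Fin.castAdd m l]) with hu
      rw [key_lt_iff, hy0]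
      rcases Nat.eq_zero_or_pos (ydeg u) with h0 | h0
      swap
      · exact Or.inl h0
      refine Or.inr ⟨h0, ?_⟩
      have hl' : Fin.castAdd m l ∈ u.support := by
        rw [Finsupp.mem_support_iff, hu]
        show List.count _ _ ≠ 0
        simp
      set p := u.support.max' ⟨_, hl'⟩
      have hkp : k' < p := lt_of_lt_of_le (show k' < Fin.castAdd m l from hl)
        (u.support.le_max' _ hl')
      have hp0 : u p ≠ 0 := Finsupp.mem_support_iff.1 (u.support.max'_mem ⟨_, hl'⟩)
      refine Finsupp.Lex.lt_iff.2 ⟨Fin.rev p, fun j hj => ?_, ?_⟩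
      · have hpj : p < Fin.rev j := by rwa [← Fin.rev_lt_rev, Fin.rev_rev]
        simp only [ofLex_toLex, Finsupp.equivMapDomain_apply, Fin.revPerm_symm, Fin.revPerm_apply]
        rw [Finsupp.single_eq_of_ne (hkp.trans hpj).ne']
        by_contra hne
        exact absurd (u.support.le_max' _ (Finsupp.mem_support_iff.2 (Ne.symm hne))) (not_le.2 hpj)
      · simp only [ofLex_toLex, Finsupp.equivMapDomain_apply, Fin.revPerm_symm, Fin.revPerm_apply,
          Fin.rev_rev]
        rw [Finsupp.single_eq_of_ne hkp.ne']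
        exact Nat.pos_of_ne_zero hp0
    exact hle hx

lemma w_le_red (ha : ∀ k, 0 < a k) {d : ℕ} : ∀ {e : Fin (c + m) →₀ ℕ}, e.degree = d →
    M.w e ∈ Submodule.span D (M.w '' {e' | e' ∈ red a d ∧ key e' ≤ key e}) := by
  classical
  intro e hd
  induction hm : (((Finset.univ : Finset (Fin (c + m))).finsuppAntidiag d).filter
      fun e' => key e' < key e).card using Nat.strong_induction_on generalizing e with
  | _ r ih =>
    by_cases hred : e ∈ red a d
    · exact Submodule.subset_span ⟨e, ⟨hred, le_rfl⟩, rfl⟩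
    obtain ⟨k, hk⟩ : ∃ k : Fin c, a k ≤ e (Fin.castAdd m k) := by
      by_contra h
      push Not at h
      exact hred (mem_red.2 ⟨hd, h⟩)
    refine Submodule.span_le.2 ?_ (M.w_bad_lt ha hk)
    rintro _ ⟨e', ⟨hd', hlt⟩, rfl⟩
    rw [hd] at hd'
    refine Submodule.span_mono ?_ (ih _ ?_ hd' rfl)
    · exact Set.image_mono fun x hx => ⟨hx.1, hx.2.trans hlt.le⟩
    rw [← hm]
    refine Finset.card_lt_card ⟨fun x hx => ?_, fun h' => ?_⟩
    · rw [Finset.mem_filter] at hx ⊢
      exact ⟨hx.1, hx.2.trans hlt⟩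
    · have := h' (Finset.mem_filter.2 ⟨by simp [← hd', Finsupp.degree_eq_sum], hlt⟩)
      exact lt_irrefl _ (Finset.mem_filter.1 this).2

lemma fl_le_red (ha : ∀ k, 0 < a k) (d j : ℕ) :
    M.fl d j ≤ Submodule.span D (M.w '' {e | e ∈ red a d ∧ j ≤ ydeg e}) := by
  refine (M.fl_le_words d j).trans (Submodule.span_le.2 ?_)
  rintro _ ⟨l, ⟨hl, hj⟩, rfl⟩
  obtain ⟨z, hz⟩ := M.word_eq_w l (cnt l) fun i => rfl
  rw [SetLike.mem_coe, hz]
  refine Submodule.smul_mem _ _ ?_
  refine Submodule.span_mono (Set.image_mono ?_) (M.w_le_red ha (by rw [degree_cnt, hl] :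
    (cnt l).degree = d))
  rintro e ⟨he, hle⟩
  refine ⟨he, hj.trans ?_⟩
  rw [← ydeg_cnt]
  by_contra hlt
  exact absurd hle (not_le.2 (key_lt_iff.2 (Or.inl (not_le.1 hlt))))

lemma finrank_pc (d : ℕ) : finrank D (pc (D := D) f d) = finrank K (quoDeg f d) := by
  have := finite_quoDeg f d
  exact finrank_span_one_tmul _

lemma span_w (ha : ∀ k, 0 < a k) (d : ℕ) :
    Submodule.span D (M.w '' (red (m := m) a d : Set (Fin (c + m) →₀ ℕ))) = pc f d := by
  refine le_antisymm (Submodule.span_le.2 ?_) ?_
  · rintro _ ⟨e, he, rfl⟩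
    have h := M.fl_antitone _ (Nat.zero_le _) (M.w_mem e)
    rwa [fl_zero, (mem_red.1 he).1] at h
  · rw [← M.fl_zero]
    exact (M.fl_le_red ha d 0).trans (Submodule.span_mono (Set.image_mono fun e he => he.1))

lemma linearIndependent_w (ha : ∀ k, 0 < a k) {d : ℕ}
    (hquo : finrank K (quoDeg f d) = (red (m := m) a d).card) :
    LinearIndependent D fun e : red (m := m) a d => M.w e.1 := by
  rw [linearIndependent_iff_card_eq_finrank_span, Fintype.card_coe, ← hquo, ← finrank_pc (D := D),
    Set.finrank, ← M.span_w ha d, Set.image_eq_range]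
  rfl

end Datum

end Vale.Agent.P200.Betti.Skew
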