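import Vale.Agent.P200.Quad.Rows
import Vale.Agent.P200.Quad.Reduce

/-!
A frame of anticommuting linear elements for any regular sequence of quadrics.
-/

namespace Vale.Agent.P200.Betti.Skew

open MvPolynomial Module
open scoped TensorProduct
open Vale.Agent.P200.Quad (Quo quoDeg mkA exists_coeff)

universe u

section basics

variable {K : Type u} [Field K] {n c : ℕ} {D : Type u} [DivisionRing D] [Algebra K D]
variable (f : Fin c → MvPolynomial (Fin n) K)

/-- The ring structure of the extended quotient (the one of the tensor product of algebras). -/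
@[reducible] noncomputable def tensorRing : Ring (D ⊗[K] Quo f) :=
  Algebra.TensorProduct.instRing

attribute [local instance] tensorRing

/-- The degree pieces after extending the scalars. -/
noncomputable def pc (d : ℕ) : Submodule D (D ⊗[K] Quo f) :=
  Submodule.span D ((fun q : Quo f => (1 : D) ⊗ₜ[K] q) '' (quoDeg f d : Set (Quo f)))

/-- The variables in the extended quotient. -/
noncomputable def xv (i : Fin n) : D ⊗[K] Quo f := (1 : D) ⊗ₜ[K] mkA f (X i)

/-- Right multiplication, linear over the coefficients. -/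
noncomputable def rm (w : D ⊗[K] Quo f) : D ⊗[K] Quo f →ₗ[D] D ⊗[K] Quo f where
  toFun v := v * w
  map_add' a b := add_mul a b w
  map_smul' r a := smul_mul_assoc r a w

lemma rm_apply (w v : D ⊗[K] Quo f) : rm f w v = v * w := rfl

/-- Linear combinations of the variables with coefficients on the left. -/
noncomputable def lin (g : Fin n → D) : D ⊗[K] Quo f := ∑ i, g i ⊗ₜ[K] mkA f (X i)

lemma tmul_mul (x y : D) (q q' : Quo f) :
    (x ⊗ₜ[K] q) * (y ⊗ₜ[K] q') = (x * y) ⊗ₜ[K] (q * q') :=
  Algebra.TensorProduct.tmul_mul_tmul x y q q'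

lemma xv_comm (i : Fin n) (v : D ⊗[K] Quo f) : v * xv f i = xv f i * v := by
  induction v using TensorProduct.induction_on with
  | zero => simp
  | tmul d q => simp [xv, mul_comm]
  | add a b ha hb => rw [add_mul, mul_add, ha, hb]

lemma mem_pc_tmul {d : ℕ} (x : D) {q : Quo f} (hq : q ∈ quoDeg f d) :
    x ⊗ₜ[K] q ∈ pc (D := D) f d := by
  rw [show x ⊗ₜ[K] q = x • ((1 : D) ⊗ₜ[K] q) by simp [TensorProduct.smul_tmul']]
  exact Submodule.smul_mem _ _ (Submodule.subset_span ⟨q, hq, rfl⟩)

lemma lin_mem_pc (g : Fin n → D) : lin f g ∈ pc (D := D) f 1 :=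
  sum_mem fun i _ => mem_pc_tmul f _ ⟨X i, isHomogeneous_X K i, rfl⟩

lemma one_tmul_mul_smul (q₀ : Quo f) (r : D) (y : D ⊗[K] Quo f) :
    ((1 : D) ⊗ₜ[K] q₀) * (r • y) = r • (((1 : D) ⊗ₜ[K] q₀) * y) := by
  induction y using TensorProduct.induction_on with
  | zero => simp
  | tmul d q => simp [TensorProduct.smul_tmul']
  | add y y' h h' => simp only [smul_add, mul_add, h, h']

lemma mul_mem_pc {a b : ℕ} {v w : D ⊗[K] Quo f} (hv : v ∈ pc f a) (hw : w ∈ pc f b) :
    v * w ∈ pc (D := D) f (a + b) := by
  induction hv using Submodule.span_induction with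
  | mem x hx =>
    obtain ⟨q, ⟨u, hu, rfl⟩, rfl⟩ := hx
    induction hw using Submodule.span_induction with
    | mem y hy =>
      obtain ⟨q', ⟨u', hu', rfl⟩, rfl⟩ := hy
      rw [tmul_mul, one_mul]
      exact mem_pc_tmul f 1 ⟨u * u', hu.mul hu',
        map_mul (Ideal.Quotient.mkₐ K (Ideal.span (Set.range f))) _ _⟩
    | zero => simp
    | add y y' _ _ hy hy' => rw [mul_add]; exact add_mem hy hy'
    | smul r y _ hy =>
      rw [one_tmul_mul_smul]
      exact Submodule.smul_mem _ _ hy
  | zero => simp
  | add x x' _ _ hx hx' => rw [add_mul]; exact add_mem hx hx'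
  | smul r x _ hx => rw [smul_mul_assoc]; exact Submodule.smul_mem _ _ hx

end basics

attribute [local instance] tensorRing

lemma regList_sq {σ L : Type*} [Field L] : ∀ (ls pre : List (MvPolynomial σ L)),
    (∀ g ∈ pre ++ ls, HomogPos g) → RegList ⊥ (pre ++ ls) →
    RegList ⊥ (pre ++ ls.map (· ^ 2))
  | [], pre, _, h => by simpa using h
  | a :: ls, pre, hp, h => by
    have hperm : (pre ++ a :: ls).Perm ((pre ++ ls) ++ [a]) :=
      (List.perm_middle.trans (List.perm_append_singleton a _).symm)
    obtain ⟨h1, h2⟩ := regList_concat.1 (regList_perm hperm hp homogI_bot h)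
    have hsq : RegList ⊥ ((pre ++ ls) ++ [a ^ 2]) := by
      refine regList_concat.2 ⟨h1, fun u hu => h2 u (h2 _ ?_)⟩
      rwa [← mul_assoc, ← sq]
    have hp' : ∀ g ∈ (pre ++ ls) ++ [a ^ 2], HomogPos g := by
      intro g hg
      simp only [List.mem_append, List.mem_singleton] at hg
      rcases hg with hg | rfl
      · exact hp g (by simp only [List.mem_append, List.mem_cons]; tauto)
      · obtain ⟨m, hm, hma⟩ := hp a (by simp)
        exact ⟨m * 2, by omega, hma.pow 2⟩
    have hperm' : ((pre ++ ls) ++ [a ^ 2]).Perm ((pre ++ [a ^ 2]) ++ ls) := by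
      rw [List.append_assoc, List.append_assoc]
      exact List.perm_append_comm.append_left pre
    have h3 := regList_sq ls (pre ++ [a ^ 2]) (fun g hg => hp' g (hperm'.mem_iff.2 hg))
      (regList_perm hperm' hp' homogI_bot hsq)
    simpa using h3

lemma exists_linear_coeff {σ L : Type*} [Field L] [Fintype σ] {u : MvPolynomial σ L}
    (hu : u.IsHomogeneous 1) :
    ∃ b : σ → L, u = ∑ i, b i • (X i : MvPolynomial σ L) := by
  have h : u ∈ homogeneousSubmodule σ L 1 := hu
  rw [homogeneousSubmodule_one_eq_span_X] at h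
  obtain ⟨b, hb⟩ := (Submodule.mem_span_range_iff_exists_fun L).1 h
  exact ⟨b, hb.symm⟩

set_option maxHeartbeats 800000 in
/-- The frame: anticommuting invertible rows, the last ones multiples of central linear elements,
the first ones squaring into the multiples of these. -/
theorem exists_frame {K : Type u} [Field K] {c m : ℕ} (hn : 0 < c + m)
    {f : Fin c → MvPolynomial (Fin (c + m)) K} (hf : ∀ i, (f i).IsHomogeneous 2)
    (hreg : RegList ⊥ (List.ofFn f)) :
    ∃ (D : Type u) (_ : DivisionRing D) (_ : Algebra K D) (g E : Fin (c + m) → Fin (c + m) → D)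
      (u : Fin m → D) (Y : Fin m → D ⊗[K] Quo f),
      (∀ k l, k ≠ l → ∀ i j, g k i * g l j + g l j * g k i = 0) ∧
      (∀ i j, ∑ k, E i k * g k j = if i = j then 1 else 0) ∧
      (∀ j v, v * Y j = Y j * v) ∧ (∀ j, Y j ∈ pc f 1) ∧ (∀ j, u j ≠ 0) ∧
      (∀ j, lin f (g (Fin.natAdd c j)) = u j ⊗ₜ[K] (1 : Quo f) * Y j) ∧
      ∀ k : Fin c, lin f (g (Fin.castAdd m k)) * lin f (g (Fin.castAdd m k)) ∈
        ⨆ j, (pc (D := D) f 1).map (rm f (Y j)) := by
  classical
  let L := AlgebraicClosure K
  let φ := map (σ := Fin (c + m)) (algebraMap K L)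
  have hregL : RegList ⊥ (List.ofFn fun i => φ (f i)) := by
    have := Quad.regList_extI (L := L) _ _ hreg
    rwa [extI, Ideal.map_bot, List.map_ofFn] at this
  have hfL : ∀ i, (φ (f i)).IsHomogeneous 2 := fun i => (hf i).map _
  have hposL : ∀ g ∈ List.ofFn (fun i => φ (f i)), HomogPos g := fun g hg => by
    obtain ⟨i, rfl⟩ := List.mem_ofFn.1 hg
    exact ⟨2, two_pos, hfL i⟩
  obtain ⟨ls, hls, hregls, hind⟩ := exists_linear_extension hposL hregL m (by simp)
  obtain ⟨Φ₀, hΦl₀, hΦ₀⟩ := Quad.exists_change (c := c) (Nat.add_comm c m) ls hls hind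
  let ε : Fin m ⊕ Fin c ≃ Fin (c + m) := (Equiv.sumComm _ _).trans finSumFinEquiv
  let Φ : MvPolynomial (Fin (c + m)) L ≃ₐ[L] MvPolynomial (Fin (c + m)) L :=
    (renameEquiv L ε.symm).trans Φ₀
  have hΦl : ∀ j, Φ (X (Fin.natAdd c j)) = ls j := fun j => by
    rw [← hΦl₀ j]
    show Φ₀ (rename ε.symm (X (Fin.natAdd c j))) = _
    rw [rename_X, show ε.symm (Fin.natAdd c j) = Sum.inl j from ε.injective (by simp [ε])]
  have hΦsymm : ∀ {d : ℕ} {p : MvPolynomial (Fin (c + m)) L}, p.IsHomogeneous d →
      (Φ.symm p).IsHomogeneous d := fun {d p} hp => by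
    show (rename ε (Φ₀.symm p)).IsHomogeneous d
    refine IsHomogeneous.rename_isHomogeneous ?_
    have h : Φ₀.symm p = homogeneousComponent d (Φ₀.symm p) := by
      apply Φ₀.injective
      rw [← hΦ₀, Φ₀.apply_symm_apply, homogeneousComponent_eq_self hp]
    rw [h]
    exact homogeneousComponent_isHomogeneous _ _
  have hΦhom : ∀ k, (Φ (X k)).IsHomogeneous 1 := fun k => by
    show (Φ₀ (rename ε.symm (X k))).IsHomogeneous 1
    rw [rename_X, ← homogeneousComponent_eq_self (isHomogeneous_X L (ε.symm k)), ← hΦ₀]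
    exact homogeneousComponent_isHomogeneous _ _
  -- the quadrics in the new coordinates
  let F : Fin (c + m) → MvPolynomial (Fin (c + m)) L :=
    Fin.append (fun i => Φ.symm (φ (f i))) (fun j => (X (Fin.natAdd c j)) ^ 2)
  have hF : ∀ k, (F k).IsHomogeneous 2 := fun k => by
    induction k using Fin.addCases with
    | left i => simpa [F] using hΦsymm (hfL i)
    | right j => simpa [F] using isHomogeneous_X_pow (R := L) (Fin.natAdd c j) 2
  have hregF : RegList ⊥ (List.ofFn F) := by
    have hall : ∀ g ∈ List.ofFn (fun i => φ (f i)) ++ List.ofFn ls, HomogPos g := fun g hg => by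
      rcases List.mem_append.1 hg with hg | hg
      · exact hposL g hg
      · obtain ⟨j, rfl⟩ := List.mem_ofFn.1 hg
        exact ⟨1, one_pos, hls j⟩
    have h := regList_sq _ _ hall hregls
    have h' := regList_equiv Φ (List.ofFn F) ⊥ ?_
    · rwa [show (⊥ : Ideal (MvPolynomial (Fin (c + m)) L)).comap Φ.toRingHom = ⊥ from
        Ideal.comap_bot_of_injective _ Φ.injective] at h'
    convert h using 1
    rw [List.map_ofFn, List.map_ofFn, ← List.ofFn_fin_append]
    refine congrArg List.ofFn (funext fun k => ?_)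
    induction k using Fin.addCases with
    | left i => simp [F]
    | right j => simp [F, hΦl]
  obtain ⟨D, _, instL, h, z, a, ha, hanti, hsq, hpol, E₀, hE₀⟩ :=
    Quad.exists_factorisation hn hF hregF
  let : Algebra K D := ((algebraMap L D).comp (algebraMap K L)).toAlgebra' fun r x =>
    Algebra.commutes (algebraMap K L r) x
  have hKL : ∀ r : K, algebraMap K D r = algebraMap L D (algebraMap K L r) := fun r => rfl
  -- the evaluation of the polynomials over the closure
  let ι : L →+* D ⊗[K] Quo f :=
    (Algebra.TensorProduct.includeLeftRingHom : D →+* D ⊗[K] Quo f).comp (algebraMap L D)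
  have hι : ∀ x, ι x = algebraMap L D x ⊗ₜ[K] (1 : Quo f) := fun x => rfl
  let Z : Subring (D ⊗[K] Quo f) := Subring.center _
  have hιZ : ∀ x, ι x ∈ Z := fun x => by
    rw [Subring.mem_center_iff]
    intro v
    induction v using TensorProduct.induction_on with
    | zero => simp
    | tmul d q => rw [hι, tmul_mul, tmul_mul, one_mul, mul_one, Algebra.commutes]
    | add a b ha hb => rw [add_mul, mul_add, ha, hb]
  have hxZ : ∀ i, xv (D := D) f i ∈ Z := fun i => by
    rw [Subring.mem_center_iff]
    exact fun v => xv_comm f i v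
  let ev : MvPolynomial (Fin (c + m)) L →+* Z :=
    eval₂Hom (ι.codRestrict Z hιZ) fun i => ⟨xv f i, hxZ i⟩
  have hevC : ∀ x, (ev (C x) : D ⊗[K] Quo f) = ι x := fun x => by
    rw [show ev (C x) = ι.codRestrict Z hιZ x from eval₂Hom_C _ _ x]
    rfl
  have hevX : ∀ i, (ev (X i) : D ⊗[K] Quo f) = xv f i := fun i => by simp [ev]
  have hevφ : ∀ p, (ev (φ p) : D ⊗[K] Quo f) = (1 : D) ⊗ₜ[K] mkA f p := fun p => by
    induction p using MvPolynomial.induction_on with
    | C r =>
      simp only [φ, map_C, hevC, hι, ← hKL]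
      rw [show mkA f (C r) = r • (1 : Quo f) by
        rw [C_eq_smul_one, map_smul]
        rfl, Algebra.algebraMap_eq_smul_one, TensorProduct.smul_tmul]
    | add p q hp hq => simp [hp, hq, TensorProduct.tmul_add]
    | mul_X p i hp =>
      rw [map_mul, map_mul, Subring.coe_mul, hp, show φ (X i) = X i from map_X _ i, hevX, xv,
        tmul_mul, one_mul, show mkA f (p * X i) = mkA f p * mkA f (X i) from
          map_mul (Ideal.Quotient.mkₐ K (Ideal.span (Set.range f))) _ _]
  -- the new coordinates
  let V : Fin (c + m) → D ⊗[K] Quo f := fun k => (ev (Φ (X k)) : D ⊗[K] Quo f)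
  have hVZ : ∀ k v, v * V k = V k * v := fun k v =>
    Subring.mem_center_iff.1 (ev (Φ (X k))).2 v
  choose A hA using fun k => exists_linear_coeff (hΦhom k)
  choose B hB using fun i => exists_linear_coeff (hΦsymm (isHomogeneous_X L i))
  have hV : ∀ k, V k = ∑ i, algebraMap L D (A k i) ⊗ₜ[K] mkA f (X i) := fun k => by
    simp only [V, hA k, smul_eq_C_mul, map_sum, map_mul, AddSubmonoidClass.coe_finsetSum,
      Subring.coe_mul, hevC, hevX, hι, xv, tmul_mul, mul_one, one_mul]
  have hBA : ∀ i i', ∑ k, B i k * A k i' = if i = i' then 1 else 0 := by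
    intro i i'
    have h1 : (X i : MvPolynomial (Fin (c + m)) L) = ∑ k, B i k • Φ (X k) := by
      conv_lhs => rw [← Φ.apply_symm_apply (X i), hB i]
      simp [map_sum]
    have h2 := congrArg (coeff (Finsupp.single i' 1)) h1
    simp only [coeff_sum, coeff_smul, hA, coeff_X, smul_eq_mul, Finsupp.single_left_inj one_ne_zero,
      mul_ite, mul_one, mul_zero, Finset.sum_ite_eq', Finset.mem_univ, if_true] at h2
    exact h2.symm
  -- the rows of the block
  let row : Fin (c + m) → (Fin c → D) := fun r i => h r (Fin.castAdd m i)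
  have hspan : Submodule.span D (Set.range row) = ⊤ := by
    rw [eq_top_iff]
    intro w _
    rw [← Finset.univ_sum_single w]
    refine sum_mem fun i _ => ?_
    rw [show (Pi.single i (w i) : Fin c → D) = w i • ∑ r, E₀ (Fin.castAdd m i) r • row r by
      funext i'
      simp only [Finset.sum_apply, Pi.smul_apply, smul_eq_mul, row, hE₀, Pi.single_apply,
        Fin.castAdd_inj, mul_ite, mul_one, mul_zero, eq_comm]]
    exact Submodule.smul_mem _ _ (sum_mem fun r _ =>
      Submodule.smul_mem _ _ (Submodule.subset_span ⟨r, rfl⟩))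
  obtain ⟨κ, σ, hσ, hσspan, hσli⟩ := exists_linearIndependent' D row
  have : Fintype κ := Fintype.ofInjective σ hσ
  have hκ : Fintype.card κ = c := by
    have h1 := finrank_span_eq_card hσli
    rw [hσspan, hspan, finrank_top, Module.finrank_fin_fun] at h1
    exact h1.symm
  let eκ : Fin c ≃ κ := (Fintype.equivFinOfCardEq hκ).symm
  have hcompl : Fintype.card {r : Fin (c + m) // r ∉ Finset.univ.image σ} = m := by
    rw [Fintype.card_subtype_compl, Fintype.card_coe, Finset.card_image_of_injective _ hσ,
      Finset.card_univ, Fintype.card_fin, hκ]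
    omega
  let eτ : Fin m ≃ {r : Fin (c + m) // r ∉ Finset.univ.image σ} :=
    (Fintype.equivFinOfCardEq hcompl).symm
  let rIdx : Fin (c + m) → Fin (c + m) := Fin.append (fun k => σ (eκ k)) fun j => (eτ j).1
  have hrIdx : Function.Injective rIdx := by
    intro x y hxy
    induction x using Fin.addCases with
    | left i =>
      induction y using Fin.addCases with
      | left i' =>
        simp only [rIdx, Fin.append_left] at hxy
        rw [eκ.injective (hσ hxy)]
      | right j' =>
        simp only [rIdx, Fin.append_left, Fin.append_right] at hxy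
        exact absurd (Finset.mem_image.2 ⟨_, Finset.mem_univ _, hxy⟩) (eτ j').2
    | right j =>
      induction y using Fin.addCases with
      | left i' =>
        simp only [rIdx, Fin.append_left, Fin.append_right] at hxy
        exact absurd (Finset.mem_image.2 ⟨_, Finset.mem_univ _, hxy.symm⟩) (eτ j).2
      | right j' =>
        simp only [rIdx, Fin.append_right] at hxy
        rw [eτ.injective (Subtype.ext hxy)]
  have hnz : ∀ r, ∃ i, h r i ≠ 0 := by
    intro r
    by_contra h0
    push Not at h0
    have h1 : (Matrix.of E₀ : Matrix (Fin (c + m)) (Fin (c + m)) D) * Matrix.of h = 1 := by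
      ext i j; simp [Matrix.mul_apply, Matrix.one_apply, hE₀]
    have h2 := mul_eq_one_comm.1 h1
    have h3 := congrFun (congrFun h2 r) r
    simp [Matrix.mul_apply, Matrix.one_apply, h0] at h3
  choose i₁ hi₁ using fun j => hnz (eτ j).1
  let u : Fin m → D := fun j => h (eτ j).1 (i₁ j)
  let hh : Fin (c + m) → Fin (c + m) → D := Fin.append
    (fun k => Fin.append (fun i => h (σ (eκ k)) (Fin.castAdd m i)) fun _ => 0)
    (fun j => Pi.single (Fin.natAdd c j) (u j))
  let g : Fin (c + m) → Fin (c + m) → D := fun k i =>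
    ∑ k', hh k k' * algebraMap L D (A k' i)
  have hhh : ∀ k k', hh k k' = 0 ∨ ∃ i, hh k k' = h (rIdx k) i := by
    intro k k'
    induction k using Fin.addCases with
    | left x =>
      induction k' using Fin.addCases with
      | left i => exact Or.inr ⟨Fin.castAdd m i, by simp [hh, rIdx]⟩
      | right j => exact Or.inl (by simp [hh])
    | right j =>
      by_cases hk : k' = Fin.natAdd c j
      · subst hk; exact Or.inr ⟨i₁ j, by simp [hh, rIdx, u]⟩
      · exact Or.inl (by simp [hh, hk])
  have hlin : ∀ k, lin f (g k) = ∑ k', hh k k' ⊗ₜ[K] (1 : Quo f) * V k' := by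
    intro k
    simp only [lin, g, hV, Finset.mul_sum, tmul_mul, one_mul, TensorProduct.sum_tmul]
    exact Finset.sum_comm
  have hY : ∀ j : Fin m, lin f (g (Fin.natAdd c j)) = u j ⊗ₜ[K] (1 : Quo f) * V (Fin.natAdd c j) := by
    intro j
    rw [hlin, Finset.sum_eq_single (Fin.natAdd c j)]
    · simp [hh]
    · intro k' _ hk; simp [hh, hk]
    · simp
  obtain ⟨Ex, hEx⟩ : ∃ Ex : Fin c → Fin c → D, ∀ i i', ∑ k, Ex i k * h (σ (eκ k)) (Fin.castAdd m i') =
      if i = i' then 1 else 0 := by
    have htop : Submodule.span D (Set.range fun k => row (σ (eκ k))) = ⊤ := by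
      rw [show (fun k => row (σ (eκ k))) = (row ∘ σ) ∘ eκ from rfl,
        Set.range_comp _ eκ, Set.range_eq_univ.2 eκ.surjective, Set.image_univ, hσspan, hspan]
    have hex : ∀ i : Fin c, ∃ e : Fin c → D, ∑ k, e k • row (σ (eκ k)) = Pi.single i 1 := fun i =>
      (Submodule.mem_span_range_iff_exists_fun _).1 (htop ▸ Submodule.mem_top)
    choose Ex hEx using hex
    refine ⟨Ex, fun i i' => ?_⟩
    have h1 := congrFun (hEx i) i'
    simpa [row, Finset.sum_apply, Pi.single_apply, eq_comm] using h1
  let Eh : Fin (c + m) → Fin (c + m) → D := Fin.append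
    (fun i => Fin.append (Ex i) fun _ => 0) (fun j => Pi.single (Fin.natAdd c j) (u j)⁻¹)
  have hEh : ∀ k k', ∑ r, Eh k r * hh r k' = if k = k' then 1 else 0 := by
    intro k k'
    rw [Fin.sum_univ_add]
    induction k using Fin.addCases with
    | left i =>
      induction k' using Fin.addCases with
      | left i' => simp [Eh, hh, hEx]
      | right j => simp [Eh, hh, Fin.ext_iff]; omega
    | right j =>
      induction k' using Fin.addCases with
      | left i =>
        simp [Eh, hh, Pi.single_apply, Fin.ext_iff]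
        rw [Finset.sum_eq_zero (fun x _ => if_neg (by omega)),
          Finset.sum_eq_zero (fun x _ => if_neg (by omega)), if_neg (by omega)]
        simp
      | right j' =>
        rw [Finset.sum_eq_zero fun x _ => by simp [Eh, Pi.single_apply, Fin.ext_iff]; omega, zero_add,
          Finset.sum_eq_single j (fun x _ hx => by simp [Eh, Pi.single_apply, hx]) (by simp)]
        simp only [Eh, hh, Fin.append_right, Pi.single_eq_same, Pi.single_apply]
        by_cases hjj : j = j'
        · subst hjj
          simp [inv_mul_cancel₀ (hi₁ j), u]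
        · simp [hjj, Ne.symm hjj]
  let E : Fin (c + m) → Fin (c + m) → D := fun i r => ∑ k, algebraMap L D (B i k) * Eh k r
  refine ⟨D, inferInstance, inferInstance, g, E, u, fun j => V (Fin.natAdd c j), ?_, ?_,
    fun j v => hVZ _ v, fun j => ?_, fun j => hi₁ j, hY, fun k => ?_⟩
  · intro k l hkl i j
    simp only [g, Finset.sum_mul, Finset.mul_sum]
    rw [Finset.sum_comm (γ := Fin (c + m)) (f := fun x y => hh l y * _ * (hh k x * _)),
      ← Finset.sum_add_distrib]
    refine Finset.sum_eq_zero fun x _ => ?_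
    rw [← Finset.sum_add_distrib]
    refine Finset.sum_eq_zero fun y _ => ?_
    have hcm : ∀ (s t : L) (p q : D), p * algebraMap L D s * (q * algebraMap L D t) =
        algebraMap L D (s * t) * (p * q) := by
      intro s t p q
      rw [map_mul, ← Algebra.commutes s p, ← Algebra.commutes t q, mul_assoc, ← mul_assoc p,
        ← Algebra.commutes t p]
      simp only [mul_assoc]
    rw [hcm, hcm, mul_comm (A x j) (A y i), ← mul_add]
    rcases hhh k y with h0 | ⟨i', hi'⟩
    · simp [h0]
    rcases hhh l x with h0 | ⟨j', hj'⟩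
    · simp [h0]
    rw [hi', hj', hanti _ _ (hrIdx.ne hkl), mul_zero]
  · intro i i'
    calc ∑ r, E i r * g r i'
        = ∑ r, ∑ k, ∑ k', algebraMap L D (B i k * A k' i') * (Eh k r * hh r k') := by
          refine Finset.sum_congr rfl fun r _ => ?_
          simp only [E, g, Finset.sum_mul, Finset.mul_sum]
          rw [Finset.sum_comm]
          refine Finset.sum_congr rfl fun k _ => Finset.sum_congr rfl fun k' _ => ?_
          rw [map_mul, ← Algebra.commutes (A k' i') (hh r k'), mul_assoc, ← mul_assoc (Eh k r),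
            ← Algebra.commutes (A k' i') (Eh k r)]
          simp only [mul_assoc]
      _ = ∑ k, ∑ k', algebraMap L D (B i k * A k' i') * if k = k' then 1 else 0 := by
          rw [Finset.sum_comm]
          refine Finset.sum_congr rfl fun k _ => ?_
          rw [Finset.sum_comm]
          exact Finset.sum_congr rfl fun k' _ => by rw [← Finset.mul_sum, hEh]
      _ = algebraMap L D (∑ k, B i k * A k i') := by simp [map_sum]
      _ = if i = i' then 1 else 0 := by rw [hBA]; split_ifs <;> simp
  · show V _ ∈ _
    rw [hV]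
    exact sum_mem fun i _ => mem_pc_tmul f _ ⟨X i, isHomogeneous_X K i, rfl⟩
  · -- the square of a first row
    set P := ⨆ j, (pc (D := D) f 1).map (rm f (V (Fin.natAdd c j))) with hP
    have hVpc : ∀ i, V i ∈ pc f 1 := fun i => by
      rw [hV]
      exact sum_mem fun i _ => mem_pc_tmul f _ ⟨X i, isHomogeneous_X K i, rfl⟩
    have hsmul : ∀ (x : D) (w : D ⊗[K] Quo f), x ⊗ₜ[K] (1 : Quo f) * w = x • w := fun x w => by
      induction w using TensorProduct.induction_on with
      | zero => simp
      | tmul d q => simp [TensorProduct.smul_tmul']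
      | add a b ha hb => rw [mul_add, smul_add, ha, hb]
    set W : Fin c → Fin c → D ⊗[K] Quo f := fun i i' =>
      V (Fin.castAdd m i) * V (Fin.castAdd m i') with hW
    have hWs : ∀ i i', W i i' = W i' i := fun i i' => hVZ _ _
    set r := σ (eκ k)
    have hexp : lin f (g (Fin.castAdd m k)) * lin f (g (Fin.castAdd m k)) =
        ∑ i, ∑ i', (h r (Fin.castAdd m i) * h r (Fin.castAdd m i')) • W i i' := by
      have hl : lin f (g (Fin.castAdd m k)) =
          ∑ i : Fin c, h r (Fin.castAdd m i) ⊗ₜ[K] (1 : Quo f) * V (Fin.castAdd m i) := by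
        rw [hlin, Fin.sum_univ_add]
        simp [hh, r]
      rw [hl, Finset.sum_mul_sum]
      refine Finset.sum_congr rfl fun i _ => Finset.sum_congr rfl fun i' _ => ?_
      rw [← mul_assoc, mul_assoc _ (V _) (_ ⊗ₜ[K] _), ← hVZ, ← mul_assoc, tmul_mul, mul_one,
        mul_assoc, hsmul]
    have hinv : ∑ i, ∑ i', (h r (Fin.castAdd m i) * h r (Fin.castAdd m i') -
        ∑ l, a l (Fin.castAdd m i) (Fin.castAdd m i') • z r l) • W i i' = 0 := by
      rw [← Finset.sum_product']
      refine Finset.sum_involution (fun q _ => (q.2, q.1)) ?_ ?_ (fun q _ => by simp) (fun q _ => rfl)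
      · rintro ⟨i, i'⟩ -
        rw [hWs i' i, ← add_smul, sub_add_sub_comm, hpol, ← Finset.sum_add_distrib]
        simp [add_smul]
      · rintro ⟨i, i'⟩ - hne heq
        simp only [Prod.mk.injEq] at heq
        obtain ⟨rfl, -⟩ := heq
        exact hne (by simp [hsq])
    simp only [sub_smul, Finset.sum_sub_distrib, sub_eq_zero] at hinv
    rw [hexp, hinv]
    have hl : ∀ l, ∑ i, ∑ i', ι (a l (Fin.castAdd m i) (Fin.castAdd m i')) * W i i' ∈ P := by
      intro l
      have hmemP : ∀ {w : D ⊗[K] Quo f} (j : Fin m), w ∈ pc f 1 → w * V (Fin.natAdd c j) ∈ P :=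
        fun j hw => le_iSup (fun j => (pc (D := D) f 1).map (rm f (V (Fin.natAdd c j)))) j
          ⟨_, hw, rfl⟩
      have hevF : (ev (Φ (F l)) : D ⊗[K] Quo f) ∈ P := by
        induction l using Fin.addCases with
        | left i =>
          simp only [F, Fin.append_left, AlgEquiv.apply_symm_apply, hevφ]
          rw [show mkA f (f i) = 0 from
            Ideal.Quotient.eq_zero_iff_mem.2 (Ideal.subset_span ⟨i, rfl⟩), TensorProduct.tmul_zero]
          exact zero_mem _
        | right j =>
          simp only [F, Fin.append_right, sq, map_mul, Subring.coe_mul]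
          exact hmemP j (hVpc _)
      have hsum : (ev (Φ (F l)) : D ⊗[K] Quo f) = ∑ x, ∑ y, ι (a l x y) * (V x * V y) := by
        conv_lhs => rw [ha l]
        simp only [map_sum, smul_eq_C_mul, map_mul, AlgEquiv.commutes, ← algebraMap_eq,
          AddSubmonoidClass.coe_finsetSum, Subring.coe_mul, algebraMap_eq, hevC, V]
        simp only [← algebraMap_eq, AlgEquiv.commutes]
        simp only [algebraMap_eq, hevC]
      have hsmulι : ∀ (x : L) w, w ∈ P → ι x * w ∈ P := fun x w hw => by
        rw [hι, hsmul]; exact Submodule.smul_mem _ _ hw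
      rw [hsum, Fin.sum_univ_add] at hevF
      simp only [Fin.sum_univ_add, Finset.sum_add_distrib] at hevF
      have r1 : ∑ x : Fin c, ∑ y : Fin m, ι (a l (Fin.castAdd m x) (Fin.natAdd c y)) *
          (V (Fin.castAdd m x) * V (Fin.natAdd c y)) ∈ P :=
        sum_mem fun x _ => sum_mem fun y _ => hsmulι _ _ (hmemP y (hVpc _))
      have r2 : ∑ x : Fin m, ∑ y : Fin c, ι (a l (Fin.natAdd c x) (Fin.castAdd m y)) *
          (V (Fin.natAdd c x) * V (Fin.castAdd m y)) ∈ P :=
        sum_mem fun x _ => sum_mem fun y _ => hsmulι _ _ (by rw [← hVZ]; exact hmemP x (hVpc _))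
      have r3 : ∑ x : Fin m, ∑ y : Fin m, ι (a l (Fin.natAdd c x) (Fin.natAdd c y)) *
          (V (Fin.natAdd c x) * V (Fin.natAdd c y)) ∈ P :=
        sum_mem fun x _ => sum_mem fun y _ => hsmulι _ _ (hmemP y (hVpc _))
      have := sub_mem hevF (add_mem r2 r3)
      rw [add_sub_cancel_right] at this
      simpa [hW] using (Submodule.add_mem_iff_left P r1).1 this
    have hcon : ∑ i, ∑ i', (∑ l, a l (Fin.castAdd m i) (Fin.castAdd m i') • z r l) • W i i' =
        ∑ l, z r l • ∑ i, ∑ i', ι (a l (Fin.castAdd m i) (Fin.castAdd m i')) * W i i' := by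
      simp only [Finset.smul_sum, Finset.sum_smul]
      rw [Finset.sum_comm (s := (Finset.univ : Finset (Fin (c + m)))) ]
      refine Finset.sum_congr rfl fun i _ => ?_
      rw [Finset.sum_comm]
      refine Finset.sum_congr rfl fun l _ => Finset.sum_congr rfl fun i' _ => ?_
      rw [hι, hsmul, smul_smul, Algebra.smul_def, Algebra.commutes]
    rw [hcon]
    exact sum_mem fun l _ => Submodule.smul_mem _ _ (hl l)

end Vale.Agent.P200.Betti.Skew
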