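import Vale.Agent.P200.Betti.Free.Lower
import Vale.Agent.P200.Skew.TwoLow

/-!
Twisted data for regular sequences of forms of one degree, from linear factorisations.
-/

namespace Vale.Agent.P200.Betti.Skew

open MvPolynomial Module
open scoped TensorProduct
open Vale.Agent.P200.Quad (Quo quoDeg mkA exists_coeff)

universe u

attribute [local instance] tensorRing

lemma regList_pows {σ L : Type*} [Field L] {N : ℕ} (hN : 0 < N) :
    ∀ (ls pre : List (MvPolynomial σ L)), (∀ g ∈ pre ++ ls, HomogPos g) → RegList ⊥ (pre ++ ls) →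
    RegList ⊥ (pre ++ ls.map (· ^ N))
  | [], pre, _, h => by simpa using h
  | a :: ls, pre, hp, h => by
    have hperm : (pre ++ a :: ls).Perm ((pre ++ ls) ++ [a]) :=
      (List.perm_middle.trans (List.perm_append_singleton a _).symm)
    obtain ⟨h1, h2⟩ := regList_concat.1 (regList_perm hperm hp homogI_bot h)
    have hpw : RegList ⊥ ((pre ++ ls) ++ [a ^ N]) := by
      refine regList_concat.2 ⟨h1, ?_⟩
      clear hN
      induction N with
      | zero => intro u hu; simpa using hu
      | succ N ih =>
        intro u hu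
        refine h2 u (ih _ ?_)
        rwa [← mul_assoc, ← pow_succ]
    have hp' : ∀ g ∈ (pre ++ ls) ++ [a ^ N], HomogPos g := by
      intro g hg
      simp only [List.mem_append, List.mem_singleton] at hg
      rcases hg with hg | rfl
      · exact hp g (by simp only [List.mem_append, List.mem_cons]; tauto)
      · obtain ⟨m, hm, hma⟩ := hp a (by simp)
        exact ⟨m * N, Nat.mul_pos hm hN, hma.pow N⟩
    have hperm' : ((pre ++ ls) ++ [a ^ N]).Perm ((pre ++ [a ^ N]) ++ ls) := by
      rw [List.append_assoc, List.append_assoc]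
      exact List.perm_append_comm.append_left pre
    have h3 := regList_pows hN ls (pre ++ [a ^ N]) (fun g hg => hp' g (hperm'.mem_iff.2 hg))
      (regList_perm hperm' hp' homogI_bot hpw)
    simpa using h3

lemma pow_mem_pc {K : Type u} [Field K] {n c : ℕ} {D : Type u} [DivisionRing D] [Algebra K D]
    (f : Fin c → MvPolynomial (Fin n) K) {v : D ⊗[K] Quo f} (hv : v ∈ pc f 1) :
    ∀ d, v ^ d ∈ pc (D := D) f d
  | 0 => by
    rw [pow_zero]
    exact mem_pc_tmul f 1 ⟨1, isHomogeneous_one _ _, rfl⟩
  | d + 1 => by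
    rw [pow_succ]
    exact mul_mem_pc f (pow_mem_pc f hv d) hv

set_option maxHeartbeats 800000 in
/-- A linear element whose power vanishes modulo forms of that degree: its image. -/
lemma pow_linear_mem {K : Type u} [Field K] {L : Type u} [Field L] {D : Type u} [DivisionRing D]
    [Algebra K D] [Algebra L D] {N n c q : ℕ} (f : Fin c → MvPolynomial (Fin N) K)
    {F : Fin n → MvPolynomial (Fin n) L} (hF : ∀ l, (F l).IsHomogeneous q)
    (ψ : MvPolynomial (Fin n) L →+* D ⊗[K] Quo f)
    (hψsmul : ∀ (l : L) p, ψ (l • p) = algebraMap L D l • ψ p) (hψZ : ∀ p v, v * ψ p = ψ p * v)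
    (P : Submodule D (D ⊗[K] Quo f)) (hψF : ∀ l, ψ (F l) ∈ P) (h : Fin n → D)
    (hpow : (∑ i, h i ⊗ₜ[L] mkA F (X i)) ^ q = 0) :
    (∑ k, h k ⊗ₜ[K] (1 : Quo f) * ψ (X k)) ^ q ∈ P := by
  classical
  have hψC : ∀ l : L, ψ (C l) = algebraMap L D l • (1 : D ⊗[K] Quo f) := fun l => by
    rw [← mul_one (C l), ← smul_eq_C_mul, hψsmul, map_one]
  have hsmul : ∀ (x : D) (w : D ⊗[K] Quo f), x ⊗ₜ[K] (1 : Quo f) * w = x • w := fun x w => by
    induction w using TensorProduct.induction_on with
    | zero => simp
    | tmul d q => simp [TensorProduct.smul_tmul']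
    | add a b ha hb => rw [mul_add, smul_add, ha, hb]
  let θ₀ : MvPolynomial (Fin n) L →+ (D ⊗[K] Quo f) ⧸ P :=
    (P).mkQ.toAddMonoidHom.comp
      (ψ.toAddMonoidHom.comp (homogeneousComponent (R := L) q).toAddMonoidHom)
  have hθ₀ : ∀ u, mkA F u = 0 → θ₀ u = 0 := fun u hu => by
    obtain ⟨w, rfl⟩ := Ideal.mem_span_range_iff_exists_fun.1 (Ideal.Quotient.eq_zero_iff_mem.1 hu)
    show (P).mkQ (ψ (homogeneousComponent q (∑ l, w l * F l))) = 0
    rw [Submodule.mkQ_apply, Submodule.Quotient.mk_eq_zero, map_sum, map_sum]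
    refine sum_mem fun l _ => ?_
    rw [mul_comm, homogeneousComponent_mul_left (hF l), if_pos le_rfl, Nat.sub_self,
      homogeneousComponent_zero, map_mul, hψZ, hψC, smul_mul_assoc, one_mul]
    exact Submodule.smul_mem _ _ (hψF l)
  obtain ⟨sec, hsec⟩ := LinearMap.exists_rightInverse_of_surjective (mkA F)
    (LinearMap.range_eq_top.2 (Ideal.Quotient.mkₐ_surjective L _))
  let θ : Quo F →+ (D ⊗[K] Quo f) ⧸ P := θ₀.comp sec.toAddMonoidHom
  have hθ : ∀ u, θ (mkA F u) = θ₀ u := fun u => by
    show θ₀ (sec (mkA F u)) = θ₀ u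
    rw [← sub_eq_zero, ← map_sub]
    refine hθ₀ _ ?_
    rw [map_sub, ← LinearMap.comp_apply, hsec, LinearMap.id_apply, sub_self]
  let Λ : D ⊗[L] Quo F →+ (D ⊗[K] Quo f) ⧸ P :=
    TensorProduct.liftAddHom
      (AddMonoidHom.mk' (fun x => AddMonoidHom.mk' (fun r => x • θ r)
        fun a b => by simp [smul_add]) fun a b => by ext r; simp [add_smul])
      fun l x r => by
        show (l • x) • θ r = x • θ (l • r)
        rw [show θ (l • r) = algebraMap L D l • θ r by
          simp only [θ, θ₀, AddMonoidHom.comp_apply, LinearMap.toAddMonoidHom_coe, map_smul,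
            RingHom.toAddMonoidHom_eq_coe, AddMonoidHom.coe_coe, hψsmul]]
        rw [smul_smul, Algebra.smul_def, Algebra.commutes]
  let β : D ⊗[L] MvPolynomial (Fin n) L →+ D ⊗[K] Quo f :=
    TensorProduct.liftAddHom
      (AddMonoidHom.mk' (fun x => AddMonoidHom.mk' (fun p => x • ψ p)
        fun a b => by simp [smul_add]) fun a b => by ext r; simp [add_smul])
      fun l x p => by
        show (l • x) • ψ p = x • ψ (l • p)
        rw [hψsmul, smul_smul, Algebra.smul_def, Algebra.commutes]
  let μ : Fin n → D ⊗[L] MvPolynomial (Fin n) L →ₗ[L]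
      D ⊗[L] MvPolynomial (Fin n) L := fun i =>
    TensorProduct.map (LinearMap.mulRight L (h i)) (LinearMap.mulRight L (X i))
  let α : D ⊗[L] MvPolynomial (Fin n) L →ₗ[L] D ⊗[L] Quo F :=
    TensorProduct.map LinearMap.id (mkA F)
  let ρ : ℕ → D ⊗[L] MvPolynomial (Fin n) L →ₗ[L]
      D ⊗[L] MvPolynomial (Fin n) L := fun d =>
    TensorProduct.map LinearMap.id (homogeneousComponent d)
  let t : ℕ → D ⊗[L] MvPolynomial (Fin n) L :=
    fun d => Nat.rec ((1 : D) ⊗ₜ[L] 1) (fun _ s => ∑ i, μ i s) d
  have ht : ∀ d, t (d + 1) = ∑ i, μ i (t d) := fun d => rfl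
  have hα : ∀ d, α (t d) = (∑ i, h i ⊗ₜ[L] mkA F (X i)) ^ d := by
    intro d
    induction d with
    | zero => rw [pow_zero]; rfl
    | succ d ih =>
      rw [ht, map_sum, pow_succ, ← ih, Finset.mul_sum]
      refine Finset.sum_congr rfl fun i _ => ?_
      generalize t d = s
      induction s using TensorProduct.induction_on with
      | zero => simp
      | tmul x p =>
        simp only [μ, α, TensorProduct.map_tmul, LinearMap.mulRight_apply, LinearMap.id_apply,
          Algebra.TensorProduct.tmul_mul_tmul]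
        congr 1
      | add a b ha hb => simp only [map_add, add_mul, ha, hb]
  have hρ : ∀ d, ρ d (t d) = t d := by
    intro d
    induction d with
    | zero => simp [ρ, t]
    | succ d ih =>
      rw [ht, map_sum]
      refine Finset.sum_congr rfl fun i _ => ?_
      conv_rhs => rw [← ih]
      generalize t d = s
      induction s using TensorProduct.induction_on with
      | zero => simp
      | tmul x p =>
        simp only [μ, ρ, TensorProduct.map_tmul, LinearMap.mulRight_apply, LinearMap.id_apply]
        rw [mul_comm p, homogeneousComponent_mul_left (isHomogeneous_X L i),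
          if_pos (Nat.le_add_left 1 d), Nat.add_sub_cancel, mul_comm]
      | add a b ha hb => simp only [map_add, ha, hb]
  have hβ : ∀ d, β (t d) = (∑ k, h k ⊗ₜ[K] (1 : Quo f) * ψ (X k)) ^ d := by
    intro d
    induction d with
    | zero =>
      rw [pow_zero]
      show (1 : D) • ψ 1 = 1
      rw [one_smul, map_one]
    | succ d ih =>
      rw [ht, map_sum, pow_succ, ← ih, Finset.mul_sum]
      refine Finset.sum_congr rfl fun i _ => ?_
      generalize t d = s
      induction s using TensorProduct.induction_on with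
      | zero => simp
      | tmul x p =>
        show (x * h i) • ψ (p * X i) = (x • ψ p) * _
        rw [map_mul, smul_mul_assoc, hsmul, ← hψZ p (h i • ψ (X i)), smul_mul_assoc,
          ← hψZ p (ψ (X i)), smul_smul]
      | add a b ha hb => simp only [map_add, add_mul, ha, hb]
  have hΛ : ∀ s, Λ (α s) = (P).mkQ (β (ρ q s)) := fun s => by
    induction s using TensorProduct.induction_on with
    | zero => simp
    | tmul x p =>
      show x • θ (mkA F p) = (P).mkQ (x • ψ (homogeneousComponent q p))
      rw [hθ, map_smul]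
      rfl
    | add a b ha hb => simp only [map_add, ha, hb]
  rw [← hβ, ← Submodule.Quotient.mk_eq_zero (P), ← Submodule.mkQ_apply, ← hρ q, ← hΛ,
    hα, hpow, map_zero]

set_option maxHeartbeats 800000 in
/-- The data from linear factorisations over the algebraic closure. -/
theorem exists_datum {K : Type u} [Field K] {c m q : ℕ} (hq : 0 < q)
    (H : Vale.Agent.P200.Skew.Factorises (AlgebraicClosure K) (c + m) q)
    {f : Fin c → MvPolynomial (Fin (c + m)) K} (hf : ∀ i, (f i).IsHomogeneous q)
    (hreg : RegList ⊥ (List.ofFn f)) :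
    ∃ (D : Type u) (_ : DivisionRing D) (_ : Algebra K D) (_ : Algebra (AlgebraicClosure K) D),
      Nonempty (Datum f (D := D) (AlgebraicClosure K) fun _ : Fin c => q) := by
  classical
  let L := AlgebraicClosure K
  let φ := map (σ := Fin (c + m)) (algebraMap K L)
  have hregL : RegList ⊥ (List.ofFn fun i => φ (f i)) := by
    have := Quad.regList_extI (L := L) _ _ hreg
    rwa [extI, Ideal.map_bot, List.map_ofFn] at this
  have hfL : ∀ i, (φ (f i)).IsHomogeneous q := fun i => (hf i).map _
  have hposL : ∀ g ∈ List.ofFn (fun i => φ (f i)), HomogPos g := fun g hg => by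
    obtain ⟨i, rfl⟩ := List.mem_ofFn.1 hg
    exact ⟨q, hq, hfL i⟩
  obtain ⟨ls, hls, hregls, hind⟩ := exists_linear_extension hposL hregL m (by simp)
  obtain ⟨Φ₀, hΦl₀, hΦ₀⟩ := Quad.exists_change (c := c) (Nat.add_comm c m) ls hls hind
  let ε : Fin m ⊕ Fin c ≃ Fin (c + m) := (Equiv.sumComm _ _).trans finSumFinEquiv
  let Φ : MvPolynomial (Fin (c + m)) L ≃ₐ[L] MvPolynomial (Fin (c + m)) L :=
    (renameEquiv L ε.symm).trans Φ₀
  have hΦl : ∀ j, Φ (X (Fin.natAdd c j)) = ls j := fun j => by
    rw [← hΦl₀ j]
    show Φ₀ (rename ε.symm (X (Fin.natAdd c j))) = _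
    rw [rename_X, show ε.symm (Fin.natAdd c j) = Sum.inl j from ε.injective (by simp [ε])]
  have hΦsymm : ∀ {d : ℕ} {p : MvPolynomial (Fin (c + m)) L}, p.IsHomogeneous d →
      (Φ.symm p).IsHomogeneous d := fun {d p} hp => by
    show (rename ε (Φ₀.symm p)).IsHomogeneous d
    refine IsHomogeneous.rename_isHomogeneous ?_
    have h : Φ₀.symm p = homogeneousComponent d (Φ₀.symm p) := by
      apply Φ₀.injective
      rw [← hΦ₀, Φ₀.apply_symm_apply, homogeneousComponent_eq_self hp]
    rw [h]
    exact homogeneousComponent_isHomogeneous _ _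
  have hΦhom : ∀ k, (Φ (X k)).IsHomogeneous 1 := fun k => by
    show (Φ₀ (rename ε.symm (X k))).IsHomogeneous 1
    rw [rename_X, ← homogeneousComponent_eq_self (isHomogeneous_X L (ε.symm k)), ← hΦ₀]
    exact homogeneousComponent_isHomogeneous _ _
  -- the forms in the new coordinates
  let F : Fin (c + m) → MvPolynomial (Fin (c + m)) L :=
    Fin.append (fun i => Φ.symm (φ (f i))) (fun j => (X (Fin.natAdd c j)) ^ q)
  have hF : ∀ k, (F k).IsHomogeneous q := fun k => by
    induction k using Fin.addCases with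
    | left i => simpa [F] using hΦsymm (hfL i)
    | right j => simpa [F] using isHomogeneous_X_pow (R := L) (Fin.natAdd c j) q
  have hregF : RegList ⊥ (List.ofFn F) := by
    have hall : ∀ g ∈ List.ofFn (fun i => φ (f i)) ++ List.ofFn ls, HomogPos g := fun g hg => by
      rcases List.mem_append.1 hg with hg | hg
      · exact hposL g hg
      · obtain ⟨j, rfl⟩ := List.mem_ofFn.1 hg
        exact ⟨1, one_pos, hls j⟩
    have h := regList_pows hq _ _ hall hregls
    have h' := regList_equiv Φ (List.ofFn F) ⊥ ?_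
    · rwa [show (⊥ : Ideal (MvPolynomial (Fin (c + m)) L)).comap Φ.toRingHom = ⊥ from
        Ideal.comap_bot_of_injective _ Φ.injective] at h'
    convert h using 1
    rw [List.map_ofFn, List.map_ofFn, ← List.ofFn_fin_append]
    refine congrArg List.ofFn (funext fun k => ?_)
    induction k using Fin.addCases with
    | left i => simp [F]
    | right j => simp [F, hΦl]
  obtain ⟨D, _, instL, h, om, E₀, hom, hcomm, hpow, hE₀⟩ := H F hF hregF
  let : Algebra K D := ((algebraMap L D).comp (algebraMap K L)).toAlgebra' fun r x =>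
    Algebra.commutes (algebraMap K L r) x
  have hKL : ∀ r : K, algebraMap K D r = algebraMap L D (algebraMap K L r) := fun r => rfl
  -- the evaluation of the polynomials over the closure
  let ι : L →+* D ⊗[K] Quo f :=
    (Algebra.TensorProduct.includeLeftRingHom : D →+* D ⊗[K] Quo f).comp (algebraMap L D)
  have hι : ∀ x, ι x = algebraMap L D x ⊗ₜ[K] (1 : Quo f) := fun x => rfl
  let Z : Subring (D ⊗[K] Quo f) := Subring.center _
  have hιZ : ∀ x, ι x ∈ Z := fun x => by
    rw [Subring.mem_center_iff]
    intro v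
    induction v using TensorProduct.induction_on with
    | zero => simp
    | tmul d q => rw [hι, tmul_mul, tmul_mul, one_mul, mul_one, Algebra.commutes]
    | add a b ha hb => rw [add_mul, mul_add, ha, hb]
  have hxZ : ∀ i, xv (D := D) f i ∈ Z := fun i => by
    rw [Subring.mem_center_iff]
    exact fun v => xv_comm f i v
  let ev : MvPolynomial (Fin (c + m)) L →+* Z :=
    eval₂Hom (ι.codRestrict Z hιZ) fun i => ⟨xv f i, hxZ i⟩
  have hevC : ∀ x, (ev (C x) : D ⊗[K] Quo f) = ι x := fun x => by
    rw [show ev (C x) = ι.codRestrict Z hιZ x from eval₂Hom_C _ _ x]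
    rfl
  have hevX : ∀ i, (ev (X i) : D ⊗[K] Quo f) = xv f i := fun i => by simp [ev]
  have hevφ : ∀ p, (ev (φ p) : D ⊗[K] Quo f) = (1 : D) ⊗ₜ[K] mkA f p := fun p => by
    induction p using MvPolynomial.induction_on with
    | C r =>
      simp only [φ, map_C, hevC, hι, ← hKL]
      rw [show mkA f (C r) = r • (1 : Quo f) by
        rw [C_eq_smul_one, map_smul]
        rfl, Algebra.algebraMap_eq_smul_one, TensorProduct.smul_tmul]
    | add p q hp hq => simp [hp, hq, TensorProduct.tmul_add]
    | mul_X p i hp =>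
      rw [map_mul, map_mul, Subring.coe_mul, hp, show φ (X i) = X i from map_X _ i, hevX, xv,
        tmul_mul, one_mul, show mkA f (p * X i) = mkA f p * mkA f (X i) from
          map_mul (Ideal.Quotient.mkₐ K (Ideal.span (Set.range f))) _ _]
  -- the new coordinates
  let V : Fin (c + m) → D ⊗[K] Quo f := fun k => (ev (Φ (X k)) : D ⊗[K] Quo f)
  have hVZ : ∀ k v, v * V k = V k * v := fun k v =>
    Subring.mem_center_iff.1 (ev (Φ (X k))).2 v
  choose A hA using fun k => exists_linear_coeff (hΦhom k)
  choose B hB using fun i => exists_linear_coeff (hΦsymm (isHomogeneous_X L i))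
  have hV : ∀ k, V k = ∑ i, algebraMap L D (A k i) ⊗ₜ[K] mkA f (X i) := fun k => by
    simp only [V, hA k, smul_eq_C_mul, map_sum, map_mul, AddSubmonoidClass.coe_finsetSum,
      Subring.coe_mul, hevC, hevX, hι, xv, tmul_mul, mul_one, one_mul]
  have hBA : ∀ i i', ∑ k, B i k * A k i' = if i = i' then 1 else 0 := by
    intro i i'
    have h1 : (X i : MvPolynomial (Fin (c + m)) L) = ∑ k, B i k • Φ (X k) := by
      conv_lhs => rw [← Φ.apply_symm_apply (X i), hB i]
      simp [map_sum]
    have h2 := congrArg (coeff (Finsupp.single i' 1)) h1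
    simp only [coeff_sum, coeff_smul, hA, coeff_X, smul_eq_mul, Finsupp.single_left_inj one_ne_zero,
      mul_ite, mul_one, mul_zero, Finset.sum_ite_eq', Finset.mem_univ, if_true] at h2
    exact h2.symm
  -- the rows of the block
  let row : Fin (c + m) → (Fin c → D) := fun r i => h r (Fin.castAdd m i)
  have hspan : Submodule.span D (Set.range row) = ⊤ := by
    rw [eq_top_iff]
    intro w _
    rw [← Finset.univ_sum_single w]
    refine sum_mem fun i _ => ?_
    rw [show (Pi.single i (w i) : Fin c → D) = w i • ∑ r, E₀ (Fin.castAdd m i) r • row r by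
      funext i'
      simp only [Finset.sum_apply, Pi.smul_apply, smul_eq_mul, row, hE₀, Pi.single_apply,
        Fin.castAdd_inj, mul_ite, mul_one, mul_zero, eq_comm]]
    exact Submodule.smul_mem _ _ (sum_mem fun r _ =>
      Submodule.smul_mem _ _ (Submodule.subset_span ⟨r, rfl⟩))
  obtain ⟨κ, σ, hσ, hσspan, hσli⟩ := exists_linearIndependent' D row
  have : Fintype κ := Fintype.ofInjective σ hσ
  have hκ : Fintype.card κ = c := by
    have h1 := finrank_span_eq_card hσli
    rw [hσspan, hspan, finrank_top, Module.finrank_fin_fun] at h1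
    exact h1.symm
  let eκ : Fin c ≃ κ := (Fintype.equivFinOfCardEq hκ).symm
  have hcompl : Fintype.card {r : Fin (c + m) // r ∉ Finset.univ.image σ} = m := by
    rw [Fintype.card_subtype_compl, Fintype.card_coe, Finset.card_image_of_injective _ hσ,
      Finset.card_univ, Fintype.card_fin, hκ]
    omega
  let eτ : Fin m ≃ {r : Fin (c + m) // r ∉ Finset.univ.image σ} :=
    (Fintype.equivFinOfCardEq hcompl).symm
  let rIdx : Fin (c + m) → Fin (c + m) := Fin.append (fun k => σ (eκ k)) fun j => (eτ j).1
  have hrIdx : Function.Injective rIdx := by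
    intro x y hxy
    induction x using Fin.addCases with
    | left i =>
      induction y using Fin.addCases with
      | left i' =>
        simp only [rIdx, Fin.append_left] at hxy
        rw [eκ.injective (hσ hxy)]
      | right j' =>
        simp only [rIdx, Fin.append_left, Fin.append_right] at hxy
        exact absurd (Finset.mem_image.2 ⟨_, Finset.mem_univ _, hxy⟩) (eτ j').2
    | right j =>
      induction y using Fin.addCases with
      | left i' =>
        simp only [rIdx, Fin.append_left, Fin.append_right] at hxy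
        exact absurd (Finset.mem_image.2 ⟨_, Finset.mem_univ _, hxy.symm⟩) (eτ j).2
      | right j' =>
        simp only [rIdx, Fin.append_right] at hxy
        rw [eτ.injective (Subtype.ext hxy)]
  have hnz : ∀ r, ∃ i, h r i ≠ 0 := by
    intro r
    by_contra h0
    push Not at h0
    have h1 : (Matrix.of E₀ : Matrix (Fin (c + m)) (Fin (c + m)) D) * Matrix.of h = 1 := by
      ext i j; simp [Matrix.mul_apply, Matrix.one_apply, hE₀]
    have h2 := mul_eq_one_comm.1 h1
    have h3 := congrFun (congrFun h2 r) r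
    simp [Matrix.mul_apply, Matrix.one_apply, h0] at h3
  choose i₁ hi₁ using fun j => hnz (eτ j).1
  let u : Fin m → D := fun j => h (eτ j).1 (i₁ j)
  let hh : Fin (c + m) → Fin (c + m) → D := Fin.append
    (fun k => Fin.append (fun i => h (σ (eκ k)) (Fin.castAdd m i)) fun _ => 0)
    (fun j => Pi.single (Fin.natAdd c j) (u j))
  let g : Fin (c + m) → Fin (c + m) → D := fun k i =>
    ∑ k', hh k k' * algebraMap L D (A k' i)
  have hhh : ∀ k k', hh k k' = 0 ∨ ∃ i, hh k k' = h (rIdx k) i := by
    intro k k'
    induction k using Fin.addCases with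
    | left x =>
      induction k' using Fin.addCases with
      | left i => exact Or.inr ⟨Fin.castAdd m i, by simp [hh, rIdx]⟩
      | right j => exact Or.inl (by simp [hh])
    | right j =>
      by_cases hk : k' = Fin.natAdd c j
      · subst hk; exact Or.inr ⟨i₁ j, by simp [hh, rIdx, u]⟩
      · exact Or.inl (by simp [hh, hk])
  have hlin : ∀ k, lin f (g k) = ∑ k', hh k k' ⊗ₜ[K] (1 : Quo f) * V k' := by
    intro k
    simp only [lin, g, hV, Finset.mul_sum, tmul_mul, one_mul, TensorProduct.sum_tmul]
    exact Finset.sum_comm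
  have hY : ∀ j : Fin m, lin f (g (Fin.natAdd c j)) = u j ⊗ₜ[K] (1 : Quo f) * V (Fin.natAdd c j) := by
    intro j
    rw [hlin, Finset.sum_eq_single (Fin.natAdd c j)]
    · simp [hh]
    · intro k' _ hk; simp [hh, hk]
    · simp
  obtain ⟨Ex, hEx⟩ : ∃ Ex : Fin c → Fin c → D, ∀ i i', ∑ k, Ex i k * h (σ (eκ k)) (Fin.castAdd m i') =
      if i = i' then 1 else 0 := by
    have htop : Submodule.span D (Set.range fun k => row (σ (eκ k))) = ⊤ := by
      rw [show (fun k => row (σ (eκ k))) = (row ∘ σ) ∘ eκ from rfl,
        Set.range_comp _ eκ, Set.range_eq_univ.2 eκ.surjective, Set.image_univ, hσspan, hspan]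
    have hex : ∀ i : Fin c, ∃ e : Fin c → D, ∑ k, e k • row (σ (eκ k)) = Pi.single i 1 := fun i =>
      (Submodule.mem_span_range_iff_exists_fun _).1 (htop ▸ Submodule.mem_top)
    choose Ex hEx using hex
    refine ⟨Ex, fun i i' => ?_⟩
    have h1 := congrFun (hEx i) i'
    simpa [row, Finset.sum_apply, Pi.single_apply, eq_comm] using h1
  let Eh : Fin (c + m) → Fin (c + m) → D := Fin.append
    (fun i => Fin.append (Ex i) fun _ => 0) (fun j => Pi.single (Fin.natAdd c j) (u j)⁻¹)
  have hEh : ∀ k k', ∑ r, Eh k r * hh r k' = if k = k' then 1 else 0 := by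
    intro k k'
    rw [Fin.sum_univ_add]
    induction k using Fin.addCases with
    | left i =>
      induction k' using Fin.addCases with
      | left i' => simp [Eh, hh, hEx]
      | right j => simp [Eh, hh, Fin.ext_iff]; omega
    | right j =>
      induction k' using Fin.addCases with
      | left i =>
        simp [Eh, hh, Pi.single_apply, Fin.ext_iff]
        rw [Finset.sum_eq_zero (fun x _ => if_neg (by omega)),
          Finset.sum_eq_zero (fun x _ => if_neg (by omega)), if_neg (by omega)]
        simp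
      | right j' =>
        rw [Finset.sum_eq_zero fun x _ => by simp [Eh, Pi.single_apply, Fin.ext_iff]; omega, zero_add,
          Finset.sum_eq_single j (fun x _ hx => by simp [Eh, Pi.single_apply, hx]) (by simp)]
        simp only [Eh, hh, Fin.append_right, Pi.single_eq_same, Pi.single_apply]
        by_cases hjj : j = j'
        · subst hjj
          simp [inv_mul_cancel₀ (hi₁ j), u]
        · simp [hjj, Ne.symm hjj]
  let E : Fin (c + m) → Fin (c + m) → D := fun i r => ∑ k, algebraMap L D (B i k) * Eh k r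

  let P : ℕ → Submodule D (D ⊗[K] Quo f) :=
    fun d => ⨆ j, (pc (D := D) f d).map (rm f (V (Fin.natAdd c j)))
  have hVpc : ∀ i, V i ∈ pc f 1 := fun i => by
    rw [hV]
    exact sum_mem fun i _ => mem_pc_tmul f _ ⟨X i, isHomogeneous_X K i, rfl⟩
  have hsmul : ∀ (x : D) (w : D ⊗[K] Quo f), x ⊗ₜ[K] (1 : Quo f) * w = x • w := fun x w => by
    induction w using TensorProduct.induction_on with
    | zero => simp
    | tmul d q => simp [TensorProduct.smul_tmul']
    | add a b ha hb => rw [mul_add, smul_add, ha, hb]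
  have hmemP : ∀ {d : ℕ} {w : D ⊗[K] Quo f} (j : Fin m), w ∈ pc f d →
      w * V (Fin.natAdd c j) ∈ P d :=
    fun {d} {w} j hw => le_iSup (fun j => (pc (D := D) f d).map (rm f (V (Fin.natAdd c j)))) j
      ⟨w, hw, rfl⟩
  -- evaluation of the forms in the new coordinates
  let ψ : MvPolynomial (Fin (c + m)) L →+* D ⊗[K] Quo f := Z.subtype.comp (ev.comp Φ.toRingHom)
  have hψC : ∀ x, ψ (C x) = ι x := fun x => by
    show ((ev (Φ (C x))) : D ⊗[K] Quo f) = ι x
    rw [← algebraMap_eq, AlgEquiv.commutes, algebraMap_eq, hevC]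
  have hψsmul : ∀ (l : L) p, ψ (l • p) = algebraMap L D l • ψ p := fun l p => by
    rw [smul_eq_C_mul, map_mul, hψC, hι, hsmul]
  have hψZ : ∀ p v, v * ψ p = ψ p * v := fun p v =>
    Subring.mem_center_iff.1 (ev (Φ p)).2 v
  have hψX : ∀ k, ψ (X k) = V k := fun k => rfl
  have hψF : ∀ l, ψ (F l) ∈ P (q - 1) := fun l => by
    induction l using Fin.addCases with
    | left i =>
      have : ψ (F (Fin.castAdd m i)) = (ev (φ (f i)) : D ⊗[K] Quo f) := by
        simp [ψ, F]
      rw [this, hevφ, show mkA f (f i) = 0 from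
        Ideal.Quotient.eq_zero_iff_mem.2 (Ideal.subset_span ⟨i, rfl⟩), TensorProduct.tmul_zero]
      exact zero_mem _
    | right j =>
      rw [show F (Fin.natAdd c j) = X (Fin.natAdd c j) ^ q from Fin.append_right _ _ _,
        map_pow, hψX, show V (Fin.natAdd c j) ^ q =
        V (Fin.natAdd c j) ^ (q - 1) * V (Fin.natAdd c j) by
          rw [← pow_succ, Nat.sub_add_cancel hq]]
      exact hmemP j (pow_mem_pc f (hVpc _) _)
  have hfull : ∀ r, (∑ k, h r k ⊗ₜ[K] (1 : Quo f) * V k) ^ q ∈ P (q - 1) := fun r =>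
    pow_linear_mem f hF ψ hψsmul hψZ (P (q - 1)) hψF (h r) (hpow r)
  refine ⟨D, inferInstance, inferInstance, instL, ⟨
    { g := g
      E := E
      u := u
      Y := fun j => V (Fin.natAdd c j)
      q := fun k l => om (rIdx l) (rIdx k)
      q_ne := fun k l _ => hom _ _
      comm := ?_
      inv := ?_
      Y_comm := fun j v => hVZ _ v
      Y_mem := fun j => hVpc _
      u_ne := fun j => hi₁ j
      lin_eq := hY
      pow_mem := fun k => Submodule.mem_sup_left ?_ }⟩⟩
  · intro k l hkl i j
    simp only [g, Finset.sum_mul, Finset.mul_sum]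
    rw [Finset.sum_comm]
    refine Finset.sum_congr rfl fun x _ => Finset.sum_congr rfl fun y _ => ?_
    have hcm : ∀ (s t : L) (p q : D), p * algebraMap L D s * (q * algebraMap L D t) =
        algebraMap L D (s * t) * (p * q) := by
      intro s t p q
      rw [map_mul, ← Algebra.commutes s p, ← Algebra.commutes t q, mul_assoc, ← mul_assoc p,
        ← Algebra.commutes t p]
      simp only [mul_assoc]
    rw [hcm, hcm]
    rcases hhh l x with h0 | ⟨j', hj'⟩
    · simp [h0]
    rcases hhh k y with h0 | ⟨i', hi'⟩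
    · simp [h0]
    rw [hi', hj', hcomm _ _ (hrIdx.ne hkl.ne') j' i', Algebra.smul_def]
    show algebraMap L D _ * (algebraMap L D _ * _) = algebraMap L D _ * (algebraMap L D _ * _)
    simp only [← mul_assoc, ← map_mul]
    congr 3
    ring
  · intro i i'
    calc ∑ r, E i r * g r i'
        = ∑ r, ∑ k, ∑ k', algebraMap L D (B i k * A k' i') * (Eh k r * hh r k') := by
          refine Finset.sum_congr rfl fun r _ => ?_
          simp only [E, g, Finset.sum_mul, Finset.mul_sum]
          rw [Finset.sum_comm]
          refine Finset.sum_congr rfl fun k _ => Finset.sum_congr rfl fun k' _ => ?_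
          rw [map_mul, ← Algebra.commutes (A k' i') (hh r k'), mul_assoc, ← mul_assoc (Eh k r),
            ← Algebra.commutes (A k' i') (Eh k r)]
          simp only [mul_assoc]
      _ = ∑ k, ∑ k', algebraMap L D (B i k * A k' i') * if k = k' then 1 else 0 := by
          rw [Finset.sum_comm]
          refine Finset.sum_congr rfl fun k _ => ?_
          rw [Finset.sum_comm]
          exact Finset.sum_congr rfl fun k' _ => by rw [← Finset.mul_sum, hEh]
      _ = algebraMap L D (∑ k, B i k * A k i') := by simp [map_sum]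
      _ = if i = i' then 1 else 0 := by rw [hBA]; split_ifs <;> simp
  · set r := σ (eκ k)
    set Gk : D ⊗[K] Quo f := lin f (g (Fin.castAdd m k)) with hGk
    set Gf : D ⊗[K] Quo f := ∑ k, h r k ⊗ₜ[K] (1 : Quo f) * V k with hGf
    have hblock : Gk = ∑ i : Fin c, h r (Fin.castAdd m i) ⊗ₜ[K] (1 : Quo f) * V (Fin.castAdd m i) := by
      rw [hGk, hlin, Fin.sum_univ_add]
      simp [hh, r]
    have hfk : Gf ∈ pc f 1 := sum_mem fun i _ => by
      rw [hsmul]; exact Submodule.smul_mem _ _ (hVpc i)
    have hgk : Gk ∈ pc f 1 := lin_mem_pc f _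
    have hdiff : Gf = Gk +
        ∑ j : Fin m, h r (Fin.natAdd c j) ⊗ₜ[K] (1 : Quo f) * V (Fin.natAdd c j) := by
      rw [hblock, hGf, Fin.sum_univ_add]
    have hd : ∀ d, Gf ^ (d + 1) - Gk ^ (d + 1) ∈ P d := by
      intro d
      induction d with
      | zero =>
        rw [pow_one, pow_one, hdiff, add_sub_cancel_left]
        exact sum_mem fun j _ => hmemP j (mem_pc_tmul f _ ⟨1, isHomogeneous_one _ _, rfl⟩)
      | succ d ih =>
        rw [show Gf ^ (d + 1 + 1) - Gk ^ (d + 1 + 1) =
          (Gf ^ (d + 1) - Gk ^ (d + 1)) * Gk + Gf ^ (d + 1) * (Gf - Gk) by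
            rw [sub_mul, mul_sub, ← pow_succ, ← pow_succ]; abel]
        refine add_mem ?_ ?_
        · generalize Gf ^ (d + 1) - Gk ^ (d + 1) = v at ih
          induction ih using Submodule.iSup_induction' with
          | mem j x hx =>
            obtain ⟨y, hy, rfl⟩ := hx
            rw [rm_apply, mul_assoc, ← hVZ, ← mul_assoc]
            exact hmemP j (mul_mem_pc f hy hgk)
          | zero => simp
          | add x y _ _ hx hy => rw [add_mul]; exact add_mem hx hy
        · rw [hdiff, add_sub_cancel_left, Finset.mul_sum, ← hdiff]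
          refine sum_mem fun j _ => ?_
          rw [← mul_assoc]
          exact hmemP (d := d + 1) j (mul_mem_pc (a := d + 1) (b := 0) f (pow_mem_pc f hfk (d + 1))
            (mem_pc_tmul f _ ⟨1, isHomogeneous_one _ _, rfl⟩))
    have h2 := hd (q - 1)
    rw [Nat.sub_add_cancel hq] at h2
    have h3 := sub_mem (hfull r) h2
    rwa [sub_sub_cancel] at h3

end Vale.Agent.P200.Betti.Skew
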