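import Vale.Agent.P200.Betti.Free.Defs

/-!
A space is at least as large as any span of cells found as lowest parts of its members.
-/

namespace Vale.Agent.P200.Betti.Free

open Finset Module

variable {n : ℕ} {F : Type*} [Field F]

/-- If every cell of `Z` is the lowest part of a member of `G`, then so is a whole spanning set
below, and `G` is at least as large as its span. -/
theorem finrank_le_of_lead {Z : Finset (Pt n)} {G : Submodule F (Pt n → F)} (hG : G ≤ sp F Z)
    (wt : Pt n → ℕ) (vs : Set (Pt n → F))
    (hvs : ∀ g ∈ vs, ∃ f ∈ G, ∃ v, (∀ z, wt z < v → f z = 0) ∧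
      keep F (fun z => wt z = v) f = g) :
    finrank F (Submodule.span F vs) ≤ finrank F G := by
  classical
  set ge : ℕ → Submodule F (Pt n → F) := fun v =>
    ⨅ z ∈ {z : Pt n | wt z < v}, LinearMap.ker (LinearMap.proj z : (Pt n → F) →ₗ[F] F) with hge
  have mem_ge : ∀ v f, f ∈ ge v ↔ ∀ z, wt z < v → f z = 0 := fun v f => by
    simp [hge, Submodule.mem_iInf]
  set S : ℕ → Submodule F (Pt n → F) := fun v => (G ⊓ ge v).map (keep F fun z => wt z = v)
  obtain ⟨B, hB⟩ : ∃ B, ∀ z ∈ Z, wt z < B :=
    ⟨Z.sup wt + 1, fun z hz => Nat.lt_succ_of_le (le_sup hz)⟩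
  have key : ∀ k ≤ B, ∃ R : Submodule F (Pt n → F), R ≤ sp F Z ∧
      finrank F R ≤ finrank F (G ⊓ ge (B - k) : Submodule F (Pt n → F)) ∧
      ∀ v, B - k ≤ v → S v ≤ R := by
    intro k
    induction k with
    | zero =>
      refine fun _ => ⟨⊥, bot_le, by simp, fun v hv => ?_⟩
      rintro _ ⟨f, ⟨hf, hf'⟩, rfl⟩
      rw [Submodule.mem_bot]
      funext z
      rw [keep_apply]
      split_ifs with h
      · by_cases hz : z ∈ Z
        · exact absurd (hB z hz) (by omega)
        · exact mem_sp.1 (hG hf) z hz
      · rfl
    | succ k ih =>
      intro hk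
      obtain ⟨R, hRle, hR, hRS⟩ := ih (by omega)
      have hv' : B - (k + 1) + 1 = B - k := by omega
      set v := B - (k + 1)
      have hSle : S v ≤ sp F Z := by
        rintro _ ⟨f, ⟨hf, -⟩, rfl⟩
        refine mem_sp.2 fun z hz => ?_
        rw [keep_apply, mem_sp.1 (hG hf) z hz, ite_self]
      refine ⟨S v ⊔ R, sup_le hSle hRle, ?_, fun w hw => ?_⟩
      · set W := G ⊓ ge v
        set L := keep (n := n) F fun z => wt z = v
        have hWfin : FiniteDimensional F W :=
          Submodule.finiteDimensional_of_le (inf_le_left.trans hG)
        have hRfin : FiniteDimensional F R := Submodule.finiteDimensional_of_le hRle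
        have hSfin : FiniteDimensional F (S v) := Submodule.finiteDimensional_of_le hSle
        have e : LinearMap.ker (L.domRestrict W) = (G ⊓ ge (B - k)).comap W.subtype := by
          ext ⟨f, hfG, hf⟩
          simp only [LinearMap.mem_ker, LinearMap.domRestrict_apply, Submodule.mem_comap,
            Submodule.subtype_apply, Submodule.mem_inf]
          replace hf := (mem_ge _ _).1 hf
          rw [mem_ge, and_iff_right (show f ∈ G from hfG)]
          constructor
          · intro h0 z hz
            rcases Nat.lt_or_ge (wt z) v with h | h
            · exact hf z h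
            · have := congrFun h0 z
              simpa [L, keep_apply, show wt z = v by omega] using this
          · intro h0
            funext z
            simp only [L, keep_apply, Pi.zero_apply]
            split_ifs with h
            · exact h0 z (by omega)
            · rfl
        have hle : G ⊓ ge (B - k) ≤ W := by
          refine inf_le_inf_left G fun f hf => (mem_ge _ _).2 fun z hz => (mem_ge _ _).1 hf z ?_
          omega
        have hrn : finrank F (S v) + finrank F (G ⊓ ge (B - k) : Submodule F (Pt n → F)) =
            finrank F W := by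
          rw [← LinearMap.finrank_range_add_finrank_ker (L.domRestrict W),
            LinearMap.range_domRestrict, e]
          congr 1
          exact (Submodule.comapSubtypeEquivOfLe hle).finrank_eq.symm
        have := Submodule.finrank_add_le_finrank_add_finrank (S v) R
        omega
      · rcases hw.eq_or_lt with rfl | h
        · exact le_sup_left
        · exact (hRS w (by omega)).trans le_sup_right
  obtain ⟨R, hRle, hR, hRS⟩ := key B le_rfl
  have hGfin : FiniteDimensional F G := Submodule.finiteDimensional_of_le hG
  have hRfin : FiniteDimensional F R := Submodule.finiteDimensional_of_le hRle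
  have hspan : Submodule.span F vs ≤ R := by
    refine Submodule.span_le.2 fun g hg => ?_
    obtain ⟨f, hf, v, hlow, hfg⟩ := hvs g hg
    exact hRS v (by omega) ⟨f, ⟨hf, (mem_ge v f).2 hlow⟩, hfg⟩
  exact (Submodule.finrank_mono hspan).trans (hR.trans (Submodule.finrank_mono inf_le_left))

end Vale.Agent.P200.Betti.Free
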