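import Vale.Agent.P200.Betti.Change

/-!
The change of variables of the Koszul complex for twisted commuting substitutions: the substitution
may depend on the positions already used.
-/

namespace Vale.Agent.P200.Betti.Twist

open Finset

variable {n : ℕ} {D M : Type*} [Ring D] [AddCommGroup M] [Module D M]

/-- The differential without position signs. -/
def freeD (ρ : Finset (Fin n) → Fin n → M →ₗ[D] M) :
    (Finset (Fin n) → M) →ₗ[D] (Finset (Fin n) → M) :=
  LinearMap.pi fun T => ∑ k ∈ Tᶜ, (ρ T k).comp (LinearMap.proj (insert k T))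

lemma freeD_apply (ρ : Finset (Fin n) → Fin n → M →ₗ[D] M) (v : Finset (Fin n) → M)
    (T : Finset (Fin n)) : freeD ρ v T = ∑ k ∈ Tᶜ, ρ T k (v (insert k T)) := by
  simp [freeD]

variable (R : Finset (Fin n) → Fin n → Fin n → M →ₗ[D] M)

/-- The transformed value at a list of positions, having used the members of `U`. -/
def word' : List (Fin n) → Finset (Fin n) → (Finset (Fin n) → M) →ₗ[D] M
  | [], U => LinearMap.proj U
  | i :: l, U => ∑ k ∈ Uᶜ, (R U k i).comp (word' l (insert k U))

lemma word'_nil (U : Finset (Fin n)) (v : Finset (Fin n) → M) : word' R [] U v = v U := rfl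

lemma word'_cons (i : Fin n) (l : List (Fin n)) (U : Finset (Fin n)) (v : Finset (Fin n) → M) :
    word' R (i :: l) U v = ∑ k ∈ Uᶜ, R U k i (word' R l (insert k U) v) := by
  simp [word']

/-- The change of variables. -/
def change : (Finset (Fin n) → M) →ₗ[D] (Finset (Fin n) → M) :=
  LinearMap.pi fun T => word' R (T.sort (· ≤ ·)) ∅

lemma change_apply (v : Finset (Fin n) → M) (T : Finset (Fin n)) :
    change R v T = word' R (T.sort (· ≤ ·)) ∅ v := rfl

variable {R}

lemma word'_mem {P : Submodule D M} (hR : ∀ U k i, ∀ m ∈ P, R U k i m ∈ P)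
    {v : Finset (Fin n) → M} (hv : ∀ U, v U ∈ P) :
    ∀ (l : List (Fin n)) (U : Finset (Fin n)), word' R l U v ∈ P
  | [], U => hv U
  | i :: l, U => by
    rw [word'_cons]
    exact sum_mem fun k _ => hR U k i _ (word'_mem hR hv l _)

lemma word'_eq_zero {p : ℕ} {v : Finset (Fin n) → M} (hv : ∀ U, U.card ≠ p → v U = 0) :
    ∀ (l : List (Fin n)) (U : Finset (Fin n)), U.card + l.length ≠ p → word' R l U v = 0
  | [], U, h => hv U (by simpa using h)
  | i :: l, U, h => by
    rw [word'_cons]
    refine sum_eq_zero fun k hk => ?_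
    rw [word'_eq_zero hv l _ (by
      rw [card_insert_of_notMem (mem_compl.1 hk)]
      simp only [List.length_cons] at h
      omega), map_zero]

variable (hdup : ∀ U k m, k ∉ U → m ∉ U → k ≠ m → ∀ i x,
    R U k i (R (insert k U) m i x) + R U m i (R (insert m U) k i x) = 0)
  (hanti : ∀ U k m, k ∉ U → m ∉ U → k ≠ m → ∀ i j x,
    R U k i (R (insert k U) m j x) + R U k j (R (insert k U) m i x) +
      (R U m i (R (insert m U) k j x) + R U m j (R (insert m U) k i x)) = 0)

include hdup in
lemma word'_dup (i : Fin n) (l : List (Fin n)) (U : Finset (Fin n)) (v : Finset (Fin n) → M) :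
    word' R (i :: i :: l) U v = 0 := by
  simp only [word'_cons, map_sum]
  rw [sum_sigma']
  refine sum_involution (fun x _ => ⟨x.2, x.1⟩) ?_ ?_ ?_ ?_
  · rintro ⟨k, m⟩ h
    simp only [mem_sigma, mem_compl, mem_insert, not_or] at h
    rw [Finset.insert_comm k m U]
    exact hdup U k m h.1 h.2.2 (Ne.symm h.2.1) i _
  · rintro ⟨k, m⟩ h _ he
    simp only [mem_sigma, mem_compl, mem_insert, not_or] at h
    simp only [Sigma.mk.injEq, heq_eq_eq] at he
    exact h.2.1 he.1
  · rintro ⟨k, m⟩ h
    simp only [mem_sigma, mem_compl, mem_insert, not_or] at h ⊢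
    exact ⟨h.2.2, ⟨Ne.symm h.2.1, h.1⟩⟩
  · rintro ⟨k, m⟩ _; rfl

include hanti in
lemma word'_swap (i j : Fin n) (l : List (Fin n)) (U : Finset (Fin n))
    (v : Finset (Fin n) → M) :
    word' R (j :: i :: l) U v = -word' R (i :: j :: l) U v := by
  rw [eq_neg_iff_add_eq_zero]
  simp only [word'_cons, map_sum]
  rw [sum_sigma', sum_sigma', ← sum_add_distrib]
  refine sum_involution (fun x _ => ⟨x.2, x.1⟩) ?_ ?_ ?_ ?_
  · rintro ⟨k, m⟩ h
    simp only [mem_sigma, mem_compl, mem_insert, not_or] at h
    rw [Finset.insert_comm k m U]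
    have h1 := hanti U k m h.1 h.2.2 (Ne.symm h.2.1) i j (word' R l (insert m (insert k U)) v)
    simp only at *
    linear_combination (norm := abel) h1
  · rintro ⟨k, m⟩ h _ he
    simp only [mem_sigma, mem_compl, mem_insert, not_or] at h
    simp only [Sigma.mk.injEq, heq_eq_eq] at he
    exact h.2.1 he.1
  · rintro ⟨k, m⟩ h
    simp only [mem_sigma, mem_compl, mem_insert, not_or] at h ⊢
    exact ⟨h.2.2, ⟨Ne.symm h.2.1, h.1⟩⟩
  · rintro ⟨k, m⟩ _; rfl

include hanti in
lemma word'_perm (v : Finset (Fin n) → M) {l l' : List (Fin n)} (h : l.Perm l') :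
    ∀ U, word' R l' U v = 0 → word' R l U v = 0 := by
  suffices ∃ e : ℤ, ∀ U, word' R l U v = e • word' R l' U v by
    obtain ⟨e, he⟩ := this
    intro U hU
    rw [he, hU, smul_zero]
  induction h with
  | nil => exact ⟨1, fun U => (one_smul _ _).symm⟩
  | cons a _ ih =>
    obtain ⟨e, he⟩ := ih
    refine ⟨e, fun U => ?_⟩
    simp only [word'_cons, he, map_zsmul, smul_sum]
  | swap a b l =>
    exact ⟨-1, fun U => by rw [word'_swap hanti a b l U v, neg_one_zsmul]⟩
  | trans _ _ ih₁ ih₂ =>
    obtain ⟨e, he⟩ := ih₁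
    obtain ⟨e', he'⟩ := ih₂
    exact ⟨e * e', fun U => by rw [he, he', mul_smul]⟩

include hanti in
lemma word'_front_to_back (v : Finset (Fin n) → M) (k : Fin n) :
    ∀ (l : List (Fin n)) (U : Finset (Fin n)),
      word' R (k :: l) U v = ((-1 : ℤ) ^ l.length) • word' R (l ++ [k]) U v
  | [], U => by simp
  | a :: l, U => by
    rw [word'_swap hanti a k l U v, List.cons_append, word'_cons R a (l ++ [k]),
      word'_cons R a (k :: l), List.length_cons, pow_succ, mul_smul, neg_one_zsmul, smul_neg,
      neg_inj, smul_sum]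
    exact sum_congr rfl fun j _ => by rw [word'_front_to_back v k l, map_zsmul]

include hanti in
lemma word'_orderedInsert (v : Finset (Fin n) → M) (k : Fin n) :
    ∀ (l : List (Fin n)) (U : Finset (Fin n)), l.Pairwise (· ≤ ·) → k ∉ l →
      word' R (l.orderedInsert (· ≤ ·) k) U v =
        ((-1 : ℤ) ^ l.countP (k < ·)) • word' R (l ++ [k]) U v
  | [], U, _, _ => by simp
  | a :: l, U, hl, hk => by
    obtain ⟨hka, hkl⟩ := not_or.1 (List.mem_cons.not.1 hk)
    obtain ⟨ha, hl'⟩ := List.pairwise_cons.1 hl
    by_cases h : k ≤ a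
    · rw [List.orderedInsert_cons, if_pos h, word'_front_to_back hanti v k (a :: l) U]
      congr 2
      refine (List.countP_eq_length.2 fun b hb => ?_).symm
      rcases List.mem_cons.1 hb with rfl | hb
      · simpa using lt_of_le_of_ne h hka
      · simpa using lt_of_lt_of_le (lt_of_le_of_ne h hka) (ha b hb)
    · rw [List.orderedInsert_cons, if_neg h, word'_cons, List.cons_append, word'_cons, smul_sum]
      refine sum_congr rfl fun j _ => ?_
      rw [word'_orderedInsert v k l _ hl' hkl, map_zsmul,
        List.countP_cons_of_neg (by simpa using le_of_not_ge h)]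

include hanti in
lemma word'_sort_insert (v : Finset (Fin n) → M) {k : Fin n} {T : Finset (Fin n)} (hk : k ∉ T) :
    word' R ((insert k T).sort (· ≤ ·)) ∅ v =
      posSign k T • word' R (T.sort (· ≤ ·) ++ [k]) ∅ v := by
  have hs : (insert k T).sort (· ≤ ·) = (T.sort (· ≤ ·)).orderedInsert (· ≤ ·) k := by
    refine List.Perm.eq_of_pairwise' (r := (· ≤ ·)) (Finset.pairwise_sort _ _)
      ((Finset.pairwise_sort _ _).orderedInsert k _) ?_
    refine List.perm_of_nodup_nodup_toFinset_eq (Finset.sort_nodup _ _) ?_ ?_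
    · rw [(List.perm_orderedInsert _ k _).nodup_iff]
      simp [hk]
    · ext a
      simp [List.mem_orderedInsert]
  rw [hs, word'_orderedInsert hanti v k _ _ (Finset.pairwise_sort _ _) (by simp [hk]), posSign]
  congr 2
  rw [List.countP_eq_length_filter,
    ← List.toFinset_card_of_nodup ((Finset.sort_nodup _ _).filter _)]
  congr 1
  ext a
  simp

lemma sum_word'_append (L : Fin n → M →ₗ[D] M) (hLR : ∀ j U k i x, L j (R U k i x) = R U k i (L j x))
    (v : Finset (Fin n) → M) :
    ∀ (l : List (Fin n)) (U : Finset (Fin n)),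
      ∑ i, L i (word' R (l ++ [i]) U v) =
        word' R l U (freeD (fun U k => ∑ i, (L i).comp (R U k i)) v)
  | [], U => by
    simp only [List.nil_append, word'_cons, word'_nil, freeD_apply, map_sum, LinearMap.sum_apply,
      LinearMap.comp_apply]
    exact sum_comm
  | a :: l, U => by
    simp only [List.cons_append, word'_cons, map_sum, hLR]
    rw [sum_comm]
    refine sum_congr rfl fun k _ => ?_
    rw [← map_sum, sum_word'_append L hLR v l]

include hdup hanti in
/-- The change of variables commutes with the differentials. -/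
theorem kosD_change (L : Fin n → M →ₗ[D] M) (hLR : ∀ j U k i x, L j (R U k i x) = R U k i (L j x))
    (v : Finset (Fin n) → M) :
    kosD L (change R v) = change R (freeD (fun U k => ∑ i, (L i).comp (R U k i)) v) := by
  funext T
  rw [kosD_apply, change_apply, ← sum_word'_append L hLR]
  rw [← sum_subset (subset_univ Tᶜ) (fun i _ hi => ?_)]
  · refine sum_congr rfl fun k hk => ?_
    rw [change_apply, word'_sort_insert hanti v (mem_compl.1 hk), map_zsmul, smul_smul, posSign,
      ← mul_pow, neg_one_mul, neg_neg, one_pow, one_smul]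
  · rw [mem_compl, not_not] at hi
    have hmem : i ∈ T.sort (· ≤ ·) := (mem_sort _).2 hi
    have hp : (T.sort (· ≤ ·) ++ [i]).Perm (i :: i :: (T.sort (· ≤ ·)).erase i) :=
      (List.perm_append_singleton i _).trans ((List.perm_cons_erase hmem).cons i)
    rw [word'_perm hanti v hp ∅ (word'_dup hdup i _ _ v), map_zero]

variable (Q : Finset (Fin n) → Fin n → Fin n → M →ₗ[D] M)
  (hQ : ∀ U m k x, ∑ i, Q U i m (R U k i x) = if k = m then x else 0)

include hdup hanti hQ in
/-- The change of variables is injective. -/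
theorem change_injective : Function.Injective (change R) := by
  rw [injective_iff_map_eq_zero]
  intro v hv
  have h0 : ∀ l : List (Fin n), word' R l ∅ v = 0 := by
    intro l
    by_cases hl : l.Nodup
    · have hp : l.Perm (l.toFinset.sort (· ≤ ·)) :=
        List.perm_of_nodup_nodup_toFinset_eq hl (sort_nodup _ _) (by simp)
      refine word'_perm hanti v hp ∅ ?_
      exact congrFun hv _
    · obtain ⟨i, hi⟩ := List.exists_duplicate_iff_not_nodup.2 hl
      have hcount : 2 ≤ l.count i := List.duplicate_iff_two_le_count.1 hi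
      have h1 : i ∈ l := List.count_pos_iff.1 (by omega)
      have h2 : i ∈ l.erase i :=
        List.count_pos_iff.1 (by rw [List.count_erase_self]; omega)
      exact word'_perm hanti v ((List.perm_cons_erase h1).trans ((List.perm_cons_erase h2).cons i))
        ∅ (word'_dup hdup i _ _ v)
  have key : ∀ U : Finset (Fin n), ∀ l : List (Fin n), word' R l U v = 0 := by
    intro U
    induction U using Finset.induction_on with
    | empty => exact h0
    | insert m U hm ih =>
      intro l
      have h1 : ∑ i, Q U i m (word' R (i :: l) U v) = word' R l (insert m U) v := by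
        simp only [word'_cons, map_sum]
        rw [sum_comm]
        simp only [hQ, sum_ite_eq', mem_compl, hm, not_false_eq_true, if_true]
      rw [← h1]
      exact sum_eq_zero fun i _ => by rw [ih, map_zero]
  funext U
  exact key U []

end Vale.Agent.P200.Betti.Twist
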