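import Vale.Agent.P200.Betti.Free.Leading
import Vale.Agent.P200.Betti.Free.Twist
import Vale.Agent.P200.Betti.Rank
import Vale.Agent.P200.Betti.Koszul
import Vale.Agent.P200.Betti.MonomialSide

/-!
The Betti numbers of an ideal are at most those of its standard monomial ideal, for twisted
commuting linear elements.
-/

namespace Vale.Agent.P200.Betti.Skew

open MvPolynomial Module
open scoped TensorProduct
open Vale.Agent.P200.Quad (Quo quoDeg mkA finrank_homog)

universe u

variable {K : Type u} [Field K] {c m : ℕ} {D : Type u} [DivisionRing D] [Algebra K D]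
  {Z : Type*} [Field Z] [Algebra Z D]
variable {f : Fin c → MvPolynomial (Fin (c + m)) K} {a : Fin c → ℕ} (M : Datum f (D := D) Z a)

attribute [local instance] tensorRing

namespace Datum

/-- The twist of a position against the ones used. -/
noncomputable def chi (k : Fin (c + m)) (U : Finset (Fin (c + m))) : Z :=
  ∏ i ∈ U.filter (k < ·), -M.q k i

lemma chi_ne (k : Fin (c + m)) (U : Finset (Fin (c + m))) : M.chi k U ≠ 0 :=
  Finset.prod_ne_zero_iff.2 fun i hi => neg_ne_zero.2 (M.q_ne k i (Finset.mem_filter.1 hi).2)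

lemma chi_insert {k l : Fin (c + m)} {U : Finset (Fin (c + m))} (hl : l ∉ U) (h : k ≠ l) :
    M.chi k (insert l U) = (if k < l then -M.q k l else 1) * M.chi k U := by
  unfold chi
  rw [Finset.filter_insert]
  split_ifs with hkl
  · rw [Finset.prod_insert (fun h' => hl (Finset.mem_filter.1 h').1)]
  · rw [one_mul]

lemma chi_eq (k : Fin (c + m)) (U : Finset (Fin (c + m))) :
    M.chi k U = (posSign k U : Z) * ∏ i ∈ U.filter (k < ·), M.q k i := by
  rw [chi, Finset.prod_neg, posSign]
  simp

/-- The scalar comparing the twisted complex with the Koszul complex. -/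
noncomputable def eps (T : Finset (Fin (c + m))) (e : Fin (c + m) →₀ ℕ) : Z :=
  ∏ x, ∏ y ∈ Finset.univ.filter (x < ·), M.q x y ^ (e x * ((if y ∈ T then 1 else 0) + e y))

lemma eps_ne (T : Finset (Fin (c + m))) (e : Fin (c + m) →₀ ℕ) : M.eps T e ≠ 0 :=
  Finset.prod_ne_zero_iff.2 fun x _ => Finset.prod_ne_zero_iff.2 fun y hy =>
    pow_ne_zero _ (M.q_ne x y (Finset.mem_filter.1 hy).2)

lemma eps_step {T : Finset (Fin (c + m))} {k : Fin (c + m)} (hk : k ∉ T)
    (e : Fin (c + m) →₀ ℕ) :
    M.eps T (e + Finsupp.single k 1) =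
      M.eps (insert k T) e * ((∏ i ∈ T.filter (k < ·), M.q k i) * M.tw k e) := by
  have hsum : ∀ y, (if y ∈ T then 1 else 0) + (e + Finsupp.single k 1 : Fin (c + m) →₀ ℕ) y =
      (if y ∈ insert k T then 1 else 0) + e y := by
    intro y
    by_cases hy : y = k
    · subst hy; simp [hk]; ring
    · simp [hy]
  have h1 : (∏ i ∈ T.filter (k < ·), M.q k i) * M.tw k e =
      ∏ y ∈ Finset.univ.filter (k < ·), M.q k y ^ ((if y ∈ insert k T then 1 else 0) + e y) := by
    rw [tw, Finset.prod_filter (s := T), Finset.prod_filter, Finset.prod_filter,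
      ← Finset.univ_inter T, ← Finset.prod_ite_mem, ← Finset.prod_mul_distrib]
    refine Finset.prod_congr rfl fun y _ => ?_
    by_cases hy : k < y
    · by_cases hyT : y ∈ T <;> simp [hy, hyT, hy.ne', pow_add]
    · by_cases hyT : y ∈ T <;> simp [hy, hyT]
  rw [h1, eps, eps]
  simp only [hsum]
  rw [← Finset.mul_prod_erase Finset.univ (fun x => ∏ y ∈ Finset.univ.filter (x < ·),
      M.q x y ^ ((e + Finsupp.single k 1 : Fin (c + m) →₀ ℕ) x *
        ((if y ∈ insert k T then 1 else 0) + e y))) (Finset.mem_univ k),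
    ← Finset.mul_prod_erase Finset.univ (fun x => ∏ y ∈ Finset.univ.filter (x < ·),
      M.q x y ^ (e x * ((if y ∈ insert k T then 1 else 0) + e y))) (Finset.mem_univ k)]
  have h2 : ∀ x ∈ Finset.univ.erase k, (e + Finsupp.single k 1 : Fin (c + m) →₀ ℕ) x = e x := by
    intro x hx
    simp [(Finset.mem_erase.1 hx).1]
  rw [Finset.prod_congr rfl (fun x hx => by rw [h2 x hx] :
    ∀ x ∈ Finset.univ.erase k, (∏ y ∈ Finset.univ.filter (x < ·),
      M.q x y ^ ((e + Finsupp.single k 1 : Fin (c + m) →₀ ℕ) x *
        ((if y ∈ insert k T then 1 else 0) + e y))) = _)]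
  rw [mul_right_comm, ← Finset.prod_mul_distrib]
  congr 1
  refine Finset.prod_congr rfl fun y _ => ?_
  rw [← pow_add]
  congr 1
  simp [add_mul]

/-- The monomials of a degree outside the standard ones. -/
noncomputable def exps (I : Ideal (MvPolynomial (Fin (c + m)) K)) (d : ℕ) :
    Finset (Fin (c + m) →₀ ℕ) := by
  classical
  exact ((Finset.univ : Finset (Fin (c + m))).finsuppAntidiag d).filter fun e => e ∉ M.std I d

lemma mem_exps {I : Ideal (MvPolynomial (Fin (c + m)) K)} {d : ℕ} {e : Fin (c + m) →₀ ℕ} :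
    e ∈ M.exps I d ↔ e.degree = d ∧ e ∉ M.std I d := by
  classical simp [exps, Finsupp.degree_eq_sum]

variable {I : Ideal (MvPolynomial (Fin (c + m)) K)} (ha : ∀ k, 0 < a k)

lemma exps_powers {d : ℕ} {e : Fin (c + m) →₀ ℕ} (hd : e.degree = d)
    (h : ∃ k : Fin c, a k ≤ e (Fin.castAdd m k)) : e ∈ M.exps I d := by
  refine M.mem_exps.2 ⟨hd, fun hs => ?_⟩
  obtain ⟨k, hk⟩ := h
  exact absurd hk (not_le.2 ((mem_red.1 ((M.mem_std I).1 hs).1).2 k))

include ha in
lemma exps_closed {d : ℕ} {e : Fin (c + m) →₀ ℕ} (he : e ∈ M.exps I d) (v : Fin (c + m)) :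
    e + Finsupp.single v 1 ∈ M.exps I (d + 1) := by
  obtain ⟨hd, hs⟩ := M.mem_exps.1 he
  exact M.mem_exps.2 ⟨by rw [map_add, Finsupp.degree_single, hd],
    fun h => hs (M.std_closed I ha v hd h)⟩

include ha in
lemma card_exps (hf : HomogI (Ideal.span (Set.range f))) (hI : HomogI I) (hfI : ∀ i, f i ∈ I)
    (d : ℕ) : (M.exps I d).card = finrank K (degPart d I) := by
  classical
  have h0 : (M.std I d).card + (M.exps I d).card =
      finrank K (homogeneousSubmodule (Fin (c + m)) K d) := by
    rw [finrank_homog]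
    have hA : Nat.card {e : Fin (c + m) →₀ ℕ // e.degree = d} =
        ((Finset.univ : Finset (Fin (c + m))).finsuppAntidiag d).card := by
      rw [← Nat.card_eq_finsetCard]
      exact Nat.card_congr (Equiv.subtypeEquivRight fun e => by simp [Finsupp.degree_eq_sum])
    rw [hA, ← Finset.card_filter_add_card_filter_not
      (s := (Finset.univ : Finset (Fin (c + m))).finsuppAntidiag d) (fun e => e ∈ M.std I d)]
    congr 1
    refine congrArg Finset.card ?_
    ext e
    simp only [Finset.mem_filter, Finset.mem_finsuppAntidiag, Finset.subset_univ, and_true]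
    exact ⟨fun h => ⟨by simpa [Finsupp.degree_eq_sum] using (mem_red.1 ((M.mem_std I).1 h).1).1, h⟩,
      fun h => h.2⟩
  have h1 := M.card_std I ha hf hI d
  have h2 := finrank_map_add_ker (mkA f) (degPart d I)
  have h3 := finrank_map_add_ker (mkA f) (homogeneousSubmodule (Fin (c + m)) K d)
  have hle : Ideal.span (Set.range f) ≤ I := Ideal.span_le.2 fun x ⟨i, hi⟩ => hi ▸ hfI i
  have h4 : degPart d I ⊓ LinearMap.ker (mkA f) =
      homogeneousSubmodule (Fin (c + m)) K d ⊓ LinearMap.ker (mkA f) := by
    ext u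
    simp only [Submodule.mem_inf, mem_degPart, LinearMap.mem_ker, mem_homogeneousSubmodule]
    exact ⟨fun h => ⟨h.1.1, h.2⟩,
      fun h => ⟨⟨h.1, hle (Ideal.Quotient.eq_zero_iff_mem.1 h.2)⟩, h.2⟩⟩
  rw [h4] at h2
  change finrank K (quoDeg f d) + _ = _ at h3
  omega

/-- The Koszul boundary on standard cells. -/
noncomputable def mat (I : Ideal (MvPolynomial (Fin (c + m)) K)) (p d : ℕ) :
    Matrix (↥(((Finset.univ : Finset (Fin (c + m))).powersetCard p) ×ˢ M.std I (d + 1)))
      (↥(((Finset.univ : Finset (Fin (c + m))).powersetCard (p + 1)) ×ˢ M.std I d)) K :=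
  fun y x => ∑ k ∈ x.1.1,
    if y.1.1 = x.1.1.erase k ∧ y.1.2 = x.1.2 + Finsupp.single k 1 then (posSign k y.1.1 : K) else 0

omit [Algebra Z D] in
lemma kos_single (T : Finset (Fin (c + m))) (w : MvPolynomial (Fin (c + m)) K) :
    kos (Pi.single T w : Kos K (c + m)) =
      ∑ k ∈ T, Pi.single (T.erase k) (posSign k (T.erase k) • (X k * w)) := by
  funext T'
  rw [kos_apply, Finset.sum_apply]
  simp only [Pi.single_apply, mul_ite, mul_zero, smul_ite, smul_zero]
  rw [← Finset.sum_filter, ← Finset.sum_filter]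
  refine Finset.sum_congr ?_ fun k hk => ?_
  · ext k
    simp only [Finset.mem_filter, Finset.mem_compl]
    constructor
    · rintro ⟨hk, rfl⟩
      exact ⟨Finset.mem_insert_self _ _, (Finset.erase_insert hk).symm⟩
    · rintro ⟨hk, rfl⟩
      exact ⟨Finset.notMem_erase _ _, Finset.insert_erase hk⟩
  · rw [(Finset.mem_filter.1 hk).2]

include ha in
lemma rkI_exps_le (p d : ℕ) :
    rkI (setIdeal (M.exps I) K) (p + 1) d ≤ (M.mat I p d).rank := by
  classical
  set J := setIdeal (M.exps I) K
  let Γ : (↥(((Finset.univ : Finset (Fin (c + m))).powersetCard p) ×ˢ M.std I (d + 1)) → K) →ₗ[K]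
      Kos K (c + m) ⧸ inI J :=
    Fintype.linearCombination K fun y =>
      (inI J).mkQ (Pi.single y.1.1 (monomial y.1.2 (1 : K)))
  have hmem : ∀ {e : Fin (c + m) →₀ ℕ} {d' : ℕ}, e ∈ M.exps I d' →
      monomial e (1 : K) ∈ J := fun {e d'} he =>
    Ideal.subset_span ⟨e, ⟨d', he⟩, rfl⟩
  have hzero : ∀ (T : Finset (Fin (c + m))) {w : MvPolynomial (Fin (c + m)) K}, w ∈ J →
      (inI J).mkQ (Pi.single T w) = 0 := fun T w hw => by
    rw [Submodule.mkQ_apply, Submodule.Quotient.mk_eq_zero]
    intro T' _
    by_cases h : T' = T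
    · subst h; simpa using hw
    · simp [Pi.single_eq_of_ne h]
  have key : ∀ T : Finset (Fin (c + m)), T.card = p + 1 → ∀ e : Fin (c + m) →₀ ℕ, e.degree = d →
      (inI J).mkQ (kos (Pi.single T (monomial e (1 : K)))) ∈
        (LinearMap.range (M.mat I p d).mulVecLin).map Γ := by
    intro T hT e hd
    rw [kos_single, map_sum]
    by_cases hs : e ∈ M.std I d
    · let x : ↥(((Finset.univ : Finset (Fin (c + m))).powersetCard (p + 1)) ×ˢ M.std I d) :=
        ⟨(T, e), by simp [hT, hs]⟩
      refine ⟨(M.mat I p d).mulVecLin (Pi.single x 1), ⟨_, rfl⟩, ?_⟩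
      rw [Matrix.mulVecLin_apply, Matrix.mulVec_single_one]
      simp only [Γ, Fintype.linearCombination_apply, Matrix.col_apply, mat, Finset.sum_smul,
        ite_smul, zero_smul]
      rw [Finset.sum_comm]
      refine Finset.sum_congr rfl fun k hk => ?_
      rw [show X k * monomial e (1 : K) = monomial (e + Finsupp.single k 1) 1 by
        rw [X, monomial_mul, one_mul, add_comm e (Finsupp.single k 1)]]
      by_cases hs' : e + Finsupp.single k 1 ∈ M.std I (d + 1)
      · let y : ↥(((Finset.univ : Finset (Fin (c + m))).powersetCard p) ×ˢ M.std I (d + 1)) :=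
          ⟨(T.erase k, e + Finsupp.single k 1), by simp [hs', hk, hT]⟩
        rw [Finset.sum_eq_single y]
        · rw [if_pos ⟨rfl, rfl⟩]
          simp only [Pi.single_smul, map_zsmul]
          rw [← Int.cast_smul_eq_zsmul K]
        · intro y' _ hy'
          rw [if_neg]
          rintro ⟨h1, h2⟩
          exact hy' (Subtype.ext (Prod.ext h1 h2))
        · simp
      · rw [Finset.sum_eq_zero fun y _ => if_neg ?_]
        swap
        · rintro ⟨-, h2⟩
          exact hs' (h2 ▸ (Finset.mem_product.1 y.2).2)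
        simp only [Pi.single_smul, map_zsmul]
        rw [hzero _ (hmem (M.mem_exps.2 ⟨by rw [map_add, Finsupp.degree_single, hd], hs'⟩)),
          smul_zero]
    · rw [Finset.sum_eq_zero fun k _ => ?_]
      · exact zero_mem _
      rw [hzero]
      exact zsmul_mem (J.mul_mem_left _ (hmem (M.mem_exps.2 ⟨hd, hs⟩))) _
  have hle : (chains (p + 1) d).map ((inI J).mkQ.comp kos) ≤
      (LinearMap.range (M.mat I p d).mulVecLin).map Γ := by
    rintro _ ⟨v, hv, rfl⟩
    rw [LinearMap.comp_apply, ← Finset.univ_sum_single v, map_sum, map_sum]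
    refine sum_mem fun T _ => ?_
    obtain ⟨hhom, hcard⟩ := mem_chains.1 hv T
    by_cases hT : T.card = p + 1
    swap
    · rw [hcard hT, Pi.single_zero, map_zero, map_zero]; exact zero_mem _
    rw [(v T).as_sum]
    rw [show (Pi.single T (∑ e ∈ (v T).support, monomial e (coeff e (v T))) : Kos K (c + m)) =
      ∑ e ∈ (v T).support, coeff e (v T) • Pi.single T (monomial e (1 : K)) by
        funext T'
        rw [Finset.sum_apply]
        by_cases h : T' = T
        · subst h; simp [smul_monomial]
        · simp [Pi.single_eq_of_ne h]]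
    simp only [map_sum, map_smul]
    refine sum_mem fun e he => Submodule.smul_mem _ _ (key T hT e ?_)
    by_contra hne
    exact (MvPolynomial.mem_support_iff.1 he) (hhom.coeff_eq_zero hne)
  calc rkI J (p + 1) d ≤ finrank K ((LinearMap.range (M.mat I p d).mulVecLin).map Γ) :=
        Submodule.finrank_mono hle
    _ ≤ (M.mat I p d).rank := Submodule.finrank_map_le _ _

set_option maxHeartbeats 1600000 in
include ha in
lemma rank_mat_le (p d : ℕ) :
    (M.mat I p d).rank ≤ rkI I (p + 1) d := by
  classical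
  set U : Submodule D (D ⊗[K] Quo f) := isp f I
  have hstab : ∀ w, U ≤ U.comap (rm f w) := fun w v hv => mul_mem_isp hv w
  let W := (D ⊗[K] Quo f) ⧸ U
  let L : Fin (c + m) → W →ₗ[D] W := fun i => U.mapQ U (rm f (xv f i)) (hstab _)
  let cst : D → D ⊗[K] Quo f := fun x => x ⊗ₜ[K] (1 : Quo f)
  let R' : D → W →ₗ[D] W := fun x => U.mapQ U (rm f (cst x)) (hstab _)
  let R : Finset (Fin (c + m)) → Fin (c + m) → Fin (c + m) → W →ₗ[D] W := fun V k i =>
    R' (algebraMap Z D (M.chi k V) * M.g k i)
  let Q : Finset (Fin (c + m)) → Fin (c + m) → Fin (c + m) → W →ₗ[D] W := fun V i k =>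
    R' (algebraMap Z D (M.chi k V)⁻¹ * M.E i k)
  have hR' : ∀ x v, R' x (U.mkQ v) = U.mkQ (v * cst x) := fun x v => rfl
  have hL' : ∀ i v, L i (U.mkQ v) = U.mkQ (v * xv f i) := fun i v => rfl
  have hcst : ∀ x y v, v * cst x * cst y = v * cst (x * y) := fun x y v => by
    rw [mul_assoc, show cst x * cst y = cst (x * y) by simp [cst, tmul_mul]]
  have hpair : ∀ (V : Finset (Fin (c + m))) k l, k ∉ V → l ∉ V → k < l → ∀ i j,
      (algebraMap Z D (M.chi l (insert k V)) * M.g l j) * (algebraMap Z D (M.chi k V) * M.g k i) +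
        (algebraMap Z D (M.chi k (insert l V)) * M.g k i) *
          (algebraMap Z D (M.chi l V) * M.g l j) = 0 := by
    intro V k l hk hl hkl i j
    have hmix : ∀ (s t : Z) (x y : D), (algebraMap Z D s * x) * (algebraMap Z D t * y) =
        algebraMap Z D (s * t) * (x * y) := by
      intro s t x y
      rw [map_mul, mul_assoc, ← mul_assoc x, ← Algebra.commutes t x]
      simp only [mul_assoc]
    rw [hmix, hmix, M.comm k l hkl i j, ← mul_assoc, ← map_mul, ← add_mul, ← map_add,
      M.chi_insert hk hkl.ne', M.chi_insert hl hkl.ne, if_neg (not_lt.2 hkl.le), if_pos hkl,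
      show 1 * M.chi l V * M.chi k V * M.q k l + -M.q k l * M.chi k V * M.chi l V = 0 by ring,
      map_zero, zero_mul]
  have hsum2 : ∀ x y v, v * cst x + v * cst y = v * cst (x + y) := fun x y v => by
    rw [← mul_add, show cst x + cst y = cst (x + y) from (TensorProduct.add_tmul x y _).symm]
  have hzero : ∀ v, v * cst 0 = 0 := fun v => by
    rw [show cst 0 = 0 from TensorProduct.zero_tmul _ _, mul_zero]
  have hkill : ∀ (x : D) v, x = 0 → U.mkQ (v * cst x) = 0 := fun x v h => by
    subst h
    rw [hzero, map_zero]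
  have hdup : ∀ V k l, k ∉ V → l ∉ V → k ≠ l → ∀ i x,
      R V k i (R (insert k V) l i x) + R V l i (R (insert l V) k i x) = 0 := by
    intro V k l hk hl hne i x
    obtain ⟨v, rfl⟩ := U.mkQ_surjective x
    simp only [R, hR', hcst, ← map_add, hsum2]
    rcases lt_or_gt_of_ne hne with h | h
    · exact hkill _ _ (hpair V k l hk hl h i i)
    · exact hkill _ _ ((add_comm _ _).trans (hpair V l k hl hk h i i))
  have hanti : ∀ V k l, k ∉ V → l ∉ V → k ≠ l → ∀ i j x,
      R V k i (R (insert k V) l j x) + R V k j (R (insert k V) l i x) +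
        (R V l i (R (insert l V) k j x) + R V l j (R (insert l V) k i x)) = 0 := by
    intro V k l hk hl hne i j x
    obtain ⟨v, rfl⟩ := U.mkQ_surjective x
    simp only [R, hR', hcst, ← map_add, hsum2]
    have hre : ∀ A B C E : D, A + B + (C + E) = (A + E) + (B + C) := fun A B C E => by abel
    rcases lt_or_gt_of_ne hne with h | h
    · refine hkill _ _ ?_
      rw [hre, hpair V k l hk hl h i j, hpair V k l hk hl h j i, add_zero]
    · refine hkill _ _ ?_
      rw [add_comm, hre, hpair V l k hl hk h i j, hpair V l k hl hk h j i, add_zero]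
  have hLR : ∀ j V k i x, L j (R V k i x) = R V k i (L j x) := by
    intro j V k i x
    obtain ⟨v, rfl⟩ := U.mkQ_surjective x
    simp only [R, hR', hL']
    rw [mul_assoc, mul_assoc, xv_comm]
  have hGE : ∀ k l, ∑ i, M.g k i * M.E i l = if k = l then 1 else 0 := by
    have h1 : (Matrix.of M.E : Matrix (Fin (c + m)) (Fin (c + m)) D) * Matrix.of M.g = 1 := by
      ext i j; simp [Matrix.mul_apply, Matrix.one_apply, M.inv]
    have h2 := mul_eq_one_comm.1 h1
    intro k l
    have h3 := congrFun (congrFun h2 k) l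
    simpa [Matrix.mul_apply, Matrix.one_apply] using h3
  have hQ : ∀ V l k x, ∑ i, Q V i l (R V k i x) = if k = l then x else 0 := by
    intro V l k x
    obtain ⟨v, rfl⟩ := U.mkQ_surjective x
    simp only [Q, R, hR', hcst, ← map_sum, ← Finset.mul_sum]
    have hs : (∑ i, cst (algebraMap Z D (M.chi k V) * M.g k i *
        (algebraMap Z D (M.chi l V)⁻¹ * M.E i l))) =
        cst (algebraMap Z D (M.chi k V * (M.chi l V)⁻¹) * ∑ i, M.g k i * M.E i l) := by
      simp only [cst]
      rw [← TensorProduct.sum_tmul, Finset.mul_sum]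
      congr 1
      refine Finset.sum_congr rfl fun i _ => ?_
      rw [map_mul, mul_assoc, ← mul_assoc (M.g k i), ← Algebra.commutes _ (M.g k i)]
      simp only [mul_assoc]
    rw [hs, hGE]
    split_ifs with h
    · subst h
      rw [mul_inv_cancel₀ (M.chi_ne k V), map_one, one_mul]
      simp [cst, ← Algebra.TensorProduct.one_def]
    · rw [mul_zero, hzero, map_zero]
  set ρ : Finset (Fin (c + m)) → Fin (c + m) → W →ₗ[D] W :=
    fun V k => ∑ i, (L i).comp (R V k i) with hρdef
  have hρ : ∀ V k v, ρ V k (U.mkQ v) = algebraMap Z D (M.chi k V) • U.mkQ (v * M.G k) := by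
    intro V k v
    simp only [ρ, R, LinearMap.sum_apply, LinearMap.comp_apply, hR', hL', ← map_sum, ← map_smul]
    congr 1
    simp only [cst, xv, G, lin, mul_assoc, tmul_mul, mul_one, one_mul, ← Finset.mul_sum]
    rw [← mul_central, Finset.smul_sum]
    simp only [TensorProduct.smul_tmul', smul_eq_mul]
  let θ : MvPolynomial (Fin (c + m)) K →ₗ[K] W :=
    (U.mkQ.restrictScalars K).comp ((TensorProduct.mk K D (Quo f) 1).comp (mkA f))
  have hθ : ∀ w, θ w = U.mkQ ((1 : D) ⊗ₜ[K] mkA f w) := fun w => rfl
  let Θ : Kos K (c + m) →ₗ[K] (Finset (Fin (c + m)) → W) :=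
    LinearMap.pi fun T => θ.comp (LinearMap.proj T)
  have hΘkos : ∀ v, Θ (kos v) = kosD L (Θ v) := by
    intro v
    funext T
    simp only [Θ, LinearMap.pi_apply, LinearMap.comp_apply, LinearMap.proj_apply, kos_apply,
      kosD_apply, map_sum, map_zsmul]
    refine Finset.sum_congr rfl fun k _ => ?_
    rw [hθ, hθ, hL', xv, tmul_mul, mul_one,
      show mkA f (X k * v (insert k T)) = mkA f (X k) * mkA f (v (insert k T)) from
        map_mul (Ideal.Quotient.mkₐ K (Ideal.span (Set.range f))) _ _, mul_comm (mkA f (X k))]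
  have hΘI : inI I ≤ LinearMap.ker Θ := by
    intro v hv
    rw [LinearMap.mem_ker]
    funext T
    show θ (v T) = 0
    rw [hθ, Submodule.mkQ_apply, Submodule.Quotient.mk_eq_zero]
    exact Submodule.subset_span ⟨v T, hv T trivial, rfl⟩
  let C : Submodule D (Finset (Fin (c + m)) → W) :=
    Submodule.span D (Θ '' (chains (K := K) (n := c + m) (p + 1) d : Set (Kos K (c + m))))
  have hC : ∀ w : Finset (Fin (c + m)) → W, (∀ T, T.card ≠ p + 1 → w T = 0) →
      (∀ T, w T ∈ (pc f d).map U.mkQ) → w ∈ C := by
    intro w h1 h2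
    rw [← Finset.univ_sum_single w]
    refine sum_mem fun T _ => ?_
    by_cases hT : T.card = p + 1
    · obtain ⟨y, hy, hyw⟩ := h2 T
      rw [← hyw]
      clear hyw
      induction hy using Submodule.span_induction with
      | mem y hy =>
        obtain ⟨_, ⟨u, hu, rfl⟩, rfl⟩ := hy
        refine Submodule.subset_span ⟨Pi.single T u, ?_, ?_⟩
        · rw [SetLike.mem_coe, mem_chains]
          intro T'
          by_cases h : T' = T
          · subst h; simp only [Pi.single_eq_same]; exact ⟨hu, fun h => absurd hT h⟩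
          · simp only [Pi.single_eq_of_ne h]
            exact ⟨isHomogeneous_zero _ _ _, fun _ => trivial⟩
        · funext T'
          show θ (Pi.single (M := fun _ => MvPolynomial (Fin (c + m)) K) T u T') = _
          by_cases h : T' = T
          · subst h; simp [hθ]
          · simp [Pi.single_eq_of_ne h]
      | zero => simp
      | add y y' _ _ hy hy' => rw [map_add, Pi.single_add]; exact add_mem hy hy'
      | smul r y _ hy => rw [map_smul, Pi.single_smul]; exact Submodule.smul_mem _ _ hy
    · rw [h1 T hT, Pi.single_zero]; exact zero_mem _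
  have hco : ∀ e ∈ M.std I (d + 1), ∃ φ : W →ₗ[D] D, ∀ e' : Fin (c + m) →₀ ℕ,
      e'.degree = d + 1 → key e' ≤ key e → φ (U.mkQ (M.w e')) = if e' = e then 1 else 0 :=
    fun e he => M.exists_coord I ha he
  choose co hco using hco
  let vec : ↥(((Finset.univ : Finset (Fin (c + m))).powersetCard (p + 1)) ×ˢ M.std I d) →
      (Finset (Fin (c + m)) → W) := fun x =>
    algebraMap Z D (M.eps x.1.1 x.1.2) • Twist.freeD ρ (Pi.single x.1.1 (U.mkQ (M.w x.1.2)))
  let ind : Finset (Fin (c + m)) → (Fin (c + m) →₀ ℕ) :=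
    fun T => ∑ i ∈ T, Finsupp.single i 1
  have hind : ∀ {T : Finset (Fin (c + m))} {k}, k ∈ T → ∀ e : Fin (c + m) →₀ ℕ,
      ind T + e = ind (T.erase k) + (e + Finsupp.single k 1) := fun {T k} hk e => by
    simp only [ind]
    rw [← Finset.sum_erase_add _ _ hk, add_assoc, add_comm (Finsupp.single k 1) e]
  have hrank : (M.mat I p d).rank ≤ finrank D (Submodule.span D (Set.range vec)) := by
    refine rank_le_finrank_span (M.mat I p d) vec
      (fun y => (LinearMap.toSpanSingleton D D (algebraMap Z D (M.eps y.1.1 y.1.2)⁻¹)).comp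
        ((co y.1.2 (Finset.mem_product.1 y.2).2).comp (LinearMap.proj y.1.1)))
      (fun x => key (ind x.1.1 + x.1.2)) (fun y => key (ind y.1.1 + y.1.2)) ?_ ?_
    · intro y x hyx
      obtain ⟨k, hk, hk'⟩ := Finset.exists_ne_zero_of_sum_ne_zero hyx
      obtain ⟨⟨h1, h2⟩, -⟩ := ite_ne_right_iff.1 hk'
      rw [h1, h2, hind hk]
    · rintro ⟨⟨T', e'⟩, hy⟩ ⟨⟨T, e⟩, hx⟩ hw
      obtain ⟨hT', he'⟩ := Finset.mem_product.1 hy
      obtain ⟨hT, he⟩ := Finset.mem_product.1 hx
      simp only [vec, LinearMap.comp_apply, LinearMap.proj_apply, Pi.smul_apply, map_smul,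
        LinearMap.toSpanSingleton_apply, smul_eq_mul, Twist.freeD_apply, map_sum, mat] at hw ⊢
      rw [Finset.mul_sum]
      have hterm : ∀ k ∈ T'ᶜ, algebraMap Z D (M.eps T e) *
          (co e' he' (ρ T' k ((Pi.single T (U.mkQ (M.w e)) :
            Finset (Fin (c + m)) → W) (insert k T'))) *
            algebraMap Z D (M.eps T' e')⁻¹) =
          if k ∈ T ∧ T' = T.erase k then
            algebraMap Z D (M.eps T e * (M.chi k T' * M.tw k e) * (M.eps T' e')⁻¹) *
              (if e + Finsupp.single k 1 = e' then 1 else 0) else 0 := by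
        intro k hk
        rw [Finset.mem_compl] at hk
        by_cases h : insert k T' = T
        · subst h
          have hkT : T' = (insert k T').erase k := (Finset.erase_insert hk).symm
          rw [if_pos ⟨Finset.mem_insert_self k T', hkT⟩, Pi.single_eq_same, hρ, map_smul,
            M.w_mul_G, map_smul, map_smul, hco e' he' _
              (by rw [map_add, Finsupp.degree_single, (mem_red.1 ((M.mem_std I).1 he).1).1]) ?_]
          · simp only [smul_eq_mul, map_mul]
            by_cases h : e + Finsupp.single k 1 = e'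
            · simp only [h, if_true, mul_one, mul_assoc]
            · simp [h]
          · have h1 := hw
            rw [hind (Finset.mem_insert_self k T') e, ← hkT] at h1
            by_contra hlt
            exact absurd h1 (not_le.2 ((key_add_lt_iff _).2 (not_le.1 hlt)))
        · rw [Pi.single_eq_of_ne h, map_zero, map_zero, zero_mul, mul_zero, if_neg]
          rintro ⟨h1, rfl⟩
          exact h (Finset.insert_erase h1)
      rw [Finset.sum_congr rfl hterm]
      refine (Finset.sum_subset (Finset.subset_univ _) fun k _ hk => ?_).trans ?_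
      · rw [Finset.mem_compl, not_not] at hk
        rw [if_neg]
        rintro ⟨-, rfl⟩
        exact Finset.notMem_erase k T hk
      rw [← Finset.sum_subset (Finset.subset_univ T) (fun k _ hk => if_neg fun h => hk h.1)]
      refine Finset.sum_congr rfl fun k hk => ?_
      by_cases h : T' = T.erase k
      · rw [if_pos ⟨hk, h⟩]
        by_cases he2 : e + Finsupp.single k 1 = e'
        · rw [if_pos he2, mul_one, if_pos ⟨h, he2.symm⟩, ← he2]
          have hkT' : k ∉ T' := h ▸ Finset.notMem_erase k T
          have hT2 : T = insert k T' := by rw [h, Finset.insert_erase hk]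
          rw [map_intCast, ← map_intCast (algebraMap Z D)]
          congr 1
          have hne := M.eps_ne T' (e + Finsupp.single k 1)
          rw [M.chi_eq, hT2, mul_inv_eq_iff_eq_mul₀ hne, M.eps_step hkT']
          ring
        · rw [if_neg he2, mul_zero, if_neg (fun h' => he2 h'.2.symm), map_zero]
      · rw [if_neg (fun h' => h h'.2), if_neg (fun h' => h h'.1), map_zero]
  have hchange : ∀ x : ↥(((Finset.univ : Finset (Fin (c + m))).powersetCard (p + 1)) ×ˢ M.std I d),
      Twist.change R (Pi.single x.1.1 (U.mkQ (M.w x.1.2))) ∈ C := by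
    rintro ⟨⟨T, e⟩, hx⟩
    obtain ⟨hT, he⟩ := Finset.mem_product.1 hx
    have hTc : T.card = p + 1 := (Finset.mem_powersetCard.1 hT).2
    refine hC _ (fun T' hT' => ?_) fun T' => ?_
    · refine Twist.word'_eq_zero (p := p + 1) (fun V hV => Pi.single_eq_of_ne ?_ _) _ _
        (by simpa using hT')
      rintro rfl; exact hV hTc
    · refine Twist.word'_mem ?_ (fun V => ?_) _ _
      · rintro V k i _ ⟨y, hy, rfl⟩
        exact ⟨y * cst (algebraMap Z D (M.chi k V) * M.g k i),
          by simpa using mul_mem_pc f hy (tmul_one_mem _), (hR' _ _).symm⟩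
      · by_cases h : V = T
        · subst h
          rw [Pi.single_eq_same]
          refine Submodule.mem_map_of_mem ?_
          rw [← M.span_w ha d]
          exact Submodule.subset_span ⟨e, ((M.mem_std I).1 he).1, rfl⟩
        · rw [Pi.single_eq_of_ne h]; exact zero_mem _
  have hfinC : ((chains (K := K) (n := c + m) (p + 1) d).map (Θ.comp kos)) =
      (((chains (p + 1) d).map ((inI I).mkQ.comp kos)).map ((inI I).liftQ Θ hΘI)) := by
    rw [← Submodule.map_comp, ← LinearMap.comp_assoc, Submodule.liftQ_mkQ]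
  have hspan : C.map (kosD L) =
      Submodule.span D (((chains (p + 1) d).map (Θ.comp kos) : Submodule K _) : Set _) := by
    rw [Submodule.map_span, Submodule.map_coe, Set.image_image]
    refine congrArg (Submodule.span D) (Set.image_congr' fun v => ?_)
    simp [hΘkos]
  have hsub : (Submodule.span D (Set.range vec)).map (Twist.change R) ≤ C.map (kosD L) := by
    rw [Submodule.map_span, Submodule.span_le]
    rintro _ ⟨_, ⟨x, rfl⟩, rfl⟩
    rw [SetLike.mem_coe, map_smul]
    exact Submodule.smul_mem _ _ ⟨_, hchange x, Twist.kosD_change hdup hanti L hLR _⟩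
  have : Module.Finite K ((chains (K := K) (n := c + m) (p + 1) d).map (Θ.comp kos)) :=
    inferInstance
  have : FiniteDimensional D (C.map (kosD L)) := by
    rw [hspan]
    obtain ⟨s, hs⟩ := (Module.Finite.iff_fg.1 this : Submodule.FG _)
    have e : Submodule.span D (((chains (p + 1) d).map (Θ.comp kos) : Submodule K _) : Set _) =
        Submodule.span D (s : Set (Finset (Fin (c + m)) → W)) := by
      rw [← hs]
      exact Submodule.span_span_of_tower K D _
    rw [e]
    exact FiniteDimensional.span_finset D s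
  calc (M.mat I p d).rank ≤ finrank D (Submodule.span D (Set.range vec)) := hrank
    _ = finrank D ((Submodule.span D (Set.range vec)).map (Twist.change R)) :=
      (Submodule.equivMapOfInjective _ (Twist.change_injective hdup hanti Q hQ) _).finrank_eq
    _ ≤ finrank D (C.map (kosD L)) := Submodule.finrank_mono hsub
    _ ≤ finrank K ((chains (p + 1) d).map (Θ.comp kos)) := by
      rw [hspan]; exact finrank_span_le_finrank _
    _ ≤ rkI I (p + 1) d := by
      rw [hfinC]; exact Submodule.finrank_map_le _ _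

include ha in
/-- The Betti numbers are at most those of the monomial ideal of the exponents that are not
standard. -/
theorem betti_le_exps (hf : HomogI (Ideal.span (Set.range f))) (hI : HomogI I)
    (hfI : ∀ i, f i ∈ I) (p j : ℕ) : betti I p j ≤ betti (setIdeal (M.exps I) K) p j := by
  by_cases hpj : p ≤ j
  swap
  · simp [betti, hpj]
  obtain ⟨d, rfl⟩ := Nat.exists_eq_add_of_le hpj
  have hdeg : ∀ d, ∀ e ∈ M.exps I d, e.degree = d := fun d e he => (M.mem_exps.1 he).1
  have hrk : ∀ q e, rkI (setIdeal (M.exps I) K) q e ≤ rkI I q e := by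
    intro q e
    cases q with
    | zero => rw [rkI_zero, rkI_zero]
    | succ q => exact (M.rkI_exps_le ha q e).trans (M.rank_mat_le ha q e)
  rw [betti_eq, betti_eq, finrank_degPart_setIdeal hdeg (fun d e he v => M.exps_closed ha he v),
    M.card_exps ha hf hI hfI]
  have h1 := hrk p d
  have h2 := hrk (p + 1) (d - 1)
  split_ifs <;> omega

end Datum

end Vale.Agent.P200.Betti.Skew
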