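import Vale.Agent.P200.Betti.Free.Slice
import Vale.Agent.P200.Box.LexPlusPowers

/-!
Lex-plus-squares sets, and the count that compares their slices with those of a stable set.
-/

namespace Vale.Agent.P200.Betti.Free

open Finset Module

variable {n c : ℕ}

/-- Exponents at most one in the first `c` variables. -/
def Red (c : ℕ) (a : Fin n → ℕ) : Prop := ∀ i : Fin n, (i : ℕ) < c → a i < 2

/-- A lex-plus-squares set of monomials. -/
def IsLPP (c : ℕ) (L : Set (Fin n → ℕ)) : Prop :=
  IsUp L ∧ HasSq c L ∧ ∀ a ∈ L, ∀ b : Fin n → ℕ, ∑ i, b i = ∑ i, a i → Red c a → Red c b →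
    toLex a < toLex b → b ∈ L

lemma IsUp.mem_of_le {M : Set (Fin n → ℕ)} (hM : IsUp M) {a b : Fin n → ℕ} (ha : a ∈ M)
    (hab : a ≤ b) : b ∈ M := by
  induction hd : ∑ i, (b i - a i) using Nat.strong_induction_on generalizing a with
  | _ m ih =>
    by_cases h : a = b
    · exact h ▸ ha
    obtain ⟨i, hi⟩ := Function.ne_iff.1 h
    have hlt : a i < b i := lt_of_le_of_ne (hab i) hi
    have hle : a + dl i ≤ b := fun j => by
      rcases eq_or_ne j i with rfl | hj
      · simpa [dl] using hlt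
      · simpa [dl, hj] using hab j
    refine ih _ ?_ (hM a ha i) hle rfl
    rw [← hd]
    refine sum_lt_sum (fun j _ => ?_) ⟨i, mem_univ _, ?_⟩
    · rcases eq_or_ne j i with rfl | hj <;> simp [dl, *]
      omega
    · simp [dl]; omega

lemma HasSq.mem_of_not_red {M : Set (Fin n → ℕ)} (hM : HasSq c M) {a : Fin n → ℕ}
    (ha : ¬ Red c a) : a ∈ M := by
  simp only [Red, not_forall, not_lt] at ha
  obtain ⟨i, hi, h2⟩ := ha
  exact hM i hi a h2

/-- Segments of equal degree are nested. -/
lemma IsLPP.subset {L L' : Set (Fin n → ℕ)} (hL : IsLPP c L) (hL' : IsLPP c L') {d : ℕ}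
    (h : num L d ≤ num L' d) {a : Fin n → ℕ} (ha : a ∈ L) (hd : ∑ i, a i = d) : a ∈ L' := by
  classical
  by_contra hn
  have hr : Red c a := by_contra fun h' => hn (hL'.2.1.mem_of_not_red h')
  have hsub : (mons n d).filter (· ∈ L') ⊂ (mons n d).filter (· ∈ L) := by
    refine (ssubset_iff_of_subset fun b hb => ?_).2
      ⟨a, mem_filter.2 ⟨mem_mons.2 hd, ha⟩, fun h => hn (mem_filter.1 h).2⟩
    obtain ⟨hb1, hb2⟩ := mem_filter.1 hb
    refine mem_filter.2 ⟨hb1, ?_⟩
    by_cases hrb : Red c b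
    swap
    · exact hL.2.1.mem_of_not_red hrb
    have hbd : ∑ i, b i = ∑ i, a i := by rw [hd]; exact mem_mons.1 hb1
    rcases lt_trichotomy (toLex a) (toLex b) with h' | h' | h'
    · exact hL.2.2 a ha b hbd hr hrb h'
    · exact toLex.injective h' ▸ ha
    · exact absurd (hL'.2.2 b hb2 a hbd.symm hrb hr h') hn
  have := card_lt_card hsub
  unfold num at h
  omega

/-- The last variable of an lex-plus-squares set is the weakest. -/
lemma IsLPP.stableAt {L : Set (Fin (n + 1) → ℕ)} (hL : IsLPP c L) (hc : c ≤ n) (e : ℕ) :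
    StableAt L e := by
  intro a ha he h1 x hx
  by_cases hr : Red c (sh x a 1)
  swap
  · exact hL.2.1.mem_of_not_red hr
  have hlast : ∀ i : Fin (n + 1), (i : ℕ) < c → i ≠ Fin.last n := fun i hi e => by
    rw [e, Fin.val_last] at hi; omega
  have hra : Red c a := fun i hi => lt_of_le_of_lt (by
    unfold sh; rw [if_neg (hlast i hi)]; split_ifs <;> omega) (hr i hi)
  refine hL.2.2 a ha _ (sum_sh hx h1) hra hr ?_
  refine ⟨x, fun j hj => ?_, ?_⟩
  · show a j = sh x a 1 j
    have h1' : j ≠ Fin.last n := fun e => absurd (e ▸ hj) (not_lt.2 (Fin.le_last x))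
    simp [sh, h1', hj.ne]
  · show a x < sh x a 1 x
    simp [sh, hx]

lemma snoc_lex {a b : Fin n → ℕ} (h : toLex a < toLex b) (s t : ℕ) :
    toLex (Fin.snoc a s : Fin (n + 1) → ℕ) < toLex (Fin.snoc b t : Fin (n + 1) → ℕ) := by
  obtain ⟨i, he, hlt⟩ := Box.exists_first_of_lt h
  refine Box.toLex_lt_of_first i.castSucc (fun j hj => ?_) (by simpa using hlt)
  induction j using Fin.lastCases with
  | last => exact absurd hj (not_lt.2 (Fin.le_last _))
  | cast j => simpa using he j (Fin.castSucc_lt_castSucc_iff.1 hj)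

lemma sum_snoc (b : Fin n → ℕ) (t : ℕ) :
    ∑ i, (Fin.snoc b t : Fin (n + 1) → ℕ) i = (∑ i, b i) + t := by
  simp [Fin.sum_univ_castSucc]

lemma red_snoc {b : Fin n → ℕ} (hc : c ≤ n) (t : ℕ) :
    Red c (Fin.snoc b t : Fin (n + 1) → ℕ) ↔ Red c b := by
  constructor
  · intro h i hi
    simpa using h i.castSucc (by simpa using hi)
  · intro h i hi
    induction i using Fin.lastCases with
    | last => rw [Fin.val_last] at hi; omega
    | cast i => simpa using h i (by simpa using hi)

lemma IsLPP.base {L : Set (Fin (n + 1) → ℕ)} (hL : IsLPP c L) (hc : c ≤ n) :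
    IsLPP c (Free.base L) := by
  refine ⟨isUp_base hL.1, hasSq_base hL.2.1, fun a ha b hb hra hrb hlt => ?_⟩
  exact hL.2.2 _ ha _ (by rw [sum_snoc, sum_snoc, hb]) ((red_snoc hc 0).2 hra)
    ((red_snoc hc 0).2 hrb) (snoc_lex hlt 0 0)

/-- The slices of one degree, as a set in the other variables. -/
def slices (M : Set (Fin (n + 1) → ℕ)) (e : ℕ) : Set (Fin n → ℕ) :=
  {b | e < ∑ i, b i ∨ Fin.snoc b (e - ∑ i, b i) ∈ M}

lemma IsLPP.slices {L : Set (Fin (n + 1) → ℕ)} (hL : IsLPP c L) (hc : c ≤ n) (e : ℕ) :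
    IsLPP c (Free.slices L e) := by
  refine ⟨fun b hb i => ?_, fun i hi b hb => ?_, fun a ha b hb hra hrb hlt => ?_⟩
  · have hs : ∑ j, (b + dl i) j = ∑ j, b j + 1 := by simp [Pi.add_apply, sum_add_distrib, sum_dl]
    by_cases hle : e < ∑ j, b j + 1
    · exact Or.inl (hs ▸ hle)
    refine Or.inr ?_
    have hm := hb.resolve_left (by omega)
    have hst := hL.stableAt hc e _ hm (by rw [sum_snoc]; omega) (by simp; omega) i.castSucc
      (Fin.castSucc_ne_last i)
    rw [hs]
    convert hst using 1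
    funext j
    induction j using Fin.lastCases with
    | last => simp [sh]; omega
    | cast j =>
      rcases eq_or_ne j i with rfl | hj
      · simp [sh, dl, Fin.castSucc_ne_last]
      · simp [sh, dl, hj, Fin.castSucc_ne_last]
  · refine Or.inr (hL.2.1 i.castSucc (by simpa using hi) _ (by simpa using hb))
  · rcases ha with h | h
    · exact Or.inl (hb ▸ h)
    · rw [show ∑ i, a i = ∑ i, b i from hb.symm] at h
      exact Or.inr (hL.2.2 _ h _ (by rw [sum_snoc, sum_snoc, hb]) ((red_snoc hc _).2 hra)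
        ((red_snoc hc _).2 hrb) (snoc_lex hlt _ _))

lemma isUp_slices {M : Set (Fin (n + 1) → ℕ)} {e : ℕ} (hst : StableAt M e) :
    IsUp (slices M e) := fun b hb i => by
  have hs : ∑ j, (b + dl i) j = ∑ j, b j + 1 := by simp [Pi.add_apply, sum_add_distrib, sum_dl]
  by_cases hle : e < ∑ j, b j + 1
  · exact Or.inl (hs ▸ hle)
  refine Or.inr ?_
  have h := hst _ (hb.resolve_left (by omega)) (by rw [sum_snoc]; omega) (by simp; omega)
    i.castSucc (Fin.castSucc_ne_last i)
  rw [hs]
  convert h using 1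
  funext j
  induction j using Fin.lastCases with
  | last => simp [sh]; omega
  | cast j =>
    rcases eq_or_ne j i with rfl | hj
    · simp [sh, dl, Fin.castSucc_ne_last]
    · simp [sh, dl, hj, Fin.castSucc_ne_last]

lemma hasSq_slices {M : Set (Fin (n + 1) → ℕ)} (hM : HasSq c M) (e : ℕ) :
    HasSq c (slices M e) := fun i hi b hb =>
  Or.inr (hM i.castSucc (by simpa using hi) _ (by simpa using hb))

open Classical in
lemma sum_num_slices (M : Set (Fin (n + 1) → ℕ)) (e : ℕ) :
    ∑ k ∈ range (e + 1), num (slices M e) k = num M e := by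
  unfold num
  have hmaps : ((mons (n + 1) e).filter (· ∈ M) : Set (Fin (n + 1) → ℕ)).MapsTo
      (fun a => ∑ i : Fin n, a i.castSucc) (range (e + 1)) := fun a ha => by
    have := mem_mons.1 (mem_filter.1 (mem_coe.1 ha)).1
    rw [sum_eq_init_add] at this
    simp only [coe_range, Set.mem_Iio]
    omega
  rw [card_eq_sum_card_fiberwise hmaps]
  refine sum_congr rfl fun k hk => ?_
  have hk' := mem_range.1 hk
  refine card_nbij' (fun b => Fin.snoc b (e - k)) (fun a i => a (Fin.castSucc i)) ?_ ?_ ?_ ?_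
  · intro b hb
    obtain ⟨hb1, hb2⟩ := Finset.mem_filter.1 (Finset.mem_coe.1 hb)
    rw [mem_mons] at hb1
    simp only [slices, Set.mem_ofPred_eq] at hb2
    rw [hb1] at hb2
    simp only [coe_filter, Set.mem_ofPred_eq, mem_filter, mem_mons]
    refine ⟨⟨by rw [sum_snoc, hb1]; omega, hb2.resolve_left (by omega)⟩, by simpa using hb1⟩
  · intro a ha
    simp only [coe_filter, Set.mem_ofPred_eq, mem_filter, mem_mons] at ha
    refine Finset.mem_coe.2 (Finset.mem_filter.2 ?_)
    rw [mem_mons]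
    simp only [slices, Set.mem_ofPred_eq]
    obtain ⟨⟨h1, h2⟩, h3⟩ := ha
    refine ⟨h3, Or.inr ?_⟩
    rw [sum_eq_init_add, h3] at h1
    convert h2 using 1
    funext j
    induction j using Fin.lastCases with
    | last => simp [h3]; omega
    | cast j => simp
  · intro b _
    funext i
    simp
  · intro a ha
    simp only [coe_filter, Set.mem_ofPred_eq, mem_filter, mem_mons] at ha
    obtain ⟨⟨h1, -⟩, h3⟩ := ha
    rw [sum_eq_init_add, h3] at h1
    funext j
    induction j using Fin.lastCases with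
    | last => simp; omega
    | cast j => simp

lemma num_slices_self (M : Set (Fin (n + 1) → ℕ)) (e : ℕ) :
    num (slices M e) e = num (base M) e := by
  classical
  unfold num
  congr 1
  refine filter_congr fun b hb => ?_
  have hb' := mem_mons.1 hb
  show (e < ∑ i, b i ∨ Fin.snoc b (e - ∑ i, b i) ∈ M) ↔ Fin.snoc b 0 ∈ M
  rw [hb', Nat.sub_self]
  exact or_iff_right (lt_irrefl e)

/-- The first part of `X` of degree `k`. -/
lemma exists_prefix (X : Fin n → ℕ) {k : ℕ} (hk : k ≤ ∑ i, X i) :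
    ∃ P : Fin n → ℕ, P ≤ X ∧ ∑ i, P i = k ∧ ∀ i, P i < X i → ∀ j, i < j → P j = 0 := by
  induction hd : ∑ i, X i - k generalizing k with
  | zero => exact ⟨X, le_rfl, by omega, fun i hi => absurd hi (lt_irrefl _)⟩
  | succ m ih =>
    obtain ⟨P, hP1, hP2, hP3⟩ := ih (k := k + 1) (by omega) (by omega)
    obtain ⟨p, hp, hlast⟩ := Box.exists_last (y := P) (by omega)
    refine ⟨P - dl p, fun i => le_trans (Nat.sub_le _ _) (hP1 i), ?_, fun i hi j hij => ?_⟩
    · have := sum_sub_dl (a := P) (k := p) hp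
      omega
    · rcases eq_or_ne i p with rfl | hne
      · simp [hlast j hij]
      · have hi' : P i < X i := by simpa [dl, hne] using hi
        simp [hP3 i hi' j hij]

lemma prefix_lt {X P u : Fin n → ℕ} (hP : P ≤ X)
    (hP3 : ∀ i, P i < X i → ∀ j, i < j → P j = 0) (hs : ∑ i, u i = ∑ i, P i)
    (h : toLex P < toLex u) : toLex X < toLex u := by
  obtain ⟨i, he, hlt⟩ := Box.exists_first_of_lt h
  have heq : ∀ j, j ≤ i → P j = X j := fun j hj => by
    by_contra hne
    have hz := hP3 j (lt_of_le_of_ne (hP j) hne)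
    have hlt' : ∑ l, P l < ∑ l, u l := by
      refine sum_lt_sum (fun l _ => ?_) ⟨i, mem_univ _, hlt⟩
      rcases lt_trichotomy l i with h' | rfl | h'
      · exact (he l h').le
      · exact hlt.le
      · rw [hz l (lt_of_le_of_lt hj h')]; exact Nat.zero_le _
    omega
  exact Box.toLex_lt_of_first i (fun j hj => (heq j hj.le) ▸ he j hj) (heq i le_rfl ▸ hlt)

/-- A lex-plus-squares set with a given Hilbert function. -/
theorem exists_isLPP (F : Type*) [Field F] (hc : c ≤ n) {M : Set (Fin n → ℕ)} (hM : IsUp M)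
    (hsq : HasSq c M) : ∃ L : Set (Fin n → ℕ), IsLPP c L ∧ ∀ d, num L d = num M d := by
  classical
  obtain ⟨T, hT⟩ := Box.exists_lpp F hc (a := fun _ : Fin c => 2) (fun _ _ _ => le_rfl)
    {e : Fin n →₀ ℕ | ⇑e ∈ M} (fun i => hsq (Fin.castLE hc i) (by simp) _ (by simp))
  set fn : (Fin n → ℕ) → (Fin n →₀ ℕ) := fun a => Finsupp.equivFunOnFinite.symm a
  have hfd : ∀ a, (fn a).degree = ∑ i, a i := fun a => by simp [fn, Finsupp.degree_eq_sum]
  refine ⟨{a | fn a ∈ T (∑ i, a i)}, ⟨fun a ha i => ?_, fun i hi a ha => ?_,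
    fun a ha b hb hra hrb hlt => ?_⟩, fun d => ?_⟩
  · show fn (a + dl i) ∈ T (∑ j, (a + dl i) j)
    have h := (hT _).2.2.2.2 _ ha i
    have e1 : fn (a + dl i) = fn a + Finsupp.single i 1 := by
      ext j; simp [fn, dl, Finsupp.single_apply, Pi.single_apply, eq_comm]
    rw [e1, show ∑ j, (a + dl i) j = ∑ j, a j + 1 by simp [Pi.add_apply, sum_add_distrib, sum_dl]]
    exact h
  · exact (hT _).2.1 _ (hfd a) ⟨⟨i, hi⟩, by simpa [fn] using ha⟩
  · show fn b ∈ T (∑ i, b i)
    rw [hb]
    refine (hT _).2.2.1 _ ha _ (by rw [hfd, hb])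
      (fun i => by simpa [fn] using hra (Fin.castLE hc i) (by simp))
      (fun i => by simpa [fn] using hrb (Fin.castLE hc i) (by simp)) ?_
    obtain ⟨i, he, hlt'⟩ := Box.exists_first_of_lt hlt
    exact Finsupp.Lex.lt_iff.2 ⟨i, fun j hj => by simpa [fn] using he j hj, by simpa [fn] using hlt'⟩
  · have h4 := (hT d).2.2.2.1
    rw [finrank_monomialIdeal {e : Fin n →₀ ℕ | ⇑e ∈ M}
      (fun e he e' hle => hM.mem_of_le he hle)] at h4
    have hl : num {a : Fin n → ℕ | fn a ∈ T (∑ i, a i)} d = (T d).card := by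
      refine card_nbij' fn (fun e => ⇑e) ?_ ?_ ?_ ?_
      · intro a ha
        simp only [coe_filter, Set.mem_ofPred_eq, mem_mons, mem_coe] at ha ⊢
        exact ha.1 ▸ ha.2
      · intro e he
        simp only [coe_filter, Set.mem_ofPred_eq, mem_mons, mem_coe] at he ⊢
        have h0 : ∑ i, e i = d := by rw [← (hT d).1 e he, Finsupp.degree_eq_sum]
        exact ⟨h0, by rw [h0, show fn ⇑e = e from Finsupp.ext fun i => rfl]; exact he⟩
      · intro a _; rfl
      · intro e _; exact Finsupp.ext fun i => rfl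
    rw [hl, h4, num, ← Nat.card_eq_finsetCard]
    exact Nat.card_congr
      { toFun := fun e => ⟨⇑e.1, mem_filter.2 ⟨mem_mons.2 (by
          rw [← Finsupp.degree_eq_sum]; exact e.2.1), e.2.2⟩⟩
        invFun := fun a => ⟨fn a.1, (hfd _).trans (mem_mons.1 (mem_filter.1 a.2).1),
          (mem_filter.1 a.2).2⟩
        left_inv := fun e => Subtype.ext (Finsupp.ext fun i => rfl)
        right_inv := fun a => Subtype.ext rfl }

/-- The lex-plus-squares set has the fewest members free of the last variable. -/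
theorem num_base_le (F : Type*) [Field F] (hc : c ≤ n) {M L : Set (Fin (n + 1) → ℕ)}
    (hsq : HasSq c M) {e : ℕ} (hst : StableAt M e) (hL : IsLPP c L) (hnum : num L e = num M e) :
    num (base L) e ≤ num (base M) e := by
  classical
  obtain ⟨A, hA, hAnum⟩ := exists_isLPP F hc (isUp_slices hst) (hasSq_slices hsq e)
  rw [← num_slices_self, ← num_slices_self, ← hAnum]
  by_contra hlt
  rw [not_le] at hlt
  have hB := hL.slices hc e
  have hcmp : ∀ k ≤ e, num A k ≤ num (Free.slices L e) k := by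
    intro k hk
    by_contra hbad
    rw [not_le] at hbad
    obtain ⟨u, hu, hu'⟩ := exists_mem_notMem_of_card_lt_card (s := (mons n k).filter
      (· ∈ Free.slices L e)) (t := (mons n k).filter (· ∈ A)) hbad
    obtain ⟨hu1, huA⟩ := mem_filter.1 hu
    have huk := mem_mons.1 hu1
    have huB : u ∉ Free.slices L e := fun h => hu' (mem_filter.2 ⟨hu1, h⟩)
    have hru : Red c u := by_contra fun h => huB (hB.2.1.mem_of_not_red h)
    refine absurd (card_le_card (s := (mons n e).filter (· ∈ Free.slices L e))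
      (t := (mons n e).filter (· ∈ A)) fun X hX => ?_) (not_le.2 hlt)
    obtain ⟨hX1, hX2⟩ := mem_filter.1 hX
    refine mem_filter.2 ⟨hX1, ?_⟩
    have hXe := mem_mons.1 hX1
    by_cases hrX : Red c X
    swap
    · exact hA.2.1.mem_of_not_red hrX
    obtain ⟨P, hP1, hP2, hP3⟩ := exists_prefix X (k := k) (by omega)
    have hrP : Red c P := fun i hi => lt_of_le_of_lt (hP1 i) (hrX i hi)
    refine hA.1.mem_of_le ?_ hP1
    rcases lt_trichotomy (toLex u) (toLex P) with h | h | h
    · exact hA.2.2 u huA P (hP2.trans huk.symm) hru hrP h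
    · exact toLex.injective h ▸ huA
    · exfalso
      apply huB
      have hXL : Fin.snoc X 0 ∈ L := by
        have := hX2.resolve_left (by omega)
        rwa [hXe, Nat.sub_self] at this
      refine Or.inr (hL.2.2 _ hXL _ ?_ ((red_snoc hc _).2 hrX) ((red_snoc hc _).2 hru)
        (snoc_lex (prefix_lt hP1 hP3 (huk.trans hP2.symm) h) _ _))
      rw [sum_snoc, sum_snoc, huk, hXe]
      omega
  have h1 : ∑ k ∈ range (e + 1), num A k < ∑ k ∈ range (e + 1), num (Free.slices L e) k :=
    sum_lt_sum (fun k hk => hcmp k (Nat.lt_succ_iff.1 (mem_range.1 hk)))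
      ⟨e, mem_range.2 e.lt_succ_self, hlt⟩
  rw [sum_congr rfl (fun k _ => hAnum k), sum_num_slices, sum_num_slices, hnum] at h1
  exact lt_irrefl _ h1

end Vale.Agent.P200.Betti.Free
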