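import Vale.Agent.P200.Betti.Free.Base

/-!
Among monomial ideals containing the squares of the first `c` variables the lex-plus-squares one
has the greatest Betti numbers, over every field.
-/

namespace Vale.Agent.P200.Betti

open MvPolynomial Module
open Free (mem_degSets setOf' num)

/-- The bound for every number of free variables. -/
theorem Free.bound (K : Type*) [Field K] {n c : ℕ} (hcn : c ≤ n) : Free.Bound K n c := by
  induction n, hcn using Nat.le_induction with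
  | base => exact Free.bound_base K
  | succ m hm ih => exact ih.succ hm

/-- The monomial step of the lex-plus-powers theorem for squares. -/
theorem exists_lpp_monomial (K : Type*) [Field K] {n c : ℕ} (hcn : c ≤ n)
    {T : ℕ → Finset (Fin n →₀ ℕ)} (hdeg : ∀ d, ∀ e ∈ T d, e.degree = d)
    (hsq : ∀ d, ∀ e : Fin n →₀ ℕ, e.degree = d → (∃ i : Fin c, 2 ≤ e (Fin.castLE hcn i)) → e ∈ T d)
    (hcl : ∀ d, ∀ e ∈ T d, ∀ v, e + Finsupp.single v 1 ∈ T (d + 1)) :
    ∃ T2 : ℕ → Finset (Fin n →₀ ℕ), (∀ d,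
      (∀ e ∈ T2 d, e.degree = d) ∧
      (∀ e : Fin n →₀ ℕ, e.degree = d → (∃ i : Fin c, 2 ≤ e (Fin.castLE hcn i)) → e ∈ T2 d) ∧
      (∀ e ∈ T2 d, ∀ e' : Fin n →₀ ℕ, e'.degree = d →
        (∀ i : Fin c, e (Fin.castLE hcn i) < 2) → (∀ i : Fin c, e' (Fin.castLE hcn i) < 2) →
        toLex e < toLex e' → e' ∈ T2 d) ∧
      (T2 d).card = (T d).card ∧
      ∀ e ∈ T2 d, ∀ v : Fin n, e + Finsupp.single v 1 ∈ T2 (d + 1)) ∧
    ∀ p j, betti (setIdeal T K) p j ≤ betti (setIdeal T2 K) p j := by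
  have hup : Free.IsUp (setOf' T) := Free.isUp_setOf' T hcl
  have hsq' : Free.HasSq c (setOf' T) := fun i hi a ha =>
    hsq _ (Free.fn a) (Free.degree_fn a) ⟨⟨i, hi⟩, by simpa using ha⟩
  obtain ⟨L, hL, hnum⟩ := Free.exists_isLPP K hcn hup hsq'
  have hcl2 := fun d => Free.degSets_cl (M := L) hL.1 d
  refine ⟨Free.degSets L, fun d => ⟨Free.degSets_deg d, fun e he ⟨i, hi⟩ => ?_,
    fun e he e' he' hr hr' hlt => ?_, ?_, hcl2 d⟩, fun p j => ?_⟩
  · exact mem_degSets.2 ⟨he, hL.2.1 _ (by simp) _ hi⟩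
  · obtain ⟨h1, h2⟩ := mem_degSets.1 he
    refine mem_degSets.2 ⟨he', hL.2.2 _ h2 _ ?_ (fun i hi => hr ⟨i, hi⟩)
      (fun i hi => hr' ⟨i, hi⟩) ?_⟩
    · rw [← Finsupp.degree_eq_sum, ← Finsupp.degree_eq_sum, he', h1]
    · obtain ⟨i, hi, hlt'⟩ := Finsupp.Lex.lt_iff.1 hlt
      exact Box.toLex_lt_of_first i (fun k hk => hi k hk) hlt'
  · rw [Free.card_degSets, hnum, Free.num_setOf' T hdeg]
  · by_cases hpj : p ≤ j
    swap
    · simp [betti, hpj]
    obtain ⟨d, rfl⟩ := Nat.exists_eq_add_of_le hpj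
    rw [Free.betti_eq_hM hdeg hcl, Free.betti_eq_hM Free.degSets_deg hcl2, Free.setOf'_degSets]
    exact (Free.bound K hcn).1 p d _ L hup hsq' hL hnum

end Vale.Agent.P200.Betti
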