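import Vale.Agent.P200.Betti.Free.Lead

/-!
One move towards stability in the last variable does not lower the Betti numbers.
-/

namespace Vale.Agent.P200.Betti.Free

open Finset Module

variable {n : ℕ} {F : Type*} [Field F]

lemma sg_last (T : Finset (Fin (n + 1))) : sg (Fin.last n) T = 1 := by
  rw [sg, filter_false_of_mem fun i _ => not_lt.2 (Fin.le_last i), card_empty, pow_zero]

lemma sg_self_erase (k : Fin n) (T : Finset (Fin n)) : sg k (T.erase k) = sg k T := by
  unfold sg
  rw [filter_erase, erase_eq_of_notMem fun h => lt_irrefl k (mem_filter.1 h).2]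

lemma cast_sg_sq (k : Fin n) (T : Finset (Fin n)) : (sg k T : F) * (sg k T : F) = 1 := by
  rcases neg_one_pow_eq_or ℤ (T.filter (k < ·)).card with h | h <;> simp [sg, h]

/-- The exponents after moving `k` units from the last variable to `x`. -/
def sh (x : Fin (n + 1)) (a : Fin (n + 1) → ℕ) (k : ℕ) : Fin (n + 1) → ℕ := fun i =>
  if i = Fin.last n then a i - k else if i = x then a i + k else a i

lemma sh_zero (x : Fin (n + 1)) (a : Fin (n + 1) → ℕ) : sh x a 0 = a := by
  funext i; unfold sh; split_ifs <;> simp

lemma sh_sh (x : Fin (n + 1)) (a : Fin (n + 1) → ℕ) (k l : ℕ) :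
    sh x (sh x a k) l = sh x a (k + l) := by
  funext i; unfold sh; split_ifs <;> omega

/-- All moves from the last variable to `x` stay in `M`. -/
def Conn (M : Set (Fin (n + 1) → ℕ)) (x : Fin (n + 1)) (a : Fin (n + 1) → ℕ) : Prop :=
  ∀ k ≤ a (Fin.last n), sh x a k ∈ M

/-- The monomials after one move. -/
def moved (M : Set (Fin (n + 1) → ℕ)) (x : Fin (n + 1)) : Set (Fin (n + 1) → ℕ) :=
  {a | Conn M x a ∨ (1 ≤ a x ∧ a - dl x + dl (Fin.last n) ∈ M)}

variable {M : Set (Fin (n + 1) → ℕ)} {x : Fin (n + 1)}

lemma Conn.mem {a : Fin (n + 1) → ℕ} (h : Conn M x a) : a ∈ M := sh_zero x a ▸ h 0 (Nat.zero_le _)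

lemma conn_of_zero {a : Fin (n + 1) → ℕ} (ha : a ∈ M) (h0 : a (Fin.last n) = 0) : Conn M x a :=
  fun k hk => by rw [show k = 0 by omega, sh_zero]; exact ha

lemma Conn.sh {a : Fin (n + 1) → ℕ} (h : Conn M x a) {j : ℕ} (hj : j ≤ a (Fin.last n)) :
    Conn M x (Free.sh x a j) := fun k hk => by
  rw [sh_sh]
  refine h _ ?_
  simp [Free.sh] at hk
  omega

lemma conn_of_step {a : Fin (n + 1) → ℕ} (ha : a ∈ M) (h : Conn M x (Free.sh x a 1)) :
    Conn M x a := fun k hk => by
  rcases k with _ | k
  · rwa [sh_zero]
  · rw [show k + 1 = 1 + k by omega, ← sh_sh]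
    exact h k (by simp [Free.sh]; omega)

variable (hx : x ≠ Fin.last n)

include hx in
lemma sh_one_of_pred {a : Fin (n + 1) → ℕ} (h : 1 ≤ a x) :
    sh x (a - dl x + dl (Fin.last n)) 1 = a := by
  funext i
  rcases eq_or_ne i (Fin.last n) with rfl | hy
  · simp [sh, dl, hx.symm]
  rcases eq_or_ne i x with rfl | hi
  · simp [sh, dl, hy]; omega
  · simp [sh, dl, hy, hi]

include hx in
lemma pred_sh_one {a : Fin (n + 1) → ℕ} (h : 1 ≤ a (Fin.last n)) :
    1 ≤ sh x a 1 x ∧ sh x a 1 - dl x + dl (Fin.last n) = a := by
  refine ⟨by simp [sh, hx], ?_⟩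
  funext i
  rcases eq_or_ne i (Fin.last n) with rfl | hy
  · simp [sh, dl, hx.symm]; omega
  rcases eq_or_ne i x with rfl | hi
  · simp [sh, dl, hy]
  · simp [sh, dl, hy, hi]

include hx in
lemma sum_sh {a : Fin (n + 1) → ℕ} {k : ℕ} (hk : k ≤ a (Fin.last n)) :
    ∑ i, sh x a k i = ∑ i, a i := by
  have h1 := add_sum_erase univ (sh x a k) (mem_univ (Fin.last n))
  have h2 := add_sum_erase univ a (mem_univ (Fin.last n))
  have hxm : x ∈ univ.erase (Fin.last n) := mem_erase.2 ⟨hx, mem_univ _⟩
  have h3 := add_sum_erase _ (sh x a k) hxm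
  have h4 := add_sum_erase _ a hxm
  have h5 : ∑ i ∈ (univ.erase (Fin.last n)).erase x, sh x a k i =
      ∑ i ∈ (univ.erase (Fin.last n)).erase x, a i := by
    refine sum_congr rfl fun i hi => ?_
    simp only [mem_erase] at hi
    simp [sh, hi.1, hi.2.1]
  have e1 : sh x a k (Fin.last n) = a (Fin.last n) - k := by simp [sh]
  have e2 : sh x a k x = a x + k := by simp [sh, hx]
  omega

include hx in
lemma isUp_moved (hM : IsUp M) : IsUp (moved M x) := by
  intro a ha i
  rcases ha with h | ⟨h1, h2⟩
  · rcases eq_or_ne i (Fin.last n) with rfl | hi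
    · left
      intro k hk
      simp [dl] at hk
      rcases Nat.lt_or_ge (a (Fin.last n)) k with hlt | hle
      · have e : k = a (Fin.last n) + 1 := by omega
        have := hM _ (h _ le_rfl) x
        convert this using 1
        subst e
        funext j
        rcases eq_or_ne j (Fin.last n) with rfl | hj
        · simp [sh, dl, hx.symm]
        rcases eq_or_ne j x with rfl | hjx
        · simp [sh, dl, hj]; omega
        · simp [sh, dl, hj, hjx]
      · have := hM _ (h k hle) (Fin.last n)
        convert this using 1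
        funext j
        rcases eq_or_ne j (Fin.last n) with rfl | hj
        · simp [sh, dl]; omega
        · simp [sh, dl, hj]
    · left
      intro k hk
      simp [dl, hi.symm] at hk
      have := hM _ (h k hk) i
      convert this using 1
      funext j
      rcases eq_or_ne j (Fin.last n) with rfl | hj
      · simp [sh, dl, hi.symm]
      rcases eq_or_ne j x with rfl | hjx
      · simp [sh, dl, hj]; omega
      · simp [sh, dl, hj, hjx]
  · right
    refine ⟨by simp [dl]; omega, ?_⟩
    have := hM _ h2 i
    convert this using 1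
    funext j
    rcases eq_or_ne j x with rfl | hj
    · simp [dl, hx]; omega
    · simp [dl, hj]; omega

lemma hasSq_moved {c : ℕ} (hc : c ≤ n) (hM : HasSq c M) : HasSq c (moved M x) := by
  intro i hi a ha
  refine Or.inl fun k _ => hM i hi _ ?_
  have : i ≠ Fin.last n := fun e => by rw [e, Fin.val_last] at hi; omega
  unfold sh
  rw [if_neg this]
  split_ifs <;> omega

open Classical in
include hx in
lemma num_moved (d : ℕ) : num (moved M x) d = num M d := by
  symm
  refine card_bij (fun a _ => if Conn M x a then a else sh x a 1) ?_ ?_ ?_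
  · intro a ha
    obtain ⟨ha1, ha2⟩ := mem_filter.1 ha
    split_ifs with h
    · exact mem_filter.2 ⟨ha1, Or.inl h⟩
    · have h1 : 1 ≤ a (Fin.last n) := Nat.one_le_iff_ne_zero.2 fun h0 => h (conn_of_zero ha2 h0)
      obtain ⟨e1, e2⟩ := pred_sh_one hx h1
      refine mem_filter.2 ⟨mem_mons.2 ?_, Or.inr ⟨e1, e2.symm ▸ ha2⟩⟩
      rw [sum_sh hx h1, mem_mons.1 ha1]
  · intro a ha b hb h
    have ha2 := (mem_filter.1 ha).2
    have hb2 := (mem_filter.1 hb).2
    split_ifs at h with h1 h2 h2
    · exact h
    · exact absurd (conn_of_step hb2 (h ▸ h1)) h2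
    · exact absurd (conn_of_step ha2 (h.symm ▸ h2)) h1
    · have p1 := pred_sh_one hx (Nat.one_le_iff_ne_zero.2 fun h0 => h1 (conn_of_zero ha2 h0))
      have p2 := pred_sh_one hx (Nat.one_le_iff_ne_zero.2 fun h0 => h2 (conn_of_zero hb2 h0))
      rw [← p1.2, h, p2.2]
  · intro a ha
    obtain ⟨ha1, ha2⟩ := mem_filter.1 ha
    by_cases h : Conn M x a
    · exact ⟨a, mem_filter.2 ⟨ha1, h.mem⟩, if_pos h⟩
    · obtain ⟨h1, h2⟩ := ha2.resolve_left h
      have hs := sh_one_of_pred hx h1
      have hd : 1 ≤ (a - dl x + dl (Fin.last n)) (Fin.last n) := by simp [dl]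
      refine ⟨a - dl x + dl (Fin.last n), mem_filter.2 ⟨mem_mons.2 ?_, h2⟩, ?_⟩
      · have := sum_sh hx (a := a - dl x + dl (Fin.last n)) (k := 1) hd
        rw [hs, mem_mons.1 ha1] at this
        exact this.symm
      · have hn : ¬ Conn M x (a - dl x + dl (Fin.last n)) := fun hc => h (hs ▸ hc.sh hd)
        rw [if_neg hn, hs]

variable (F)

/-- The part of the move that lowers the last exponent. -/
noncomputable def low (x : Fin (n + 1)) :
    (Pt (n + 1) → F) →ₗ[F] (Pt (n + 1) → F) where
  toFun f := fun z => (if 1 ≤ z.2 x then f (z.1, z.2 - dl x + dl (Fin.last n)) else 0) +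
    if z.2 (Fin.last n) = 0 ∧ x ∈ z.1 ∧ Fin.last n ∉ z.1 then
      (sg x z.1 : F) * f (insert (Fin.last n) (z.1.erase x), z.2) else 0
  map_add' f g := by
    funext y
    simp only [Pi.add_apply]
    split_ifs <;> ring
  map_smul' c f := by
    funext y
    simp only [Pi.smul_apply, smul_eq_mul, RingHom.id_apply]
    split_ifs <;> ring

/-- The move as a map of the complex. -/
noncomputable def phi (x : Fin (n + 1)) : (Pt (n + 1) → F) →ₗ[F] (Pt (n + 1) → F) :=
  LinearMap.id + low F x

/-- The weight kept by the boundary. -/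
def wt (z : Pt (n + 1)) : ℕ := z.2 (Fin.last n) + if Fin.last n ∈ z.1 then 1 else 0

variable {F}

lemma low_apply (f : Pt (n + 1) → F) (z : Pt (n + 1)) :
    low F x f z = (if 1 ≤ z.2 x then f (z.1, z.2 - dl x + dl (Fin.last n)) else 0) +
      if z.2 (Fin.last n) = 0 ∧ x ∈ z.1 ∧ Fin.last n ∉ z.1 then
        (sg x z.1 : F) * f (insert (Fin.last n) (z.1.erase x), z.2) else 0 := rfl

lemma phi_apply (f : Pt (n + 1) → F) (z : Pt (n + 1)) :
    phi F x f z = f z + low F x f z := rfl

lemma sg_rot {k : Fin (n + 1)} {T : Finset (Fin (n + 1))} (hkx : k ≠ x) (hky : k ≠ Fin.last n)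
    (hk : k ∉ T) (hxT : x ∈ T) (hy : Fin.last n ∉ T) :
    sg k T * sg x (insert k T) = sg x T * sg k (insert (Fin.last n) (T.erase x)) := by
  have h1 : sg k (insert (Fin.last n) (T.erase x)) = sg k (T.erase x) * -1 := by
    unfold sg
    rw [filter_insert, if_pos (lt_of_le_of_ne (Fin.le_last k) hky), card_insert_of_notMem
      (fun h => hy (mem_of_mem_erase (mem_filter.1 h).1)), pow_succ]
  rw [h1]
  unfold sg
  rw [filter_insert, filter_erase]
  rcases lt_or_gt_of_ne hkx with h | h
  · have hm : x ∈ T.filter (k < ·) := mem_filter.2 ⟨hxT, h⟩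
    rw [if_neg (not_lt.2 h.le), ← card_erase_add_one hm, pow_succ]
    ring
  · have hm : k ∉ T.filter (x < ·) := fun h' => hk (mem_filter.1 h').1
    rw [if_pos h, card_insert_of_notMem hm,
      erase_eq_of_notMem (fun h' => not_lt.2 h.le (mem_filter.1 h').2), pow_succ]
    ring

include hx in
theorem dd_low (f : Pt (n + 1) → F) : dd F (low F x f) = low F x (dd F f) := by
  classical
  funext z
  obtain ⟨T, a⟩ := z
  rw [dd_apply, low_apply, dd_apply, dd_apply]
  simp only [low_apply]
  set y := Fin.last n with hy
  set X : F := if a y = 0 ∧ y ∉ T ∧ 1 ≤ a x then f (insert y T, a - dl x) else 0 with hX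
  -- the two halves differ by `X`
  have h1 : ∑ k ∈ Tᶜ, (if 1 ≤ a k then (sg k T : F) *
        (if 1 ≤ (a - dl k) x then f (insert k T, a - dl k - dl x + dl y) else 0) else 0) + X =
      if 1 ≤ a x then ∑ k ∈ Tᶜ, (if 1 ≤ (a - dl x + dl y) k then
        (sg k T : F) * f (insert k T, a - dl x + dl y - dl k) else 0) else 0 := by
    have hterm : ∀ k ∈ Tᶜ, k ≠ y →
        (if 1 ≤ a k then (sg k T : F) *
          (if 1 ≤ (a - dl k) x then f (insert k T, a - dl k - dl x + dl y) else 0) else 0) =
        if 1 ≤ a x then (if 1 ≤ (a - dl x + dl y) k then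
          (sg k T : F) * f (insert k T, a - dl x + dl y - dl k) else 0) else 0 := by
      intro k _ hky
      by_cases hb : 1 ≤ a k ∧ 1 ≤ (a - dl k) x
      · have e : a - dl k - dl x + dl y = a - dl x + dl y - dl k := by
          funext i
          rcases eq_or_ne i y with rfl | hiy
          · simp [dl, hky.symm, hx.symm]
          · simp [dl, hiy]; omega
        have hb1 : 1 ≤ a x := by
          have := hb.2
          simp at this
          omega
        have hb2 : 1 ≤ (a - dl x + dl y) k := by
          rcases eq_or_ne k x with rfl | hkx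
          · have := hb.2
            simp [dl, hky] at this ⊢
            omega
          · simp [dl, hkx, hky]
            exact hb.1
        rw [if_pos hb.1, if_pos hb.2, if_pos hb1, if_pos hb2, e]
      · have hb' : ¬(1 ≤ a x ∧ 1 ≤ (a - dl x + dl y) k) := by
          rintro ⟨hb1, hb2⟩
          apply hb
          rcases eq_or_ne k x with rfl | hkx
          · simp [dl, hky] at hb2 ⊢
            omega
          · simp [dl, hkx, hky, hkx.symm] at hb2 ⊢
            omega
        have el : ∀ (P Q : Prop) [Decidable P] [Decidable Q] (u v : F), ¬(P ∧ Q) →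
            (if P then u * (if Q then v else 0) else 0) = 0 := by
          intro P Q _ _ u v h
          split_ifs with q1 q2
          · exact absurd ⟨q1, q2⟩ h
          · exact mul_zero _
          · rfl
        rw [el _ _ _ _ hb]
        split_ifs with q1 q2
        · exact absurd ⟨q1, q2⟩ hb'
        · rfl
        · rfl
    by_cases hyT : y ∈ T
    · rw [hX, if_neg (fun h => h.2.1 hyT), add_zero]
      split_ifs with hax
      · refine sum_congr rfl fun k hk => ?_
        rw [hterm k hk (fun e => mem_compl.1 hk (e ▸ hyT)), if_pos hax]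
      · exact sum_eq_zero fun k hk => by
          rw [hterm k hk (fun e => mem_compl.1 hk (e ▸ hyT)), if_neg hax]
    · have hym : y ∈ Tᶜ := mem_compl.2 hyT
      rw [← add_sum_erase _ _ hym, sum_congr rfl (fun k hk => hterm k (mem_of_mem_erase hk)
        (ne_of_mem_erase hk))]
      by_cases hax : 1 ≤ a x
      swap
      · simp [hX, hax, dl, hx]
      simp only [if_pos hax]
      rw [← add_sum_erase _ _ hym]
      have e1 : a - dl x + dl y - dl y = a - dl x := add_sub_dl
      have e2 : 1 ≤ (a - dl x + dl y) y := by simp [dl]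
      rw [if_pos e2, e1, hy, sg_last, ← hy]
      by_cases hay : a y = 0
      · have hXv : X = f (insert y T, a - dl x) := by rw [hX, if_pos ⟨hay, hyT, hax⟩]
        rw [hXv, if_neg (show ¬ 1 ≤ a y by omega)]
        simp [hyT]
        ring
      · have hXv : X = 0 := by rw [hX, if_neg (fun h => hay h.1)]
        rw [hXv, if_pos (show 1 ≤ a y by omega),
          if_pos (show 1 ≤ (a - dl y) x by simp [dl, hx]; omega),
          show a - dl y - dl x + dl y = a - dl x by
            funext i
            rcases eq_or_ne i y with rfl | hiy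
            · simp [dl, hx.symm]; omega
            · simp [dl, hiy]]
        ring
  have h2 : ∑ k ∈ Tᶜ, (if 1 ≤ a k then (sg k T : F) *
        (if (a - dl k) y = 0 ∧ x ∈ insert k T ∧ y ∉ insert k T then
          (sg x (insert k T) : F) * f (insert y ((insert k T).erase x), a - dl k) else 0) else 0) =
      (if a y = 0 ∧ x ∈ T ∧ y ∉ T then (sg x T : F) * ∑ k ∈ (insert y (T.erase x))ᶜ,
        (if 1 ≤ a k then (sg k (insert y (T.erase x)) : F) *
          f (insert k (insert y (T.erase x)), a - dl k) else 0) else 0) + X := by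
    have hyne : ∀ k : Fin (n + 1), y ∉ insert k T → k ≠ y := fun k h e =>
      h (e ▸ mem_insert_self _ _)
    by_cases hcond : a y = 0 ∧ y ∉ T
    swap
    · rw [if_neg (fun h => hcond ⟨h.1, h.2.2⟩), hX, if_neg (fun h => hcond ⟨h.1, h.2.1⟩), add_zero]
      refine sum_eq_zero fun k _ => ?_
      split_ifs with h h'
      · refine absurd ⟨?_, fun hh => h'.2.2 (mem_insert_of_mem hh)⟩ hcond
        simpa [dl, (hyne k h'.2.2).symm] using h'.1
      · rw [mul_zero]
      · rfl
    obtain ⟨hay, hyT⟩ := hcond
    have hky : ∀ k, 1 ≤ a k → k ≠ y := fun k h e => by subst e; omega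
    by_cases hxT : x ∈ T
    · have hX' : X = if 1 ≤ a x then f (insert y T, a - dl x) else 0 := by
        rw [hX]; simp [hay, hyT]
      rw [if_pos ⟨hay, hxT, hyT⟩, hX']
      have hset : (insert y (T.erase x))ᶜ = insert x ((Tᶜ).erase y) := by
        ext k
        simp only [mem_compl, mem_insert, mem_erase]
        by_cases k = x <;> by_cases k = y <;> simp_all
      have hxn : x ∉ (Tᶜ).erase y := by simp [hxT]
      rw [hset, sum_insert hxn, ← add_sum_erase _ _ (mem_compl.2 hyT : y ∈ Tᶜ),
        if_neg (show ¬ 1 ≤ a y by omega), zero_add, mul_add, mul_sum]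
      have hxsg : sg x (insert y (T.erase x)) = -sg x T := by
        unfold sg
        have hm : y ∉ (T.erase x).filter (x < ·) := fun h =>
          hyT (mem_of_mem_erase (mem_filter.1 h).1)
        rw [filter_insert, if_pos (lt_of_le_of_ne (Fin.le_last x) hx), card_insert_of_notMem hm,
          filter_erase, erase_eq_of_notMem fun h => lt_irrefl x (mem_filter.1 h).2, pow_succ]
        ring
      have hins : insert x (insert y (T.erase x)) = insert y T := by
        rw [Finset.insert_comm, insert_erase hxT]
      have hrest : ∀ k ∈ (Tᶜ).erase y, (if 1 ≤ a k then (sg k T : F) *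
          (if (a - dl k) y = 0 ∧ x ∈ insert k T ∧ y ∉ insert k T then
            (sg x (insert k T) : F) * f (insert y ((insert k T).erase x), a - dl k) else 0) else 0) =
          (sg x T : F) * if 1 ≤ a k then (sg k (insert y (T.erase x)) : F) *
            f (insert k (insert y (T.erase x)), a - dl k) else 0 := by
        intro k hk
        obtain ⟨hky', hkT⟩ := mem_erase.1 hk
        rw [mem_compl] at hkT
        have hkx : k ≠ x := fun e => hkT (e ▸ hxT)
        split_ifs with h h'
        · have h := congrArg (fun t : ℤ => (t : F)) (sg_rot hkx hky' hkT hxT hyT)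
          simp only [Int.cast_mul] at h
          rw [erase_insert_of_ne hkx, Finset.insert_comm k y]
          linear_combination (f (insert y (insert k (T.erase x)), a - dl k)) * h
        · exfalso
          apply h'
          simp [dl, hky'.symm, hay, hxT, hyT]
        · rw [mul_zero]
      rw [sum_congr rfl hrest, hins, hxsg]
      split_ifs with hax
      · push_cast
        linear_combination (f (insert y T, a - dl x)) * (cast_sg_sq (F := F) x T)
      · ring
    · rw [if_neg (fun h => hxT h.2.1), zero_add, sum_eq_single x]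
      · rw [hX]
        by_cases hax : 1 ≤ a x
        · have hc : (a - dl x) y = 0 ∧ x ∈ insert x T ∧ y ∉ insert x T := by
            refine ⟨by simp [hay], mem_insert_self _ _, ?_⟩
            simp [hyT, hx.symm]
          rw [if_pos hax, if_pos hc, if_pos ⟨hay, hyT, hax⟩, erase_insert hxT,
            ← sg_self_erase x (insert x T), erase_insert hxT, ← mul_assoc, cast_sg_sq, one_mul]
        · simp [hax]
      · intro k _ hkx
        split_ifs with h h'
        · exact absurd ((mem_insert.1 h'.2.1).resolve_left (Ne.symm hkx)) hxT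
        · rw [mul_zero]
        · rfl
      · exact fun h => absurd (mem_compl.2 hxT) h
  calc ∑ k ∈ Tᶜ, (if 1 ≤ a k then (sg k T : F) *
        ((if 1 ≤ (a - dl k) x then f (insert k T, a - dl k - dl x + dl y) else 0) +
          if (a - dl k) y = 0 ∧ x ∈ insert k T ∧ y ∉ insert k T then
            (sg x (insert k T) : F) * f (insert y ((insert k T).erase x), a - dl k) else 0) else 0)
      = (∑ k ∈ Tᶜ, (if 1 ≤ a k then (sg k T : F) *
          (if 1 ≤ (a - dl k) x then f (insert k T, a - dl k - dl x + dl y) else 0) else 0)) +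
        ∑ k ∈ Tᶜ, (if 1 ≤ a k then (sg k T : F) *
          (if (a - dl k) y = 0 ∧ x ∈ insert k T ∧ y ∉ insert k T then
            (sg x (insert k T) : F) * f (insert y ((insert k T).erase x), a - dl k) else 0)
          else 0) := by
        rw [← sum_add_distrib]
        exact sum_congr rfl fun k _ => by by_cases h : 1 ≤ a k <;> simp [h, mul_add]
    _ = _ := by
        rw [h2]
        linear_combination h1

include hx in
lemma dd_phi (f : Pt (n + 1) → F) : dd F (phi F x f) = phi F x (dd F f) := by
  simp only [phi, LinearMap.add_apply, LinearMap.id_apply, map_add, dd_low hx]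

end Vale.Agent.P200.Betti.Free
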