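import Vale.Agent.P200.Betti.Free.Move

/-!
The move does not increase the ranks, and repeating it reaches stability in the last variable.
-/

namespace Vale.Agent.P200.Betti.Free

open Finset Module

section General

variable {n : ℕ} {F : Type*} [Field F]

open Classical in
/-- The cells of a position with monomial in `M`. -/
noncomputable def inCells (M : Set (Fin n → ℕ)) (p d : ℕ) : Finset (Pt n) :=
  (cells n p d).filter fun z => z.2 ∈ M

lemma inCells_subset (M : Set (Fin n → ℕ)) (p d : ℕ) : inCells M p d ⊆ cells n p d := by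
  classical exact filter_subset _ _

lemma card_inCells (M : Set (Fin n → ℕ)) (p d : ℕ) :
    (inCells M p d).card = n.choose p * num M d := by
  classical
  have e : inCells M p d = (univ : Finset (Fin n)).powersetCard p ×ˢ
      ((mons n d).filter (· ∈ M)) := by
    ext z
    simp [inCells, cells, and_assoc]
  rw [e, card_product, card_powersetCard, card_univ, Fintype.card_fin, num]

variable (F)

/-- The boundaries together with the cells in `M`. -/
noncomputable def full (M : Set (Fin n → ℕ)) (p d : ℕ) : Submodule F (Pt n → F) :=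
  (sp F (cells n (p + 1) d)).map (dd F) ⊔ sp F (inCells M p (d + 1))

variable {F}

lemma full_le (M : Set (Fin n → ℕ)) (p d : ℕ) : full F M p d ≤ sp F (cells n p (d + 1)) := by
  refine sup_le ?_ (sp_mono (inCells_subset _ _ _))
  rintro _ ⟨f, hf, rfl⟩
  exact dd_mem hf

lemma finrank_full (M : Set (Fin n → ℕ)) (p d : ℕ) :
    finrank F (full F M p d) = rkM F M (p + 1) d + (inCells M p (d + 1)).card := by
  classical
  set G := full F M p d
  have hfin : FiniteDimensional F G := Submodule.finiteDimensional_of_le (full_le M p d)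
  rw [← LinearMap.finrank_range_add_finrank_ker ((prj F M).domRestrict G),
    LinearMap.range_domRestrict]
  congr 1
  · have hz : (sp F (inCells M p (d + 1))).map (prj F M) = ⊥ := by
      rw [Submodule.eq_bot_iff]
      rintro _ ⟨f, hf, rfl⟩
      funext z
      rw [prj_apply]
      split_ifs with h
      · rfl
      · exact mem_sp.1 hf z fun hz => h (mem_filter.1 hz).2
    have e : G.map (prj F M) = (sp F (cells n (p + 1) d)).map (prj F M ∘ₗ dd F) := by
      rw [show G = full F M p d from rfl, full, Submodule.map_sup, hz, sup_bot_eq,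
        ← Submodule.map_comp]
    rw [e]
    rfl
  · rw [← finrank_sp (F := F)]
    have e : LinearMap.ker ((prj F M).domRestrict G) =
        (sp F (inCells M p (d + 1))).comap G.subtype := by
      ext ⟨f, hf⟩
      simp only [LinearMap.mem_ker, LinearMap.domRestrict_apply, Submodule.mem_comap,
        Submodule.subtype_apply]
      constructor
      · intro h0
        refine mem_sp.2 fun z hz => ?_
        by_cases hc : z ∈ cells n p (d + 1)
        · have hzM : z.2 ∉ M := fun h => hz (mem_filter.2 ⟨hc, h⟩)
          have := congrFun h0 z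
          simpa [prj_apply, hzM] using this
        · exact mem_sp.1 (full_le M p d hf) z hc
      · intro h0
        funext z
        rw [prj_apply]
        split_ifs with h
        · rfl
        · exact mem_sp.1 h0 z fun hz => h (mem_filter.1 hz).2
    rw [e]
    exact (Submodule.comapSubtypeEquivOfLe le_sup_right).finrank_eq

lemma dd_unit_ne_zero {z w : Pt n} (h : dd F (unit' F z) w ≠ 0) :
    ∃ k, k ∉ w.1 ∧ 1 ≤ w.2 k ∧ z = (insert k w.1, w.2 - dl k) := by
  classical
  rw [dd_apply] at h
  obtain ⟨k, hk, hk'⟩ := exists_ne_zero_of_sum_ne_zero h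
  obtain ⟨h1, h2⟩ := ite_ne_right_iff.1 hk'
  refine ⟨k, mem_compl.1 hk, h1, ?_⟩
  by_contra hne
  exact h2 (by rw [unit'_of_ne (Ne.symm hne), mul_zero])

end General

variable {n : ℕ} {F : Type*} [Field F] {M : Set (Fin (n + 1) → ℕ)} {x : Fin (n + 1)}

lemma wt_eq_of_dd_unit {z w : Pt (n + 1)} (h : dd F (unit' F z) w ≠ 0) : wt w = wt z := by
  obtain ⟨k, hk, hk', rfl⟩ := dd_unit_ne_zero h
  unfold wt
  simp only [mem_insert, Pi.sub_apply]
  by_cases e : k = Fin.last n
  · subst e
    simp [dl, hk]
    omega
  · simp [dl, Ne.symm e]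

variable (hx : x ≠ Fin.last n)

include hx in
lemma low_unit_ne_zero {z w : Pt (n + 1)} (h : low F x (unit' F z) w ≠ 0) :
    wt w < wt z ∧ w.1.card = z.1.card ∧ (∑ i, w.2 i) = ∑ i, z.2 i ∧
      (Conn M x z.2 → Conn M x w.2) := by
  classical
  rw [low_apply] at h
  by_cases h1 : 1 ≤ w.2 x ∧ (w.1, w.2 - dl x + dl (Fin.last n)) = z
  · obtain ⟨h1, rfl⟩ := h1
    have hs := sh_one_of_pred hx h1
    have hd : 1 ≤ (w.2 - dl x + dl (Fin.last n)) (Fin.last n) := by simp [dl]
    refine ⟨?_, rfl, ?_, fun hc => hs ▸ hc.sh hd⟩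
    · simp [wt, dl, hx.symm]
    · have := sum_sh hx hd
      rwa [hs] at this
  have e1 : (if 1 ≤ w.2 x then unit' F z (w.1, w.2 - dl x + dl (Fin.last n)) else 0) = 0 := by
    split_ifs with h'
    · exact unit'_of_ne fun e => h1 ⟨h', e⟩
    · rfl
  rw [e1, zero_add] at h
  obtain ⟨⟨hay, hxT, hyT⟩, h2⟩ := ite_ne_right_iff.1 h
  have e : (insert (Fin.last n) (w.1.erase x), w.2) = z := by
    by_contra hne
    exact h2 (by rw [unit'_of_ne hne, mul_zero])
  subst e
  refine ⟨by simp [wt, hay, hyT], ?_, rfl, id⟩
  simp only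
  rw [card_insert_of_notMem (fun h => hyT (mem_of_mem_erase h)), card_erase_add_one hxT]

include hx in
lemma low_mem {p d : ℕ} {f : Pt (n + 1) → F} (hf : f ∈ sp F (cells (n + 1) p d)) :
    low F x f ∈ sp F (cells (n + 1) p d) := by
  induction hf using Submodule.span_induction with
  | mem g hg =>
    obtain ⟨⟨z, hz⟩, rfl⟩ := hg
    refine mem_sp.2 fun w hw => ?_
    by_contra hne
    obtain ⟨-, h2, h3, -⟩ := low_unit_ne_zero (M := ∅) hx hne
    obtain ⟨h4, h5⟩ := mem_cells.1 hz
    exact hw (mem_cells.2 ⟨h2.trans h4, h3.trans h5⟩)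
  | zero => simp
  | add a b _ _ ha hb => rw [map_add]; exact Submodule.add_mem _ ha hb
  | smul r a _ ha => rw [map_smul]; exact Submodule.smul_mem _ _ ha

include hx in
lemma phi_mem {p d : ℕ} {f : Pt (n + 1) → F} (hf : f ∈ sp F (cells (n + 1) p d)) :
    phi F x f ∈ sp F (cells (n + 1) p d) := by
  rw [phi, LinearMap.add_apply, LinearMap.id_apply]
  exact Submodule.add_mem _ hf (low_mem hx hf)

include hx in
lemma phi_inj {p d : ℕ} {f : Pt (n + 1) → F} (hf : f ∈ sp F (cells (n + 1) p d))
    (h0 : phi F x f = 0) : f = 0 := by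
  classical
  by_contra hne
  obtain ⟨z₀, hz₀⟩ := Function.ne_iff.1 hne
  have hmem : ∀ z, f z ≠ 0 → z ∈ cells (n + 1) p d := fun z hz =>
    by_contra fun h => hz (mem_sp.1 hf z h)
  obtain ⟨z, hz, hmax⟩ := exists_max_image ((cells (n + 1) p d).filter fun z => f z ≠ 0) wt
    ⟨z₀, mem_filter.2 ⟨hmem _ hz₀, hz₀⟩⟩
  have hfz := (mem_filter.1 hz).2
  have hzero : low F x f z = 0 := by
    by_contra hl
    have hup : ∀ w, wt z < wt w → f w = 0 := fun w hw => by
      by_contra hw'
      exact absurd (hmax w (mem_filter.2 ⟨hmem _ hw', hw'⟩)) (not_le.2 hw)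
    rw [low_apply] at hl
    apply hl
    have e1 : (if 1 ≤ z.2 x then f (z.1, z.2 - dl x + dl (Fin.last n)) else 0) = 0 := by
      split_ifs
      · exact hup _ (by simp [wt, dl, hx.symm])
      · rfl
    rw [e1, zero_add]
    split_ifs with h
    · rw [hup _ (by simp [wt, h.1, h.2.2]), mul_zero]
    · rfl
  have := congrFun h0 z
  rw [phi_apply, hzero, add_zero] at this
  exact hfz this

include hx in
lemma map_phi_cells (p d : ℕ) :
    (sp F (cells (n + 1) p d)).map (phi F x) = sp F (cells (n + 1) p d) := by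
  refine Submodule.eq_of_le_of_finrank_eq ?_ ?_
  · rintro _ ⟨f, hf, rfl⟩
    exact phi_mem hx hf
  · rw [← LinearMap.range_domRestrict]
    exact LinearMap.finrank_range_of_inj ((injective_iff_map_eq_zero _).2 fun g hg =>
      Subtype.ext (phi_inj hx g.2 hg))

include hx in
lemma unit_conn_mem {p d : ℕ} {z : Pt (n + 1)} (hz : z ∈ cells (n + 1) p d)
    (hc : Conn M x z.2) :
    unit' F z ∈ (sp F (inCells M p d)).map (phi F x) := by
  classical
  induction hm : wt z using Nat.strong_induction_on generalizing z with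
  | _ m ih =>
    subst hm
    have hle : low F x (unit' F z) ∈ (sp F (inCells M p d)).map (phi F x) := by
      have hsp : low F x (unit' F z) ∈ sp F ((cells (n + 1) p d).filter
          fun w => wt w < wt z ∧ Conn M x w.2) := by
        refine mem_sp.2 fun w hw => ?_
        by_contra hne
        obtain ⟨h1, h2, h3, h4⟩ := low_unit_ne_zero (M := M) hx hne
        obtain ⟨h5, h6⟩ := mem_cells.1 hz
        exact hw (mem_filter.2 ⟨mem_cells.2 ⟨h2.trans h5, h3.trans h6⟩, h1, h4 hc⟩)
      refine (Submodule.span_le.2 ?_) hsp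
      rintro _ ⟨⟨w, hw⟩, rfl⟩
      obtain ⟨hw1, hw2, hw3⟩ := mem_filter.1 hw
      exact ih _ hw2 hw1 hw3 rfl
    have h1 : phi F x (unit' F z) ∈ (sp F (inCells M p d)).map (phi F x) :=
      ⟨_, unit'_mem_sp (mem_filter.2 ⟨hz, hc.mem⟩), rfl⟩
    have h2 := Submodule.sub_mem _ h1 hle
    rwa [phi, LinearMap.add_apply, LinearMap.id_apply, add_sub_cancel_right] at h2

include hx in
theorem rkM_moved_le (p d : ℕ) : rkM F (moved M x) (p + 1) d ≤ rkM F M (p + 1) d := by
  classical
  set G := (full F M p d).map (phi F x) with hG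
  have hGle : G ≤ sp F (cells (n + 1) p (d + 1)) := by
    rintro _ ⟨f, hf, rfl⟩
    exact phi_mem hx (full_le M p d hf)
  have hGdim : finrank F G = finrank F (full F M p d) := by
    rw [hG, ← LinearMap.range_domRestrict]
    exact LinearMap.finrank_range_of_inj ((injective_iff_map_eq_zero _).2 fun g hg =>
      Subtype.ext (phi_inj hx (full_le M p d g.2) hg))
  set vs : Set (Pt (n + 1) → F) :=
    (fun z => dd F (unit' F z)) '' (cells (n + 1) (p + 1) d : Set (Pt (n + 1))) ∪
      unit' F '' (inCells (moved M x) p (d + 1) : Set (Pt (n + 1)))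
  have hspan : Submodule.span F vs = full F (moved M x) p d := by
    rw [Submodule.span_union, full, sp, sp, Submodule.map_span, Set.image_eq_range,
      Set.image_eq_range, ← Set.range_comp]
    rfl
  have hwit : ∀ g ∈ vs, ∃ f ∈ G, ∃ v, (∀ z, wt z < v → f z = 0) ∧
      keep F (fun z => wt z = v) f = g := by
    rintro g (⟨z, hz, rfl⟩ | ⟨z, hz, rfl⟩)
    · refine ⟨dd F (unit' F z), ?_, wt z, fun w hw => ?_, ?_⟩
      · obtain ⟨f, hf, hfz⟩ := (map_phi_cells (F := F) hx (p + 1) d).symm.le
          (unit'_mem_sp hz)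
        exact ⟨dd F f, Submodule.mem_sup_left ⟨f, hf, rfl⟩, by rw [← dd_phi hx, hfz]⟩
      · by_contra hne
        exact absurd (wt_eq_of_dd_unit hne) hw.ne
      · funext w
        rw [keep_apply]
        split_ifs with h
        · rfl
        · by_contra hne
          exact h (wt_eq_of_dd_unit (Ne.symm hne))
    · obtain ⟨hzc, hzm⟩ := mem_filter.1 hz
      rcases hzm with hc | ⟨h1, h2⟩
      · refine ⟨unit' F z, ?_, wt z, fun w hw => unit'_of_ne (fun e => by subst e; omega), ?_⟩
        · obtain ⟨f, hf, hfz⟩ := unit_conn_mem (F := F) hx hzc hc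
          exact ⟨f, Submodule.mem_sup_right hf, hfz⟩
        · funext w
          rw [keep_apply]
          split_ifs with h
          · rfl
          · exact (unit'_of_ne fun e => h (by rw [e])).symm
      · set zp : Pt (n + 1) := (z.1, z.2 - dl x + dl (Fin.last n)) with hzp
        have hzpc : zp ∈ cells (n + 1) p (d + 1) := by
          obtain ⟨h5, h6⟩ := mem_cells.1 hzc
          refine mem_cells.2 ⟨h5, ?_⟩
          have hd : 1 ≤ zp.2 (Fin.last n) := by simp [hzp, dl]
          have := sum_sh hx hd
          rw [hzp, sh_one_of_pred hx h1, h6] at this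
          exact this.symm
        have hwz : wt zp = wt z + 1 := by simp [hzp, wt, dl, hx.symm]; omega
        have hlow : ∀ w, low F x (unit' F zp) w = if w = z then 1 else 0 := by
          intro w
          rw [low_apply]
          have hb : (if w.2 (Fin.last n) = 0 ∧ x ∈ w.1 ∧ Fin.last n ∉ w.1 then
              (sg x w.1 : F) * unit' F zp (insert (Fin.last n) (w.1.erase x), w.2) else 0) = 0 := by
            split_ifs with h
            · rw [unit'_of_ne, mul_zero]
              intro e
              have h0 := h.1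
              rw [(Prod.ext_iff.1 e).2] at h0
              simp [hzp, dl] at h0
            · rfl
          rw [hb, add_zero]
          by_cases hw : w = z
          · subst hw
            rw [if_pos rfl, if_pos h1]
            exact unit'_self _
          · rw [if_neg hw]
            split_ifs with h
            · refine unit'_of_ne fun e => hw ?_
              simp only [hzp, Prod.mk.injEq] at e
              refine Prod.ext e.1 ?_
              rw [← sh_one_of_pred hx h, e.2, sh_one_of_pred hx h1]
            · rfl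
        refine ⟨phi F x (unit' F zp), ⟨_, Submodule.mem_sup_right (unit'_mem_sp
          (mem_filter.2 ⟨hzpc, h2⟩)), rfl⟩, wt z, fun w hw => ?_, ?_⟩
        · rw [phi_apply, hlow, if_neg (fun e => by subst e; omega),
            unit'_of_ne (fun e => by subst e; omega), add_zero]
        · funext w
          rw [keep_apply, phi_apply, hlow]
          by_cases hw : w = z
          · subst hw
            rw [if_pos rfl, if_pos rfl, unit'_self,
              unit'_of_ne (fun e => by have := congrArg wt e; omega), zero_add]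
          · rw [unit'_of_ne hw, if_neg hw]
            split_ifs with h
            · rw [unit'_of_ne (fun e => by subst e; omega), add_zero]
            · rfl
  have hle := finrank_le_of_lead hGle wt vs hwit
  rw [hspan, hGdim, finrank_full, finrank_full, card_inCells, card_inCells,
    num_moved hx] at hle
  omega

include hx in
theorem hM_le_moved (p d : ℕ) : hM F M p d ≤ hM F (moved M x) p d := by
  have hr : ∀ q e, rkM F (moved M x) q e ≤ rkM F M q e := by
    rintro (_ | q) e
    · exact le_rfl
    · exact rkM_moved_le hx q e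
  have hc : (outCells (moved M x) p d).card = (outCells M p d).card := by
    rw [card_outCells, card_outCells, num_moved hx]
  have h1 := hr p d
  have h2 : (if d = 0 then 0 else rkM F (moved M x) (p + 1) (d - 1)) ≤
      (if d = 0 then 0 else rkM F M (p + 1) (d - 1)) := by
    split_ifs
    · exact le_rfl
    · exact hr _ _
  unfold hM
  omega

open Classical in
/-- The total last exponent in a degree. -/
noncomputable def mass (M : Set (Fin (n + 1) → ℕ)) (d : ℕ) : ℕ :=
  ∑ a ∈ (mons (n + 1) d).filter (· ∈ M), a (Fin.last n)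

open Classical in
include hx in
lemma mass_moved (d : ℕ) :
    mass (moved M x) d ≤ mass M d ∧
      ((∃ a ∈ mons (n + 1) d, a ∈ M ∧ ¬ Conn M x a) → mass (moved M x) d < mass M d) := by
  set A := (mons (n + 1) d).filter (· ∈ M) with hA
  set g : (Fin (n + 1) → ℕ) → (Fin (n + 1) → ℕ) := fun a => if Conn M x a then a else sh x a 1
  have himg : (mons (n + 1) d).filter (· ∈ moved M x) = A.image g := by
    have hsub : A.image g ⊆ (mons (n + 1) d).filter (· ∈ moved M x) := by
      intro b hb
      obtain ⟨a, ha, rfl⟩ := mem_image.1 hb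
      obtain ⟨ha1, ha2⟩ := mem_filter.1 ha
      simp only [g]
      split_ifs with h
      · exact mem_filter.2 ⟨ha1, Or.inl h⟩
      · have h1 : 1 ≤ a (Fin.last n) := Nat.one_le_iff_ne_zero.2 fun h0 => h (conn_of_zero ha2 h0)
        obtain ⟨e1, e2⟩ := pred_sh_one hx h1
        refine mem_filter.2 ⟨mem_mons.2 ?_, Or.inr ⟨e1, e2.symm ▸ ha2⟩⟩
        rw [sum_sh hx h1, mem_mons.1 ha1]
    refine (eq_of_subset_of_card_le hsub ?_).symm
    have hinj : Set.InjOn g (A : Set (Fin (n + 1) → ℕ)) := by
      intro a ha b hb h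
      have ha2 := (mem_filter.1 ha).2
      have hb2 := (mem_filter.1 hb).2
      simp only [g] at h
      split_ifs at h with h1 h2 h2
      · exact h
      · exact absurd (conn_of_step hb2 (h ▸ h1)) h2
      · exact absurd (conn_of_step ha2 (h.symm ▸ h2)) h1
      · have p1 := pred_sh_one hx (Nat.one_le_iff_ne_zero.2 fun h0 => h1 (conn_of_zero ha2 h0))
        have p2 := pred_sh_one hx (Nat.one_le_iff_ne_zero.2 fun h0 => h2 (conn_of_zero hb2 h0))
        rw [← p1.2, h, p2.2]
    rw [card_image_of_injOn hinj]
    exact (num_moved hx d).le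
  have hinj2 : Set.InjOn g (A : Set (Fin (n + 1) → ℕ)) := by
    refine injOn_of_card_image_eq ?_
    rw [← himg]
    exact num_moved hx d
  have hg : ∀ a, g a (Fin.last n) ≤ a (Fin.last n) := fun a => by
    simp only [g]
    split_ifs
    · exact le_rfl
    · simp [sh]
  unfold mass
  rw [himg, sum_image hinj2]
  refine ⟨sum_le_sum fun a _ => hg a, ?_⟩
  rintro ⟨a, ha1, ha2, ha3⟩
  refine sum_lt_sum (fun a _ => hg a) ⟨a, mem_filter.2 ⟨ha1, ha2⟩, ?_⟩
  have h1 : 1 ≤ a (Fin.last n) := Nat.one_le_iff_ne_zero.2 fun h0 => ha3 (conn_of_zero ha2 h0)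
  simp only [g, if_neg ha3]
  simp [sh]
  omega

/-- In degree `d` the members of `M` may move from the last variable to any other one. -/
def StableAt (M : Set (Fin (n + 1) → ℕ)) (d : ℕ) : Prop :=
  ∀ a ∈ M, ∑ i, a i = d → 1 ≤ a (Fin.last n) → ∀ x, x ≠ Fin.last n → sh x a 1 ∈ M

variable (F)

/-- Stability in two degrees is reached without lowering any Betti number in those degrees. -/
theorem exists_stable {c : ℕ} (hc : c ≤ n) {M : Set (Fin (n + 1) → ℕ)} (hup : IsUp M)
    (hsq : HasSq c M) (d e : ℕ) :
    ∃ M' : Set (Fin (n + 1) → ℕ), IsUp M' ∧ HasSq c M' ∧ (∀ k, num M' k = num M k) ∧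
      StableAt M' d ∧ StableAt M' e ∧ ∀ p k, hM F M p k ≤ hM F M' p k := by
  induction hN : mass M d + mass M e using Nat.strong_induction_on generalizing M with
  | _ N ih =>
    by_cases h : StableAt M d ∧ StableAt M e
    · exact ⟨M, hup, hsq, fun _ => rfl, h.1, h.2, fun _ _ => le_rfl⟩
    obtain ⟨k, hk, a, ha, hs, h1, x, hx, hn⟩ : ∃ k, (k = d ∨ k = e) ∧ ∃ a, a ∈ M ∧
        ∑ i, a i = k ∧ 1 ≤ a (Fin.last n) ∧ ∃ x, x ≠ Fin.last n ∧ sh x a 1 ∉ M := by
      rw [not_and_or] at h
      rcases h with h | h <;> simp only [StableAt, not_forall] at h <;>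
        obtain ⟨a, ha, hs, h1, x, hx, hn⟩ := h
      · exact ⟨d, Or.inl rfl, a, ha, hs, h1, x, hx, hn⟩
      · exact ⟨e, Or.inr rfl, a, ha, hs, h1, x, hx, hn⟩
    have hnc : ¬ Conn M x a := fun hc' => hn (hc' 1 h1)
    have hlt := (mass_moved hx k).2 ⟨a, mem_mons.2 hs, ha, hnc⟩
    have hd := (mass_moved (M := M) hx d).1
    have he := (mass_moved (M := M) hx e).1
    have hlt' : mass (moved M x) d + mass (moved M x) e < N := by
      rcases hk with rfl | rfl <;> omega
    obtain ⟨M', g1, g2, g3, g4, g5, g6⟩ :=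
      ih _ hlt' (isUp_moved hx hup) (hasSq_moved hc hsq) rfl
    exact ⟨M', g1, g2, fun k => (g3 k).trans (num_moved hx k), g4, g5,
      fun p k => (hM_le_moved hx p k).trans (g6 p k)⟩

end Vale.Agent.P200.Betti.Free
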