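import Vale.Agent.P200.Betti.Free.Degrees
import Vale.Agent.P200.PPow.Factorises

/-!
The degeneration for forms whose degree is prime, or a power of the characteristic.
-/

namespace Vale.Agent.P200.Betti.Skew

open MvPolynomial Module

universe u

variable {K : Type u} [Field K]

/-- Linear factorisations for forms of a degree that is a power of the characteristic. -/
theorem factorises_closure_pow {q : ℕ} (hq : IsPrimePow q) (hdvd : ringChar K ∣ q) (n : ℕ) :
    Vale.Agent.P200.Skew.Factorises (AlgebraicClosure K) n q := by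
  obtain ⟨p, k, hp, hk, rfl⟩ := (isPrimePow_nat_iff q).1 hq
  have hpK : ringChar K = p := by
    rcases CharP.char_is_prime_or_zero K (ringChar K) with h | h
    · exact (Nat.prime_dvd_prime_iff_eq h hp).1 (h.dvd_of_dvd_pow hdvd)
    · exact absurd (zero_dvd_iff.1 (h ▸ hdvd)) (pow_pos hp.pos k).ne'
  have : CharP K p := hpK ▸ ringChar.charP K
  have : CharP (AlgebraicClosure K) p :=
    charP_of_injective_algebraMap (algebraMap K (AlgebraicClosure K)).injective p
  rw [← Nat.sub_add_cancel hk]
  exact Vale.Agent.P200.PPow.factorises p (k - 1) hp (AlgebraicClosure K) n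

/-- The degeneration for forms of a degree that is prime, the characteristic not below it, or a
power of the characteristic. -/
theorem exists_monomial_betti_degree {n c q : ℕ}
    (hq : q.Prime ∧ (ringChar K = 0 ∨ q ≤ ringChar K) ∨ IsPrimePow q ∧ ringChar K ∣ q)
    (hcn : c ≤ n) {f : Fin c → MvPolynomial (Fin n) K}
    (hf : ∀ i, (f i).IsHomogeneous q) (hreg : RegList ⊥ (List.ofFn f))
    {I : Ideal (MvPolynomial (Fin n) K)} (hI : HomogI I) (hfI : ∀ i, f i ∈ I) :
    ∃ T : ℕ → Finset (Fin n →₀ ℕ),
      (∀ d, ∀ e ∈ T d, e.degree = d) ∧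
      (∀ d, ∀ e : Fin n →₀ ℕ, e.degree = d → (∃ i : Fin c, q ≤ e (Fin.castLE hcn i)) → e ∈ T d) ∧
      (∀ d, ∀ e ∈ T d, ∀ v, e + Finsupp.single v 1 ∈ T (d + 1)) ∧
      (∀ d, (T d).card = finrank K (degPart d I)) ∧
      ∀ p j, betti I p j ≤ betti (setIdeal T K) p j := by
  rcases hq with ⟨hp, hchar⟩ | ⟨hpp, hdvd⟩
  · exact exists_monomial_betti_prime hp hchar hcn hf hreg hI hfI
  · exact exists_monomial_betti_of_factorises hpp.pos (factorises_closure_pow hpp hdvd n) hcn hf
      hreg hI hfI

end Vale.Agent.P200.Betti.Skew
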