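import Vale.Agent.P200.Betti.Free.Lower

/-!
Ideals containing a regular sequence of quadrics have Betti numbers at most those of a monomial
ideal with the squares and the same Hilbert function.
-/

namespace Vale.Agent.P200.Betti.Skew

open MvPolynomial Module

universe u

variable {K : Type u} [Field K]

/-- The degeneration for quadrics, every number of variables. -/
theorem exists_monomial_betti {n c : ℕ} (hcn : c ≤ n) {f : Fin c → MvPolynomial (Fin n) K}
    (hf : ∀ i, (f i).IsHomogeneous 2) (hreg : RegList ⊥ (List.ofFn f))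
    {I : Ideal (MvPolynomial (Fin n) K)} (hI : HomogI I) (hfI : ∀ i, f i ∈ I) :
    ∃ T : ℕ → Finset (Fin n →₀ ℕ),
      (∀ d, ∀ e ∈ T d, e.degree = d) ∧
      (∀ d, ∀ e : Fin n →₀ ℕ, e.degree = d → (∃ i : Fin c, 2 ≤ e (Fin.castLE hcn i)) → e ∈ T d) ∧
      (∀ d, ∀ e ∈ T d, ∀ v, e + Finsupp.single v 1 ∈ T (d + 1)) ∧
      (∀ d, (T d).card = finrank K (degPart d I)) ∧
      ∀ p j, betti I p j ≤ betti (setIdeal T K) p j := by
  classical
  obtain ⟨m, rfl⟩ : ∃ m, n = c + m := ⟨n - c, by omega⟩
  rcases Nat.eq_zero_or_pos (c + m) with h0 | hn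
  · have hsub : Subsingleton (Fin (c + m) →₀ ℕ) :=
      ⟨fun x y => Finsupp.ext fun i => absurd i.isLt (by omega)⟩
    let T : ℕ → Finset (Fin (c + m) →₀ ℕ) := fun d =>
      if d = 0 ∧ (1 : MvPolynomial (Fin (c + m)) K) ∈ I then {0} else ∅
    have hdeg : ∀ d, ∀ e ∈ T d, e.degree = d := by
      intro d e he
      simp only [T] at he
      split_ifs at he with h
      · rw [Finset.mem_singleton.1 he, h.1, map_zero]
      · simp at he
    have hcl : ∀ d, ∀ e ∈ T d, ∀ v, e + Finsupp.single v 1 ∈ T (d + 1) := fun d e _ v =>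
      absurd v.isLt (by omega)
    have hC : ∀ u : MvPolynomial (Fin (c + m)) K, u = C (coeff 0 u) := fun u => by
      ext e
      rw [Subsingleton.elim e 0, coeff_zero_C]
    have hJ : setIdeal T K = I := by
      by_cases h1 : (1 : MvPolynomial (Fin (c + m)) K) ∈ I
      · rw [(Ideal.eq_top_iff_one I).2 h1, Ideal.eq_top_iff_one, setIdeal]
        exact Ideal.subset_span ⟨0, ⟨0, by simp [T, h1]⟩, by simp⟩
      · have hIbot : I = ⊥ := by
          refine (Submodule.eq_bot_iff _).2 fun u hu => ?_
          by_contra hne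
          have hc : coeff 0 u ≠ 0 := fun h => hne (by rw [hC u, h, C_0])
          refine h1 ?_
          have := Ideal.mul_mem_left I (C (coeff 0 u)⁻¹) hu
          rwa [hC u, coeff_zero_C, ← C_mul, inv_mul_cancel₀ hc, C_1] at this
        rw [hIbot, setIdeal, Ideal.span_eq_bot]
        rintro _ ⟨e, ⟨d, hd⟩, rfl⟩
        simp [T, h1] at hd
    refine ⟨T, hdeg, fun d e _ ⟨i, _⟩ => absurd i.isLt (by omega), hcl, fun d => ?_,
      fun p j => hJ ▸ le_rfl⟩
    rw [← finrank_degPart_setIdeal (K := K) hdeg hcl, hJ]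
  obtain ⟨D, _, _, g, E, u, Y, hanti, hinv, hYc, hY1, hu, hlin, hsq⟩ := exists_frame hn hf hreg
  let M : Datum f (D := D) K (fun _ : Fin c => 2) :=
    { g := g
      E := E
      u := u
      Y := Y
      q := fun _ _ => -1
      q_ne := fun _ _ _ => neg_ne_zero.2 one_ne_zero
      comm := fun k l h i j => by
        rw [map_neg, map_one, neg_one_mul]
        exact eq_neg_of_add_eq_zero_left (hanti l k h.ne' j i)
      inv := hinv
      Y_comm := hYc
      Y_mem := hY1
      u_ne := hu
      lin_eq := hlin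
      pow_mem := fun k => by rw [pow_two]; exact Submodule.mem_sup_left (hsq k) }
  have hIf : HomogI (Ideal.span (Set.range f)) := by
    have := homogI_ofList' (L := List.ofFn f) fun q hq => by
      obtain ⟨i, rfl⟩ := List.mem_ofFn.1 hq
      exact ⟨2, two_pos, hf i⟩
    convert this using 1
    exact congrArg Ideal.span (Set.ext fun x => by simp [List.mem_ofFn])
  refine ⟨M.exps I, fun d e he => (M.mem_exps.1 he).1, fun d e hd he => ?_,
    fun d e he v => M.exps_closed (fun _ => two_pos) he v,
    fun d => M.card_exps (fun _ => two_pos) hIf hI hfI d,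
    M.betti_le_exps (fun _ => two_pos) hIf hI hfI⟩
  obtain ⟨i, hi⟩ := he
  exact M.exps_powers hd ⟨i, hi⟩

end Vale.Agent.P200.Betti.Skew
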