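import Vale.Agent.P200.Betti.Free.MoveRank

/-!
Splitting off the last variable, which is free.
-/

namespace Vale.Agent.P200.Betti.Free

open Finset Module

variable {n : ℕ} {F : Type*} [Field F] {M : Set (Fin (n + 1) → ℕ)}

/-- The monomials of `M` free of the last variable. -/
def base (M : Set (Fin (n + 1) → ℕ)) : Set (Fin n → ℕ) := {b | Fin.snoc b 0 ∈ M}

lemma snoc_add_dl (b : Fin n → ℕ) (i : Fin n) (t : ℕ) :
    (Fin.snoc (b + dl i) t : Fin (n + 1) → ℕ) = Fin.snoc b t + dl i.castSucc := by
  funext j
  induction j using Fin.lastCases with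
  | last => simp [dl, (Fin.castSucc_ne_last i).symm]
  | cast j =>
    rcases eq_or_ne j i with rfl | h
    · simp [dl]
    · simp [dl, h]

lemma isUp_base (hM : IsUp M) : IsUp (base M) := fun b hb i => by
  show Fin.snoc (b + dl i) 0 ∈ M
  rw [snoc_add_dl]
  exact hM _ hb _

lemma hasSq_base {c : ℕ} (hM : HasSq c M) : HasSq c (base M) := fun i hi b hb =>
  hM i.castSucc (by simpa using hi) _ (by simpa using hb)

lemma sum_eq_init_add (a : Fin (n + 1) → ℕ) :
    ∑ i, a i = (∑ i : Fin n, a i.castSucc) + a (Fin.last n) := Fin.sum_univ_castSucc a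

lemma snoc_init_zero {a : Fin (n + 1) → ℕ} (h : a (Fin.last n) = 0) :
    (Fin.snoc (fun i => a (Fin.castSucc i)) 0 : Fin (n + 1) → ℕ) = a := by
  funext j
  induction j using Fin.lastCases with
  | last => simp [h]
  | cast j => simp

/-- The smaller number in Pascal's rule. -/
def pc (n : ℕ) : ℕ → ℕ
  | 0 => 0
  | q + 1 => n.choose q

lemma choose_succ_eq (n p : ℕ) : (n + 1).choose p = n.choose p + pc n p := by
  cases p with
  | zero => simp [pc]
  | succ q => rw [pc, Nat.choose_succ_succ]; exact Nat.add_comm _ _

open Classical in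
/-- The members of `M` of degree `d + 1` with the last variable. -/
noncomputable def topNum (M : Set (Fin (n + 1) → ℕ)) (d : ℕ) : ℕ :=
  ((mons (n + 1) (d + 1)).filter fun a => 1 ≤ a (Fin.last n) ∧ a ∈ M).card

open Classical in
lemma num_succ (M : Set (Fin (n + 1) → ℕ)) (d : ℕ) :
    num M (d + 1) = num (base M) (d + 1) + topNum M d := by
  have h := card_filter_add_card_filter_not (s := (mons (n + 1) (d + 1)).filter (· ∈ M))
    (fun a => a (Fin.last n) = 0)
  rw [num, ← h]
  congr 1
  · refine card_nbij' (fun a i => a (Fin.castSucc i)) (fun b => Fin.snoc b 0) ?_ ?_ ?_ ?_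
    · intro a ha
      simp only [coe_filter, Set.mem_ofPred_eq, mem_filter, mem_mons] at ha ⊢
      obtain ⟨⟨h1, h2⟩, h3⟩ := ha
      refine ⟨?_, ?_⟩
      · rw [sum_eq_init_add, h3] at h1
        simpa using h1
      · show Fin.snoc _ 0 ∈ M
        rwa [snoc_init_zero h3]
    · intro b hb
      simp only [coe_filter, Set.mem_ofPred_eq, mem_filter, mem_mons] at hb ⊢
      refine ⟨⟨?_, hb.2⟩, by simp⟩
      rw [sum_eq_init_add]
      simpa using hb.1
    · intro a ha
      simp only [coe_filter, Set.mem_ofPred_eq] at ha
      exact snoc_init_zero ha.2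
    · intro b _
      funext i
      simp
  · rw [topNum, filter_filter]
    congr 1
    ext a
    simp only [mem_filter]
    constructor <;> intro h' <;> refine ⟨h'.1, ?_, ?_⟩
    · omega
    · exact h'.2.1
    · exact h'.2.2
    · omega

open Classical in
lemma card_mons_top (n d : ℕ) :
    ((mons (n + 1) (d + 1)).filter fun a => 1 ≤ a (Fin.last n)).card = (mons (n + 1) d).card := by
  refine card_nbij' (fun a => a - dl (Fin.last n)) (fun a => a + dl (Fin.last n)) ?_ ?_ ?_ ?_
  · intro a ha
    simp only [coe_filter, Set.mem_ofPred_eq, mem_coe, mem_mons] at ha ⊢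
    have := sum_sub_dl ha.2
    omega
  · intro a ha
    simp only [coe_filter, Set.mem_ofPred_eq, mem_coe, mem_mons] at ha ⊢
    refine ⟨?_, by simp [dl]⟩
    simp [Pi.add_apply, sum_add_distrib, sum_dl, ha]
  · intro a ha
    simp only [coe_filter, Set.mem_ofPred_eq] at ha
    exact sub_add_dl ha.2
  · intro a _
    exact add_sub_dl

lemma topNum_le (M : Set (Fin (n + 1) → ℕ)) (d : ℕ) : topNum M d ≤ (mons (n + 1) d).card := by
  classical
  rw [← card_mons_top]
  refine card_le_card fun a ha => ?_
  obtain ⟨h1, h2, -⟩ := mem_filter.1 ha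
  exact mem_filter.2 ⟨h1, h2⟩

open Classical in
lemma num_le_topNum (hM : IsUp M) (d : ℕ) : num M d ≤ topNum M d := by
  refine card_le_card_of_injOn (fun a => a + dl (Fin.last n)) (fun a ha => ?_) ?_
  · obtain ⟨h1, h2⟩ := mem_filter.1 ha
    refine mem_filter.2 ⟨mem_mons.2 ?_, by simp [dl], hM a h2 _⟩
    simp [Pi.add_apply, sum_add_distrib, sum_dl, mem_mons.1 h1]
  · intro a _ b _ h
    have := congrArg (fun v => v - dl (Fin.last n)) h
    simpa [add_sub_dl] using this

open Classical in
lemma mons_succ (n d : ℕ) :
    (mons (n + 1) (d + 1)).card = (mons n (d + 1)).card + (mons (n + 1) d).card := by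
  have h := num_succ (Set.univ : Set (Fin (n + 1) → ℕ)) d
  simpa [num, topNum, base, card_mons_top] using h

open Classical in
/-- The positions without the last element and exponent at least one there. -/
noncomputable def tops (M : Set (Fin (n + 1) → ℕ)) (p d : ℕ) : Finset (Pt (n + 1)) :=
  ((univ : Finset (Fin (n + 1))).erase (Fin.last n)).powersetCard p ×ˢ
    ((mons (n + 1) (d + 1)).filter fun a => 1 ≤ a (Fin.last n) ∧ a ∉ M)

lemma card_tops (M : Set (Fin (n + 1) → ℕ)) (p d : ℕ) :
    (tops M p d).card = n.choose p * ((mons (n + 1) d).card - topNum M d) := by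
  classical
  rw [tops, card_product, card_powersetCard, card_erase_of_mem (mem_univ _), card_univ,
    Fintype.card_fin, Nat.add_sub_cancel]
  congr 1
  have h := card_filter_add_card_filter_not
    (s := (mons (n + 1) (d + 1)).filter fun a => 1 ≤ a (Fin.last n)) (fun a => a ∈ M)
  rw [filter_filter, filter_filter, card_mons_top] at h
  unfold topNum
  omega

lemma mem_tops {p d : ℕ} {z : Pt (n + 1)} :
    z ∈ tops M p d ↔ z ∈ cells (n + 1) p (d + 1) ∧ Fin.last n ∉ z.1 ∧ 1 ≤ z.2 (Fin.last n) ∧
      z.2 ∉ M := by
  classical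
  rw [tops, mem_product, mem_powersetCard, mem_filter, mem_cells, mem_mons]
  constructor
  · rintro ⟨⟨h1, h2⟩, h3, h4, h5⟩
    exact ⟨⟨h2, h3⟩, fun h => (mem_erase.1 (h1 h)).1 rfl, h4, h5⟩
  · rintro ⟨⟨h2, h3⟩, h1, h4, h5⟩
    exact ⟨⟨fun a ha => mem_erase.2 ⟨fun e => h1 (e ▸ ha), mem_univ _⟩, h2⟩, h3, h4, h5⟩

/-- Forgetting the last variable. -/
def dn (z : Pt (n + 1)) : Pt n :=
  (univ.filter fun k => k.castSucc ∈ z.1, fun i => z.2 i.castSucc)

/-- Adding a last variable that does not occur. -/
def lift (z : Pt n) : Pt (n + 1) := (z.1.map Fin.castSuccEmb, Fin.snoc z.2 0)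

lemma dn_lift (z : Pt n) : dn (lift z) = z := by
  refine Prod.ext ?_ ?_
  · ext k
    simp [dn, lift]
  · funext i
    simp [dn, lift]

lemma lift_dn {z : Pt (n + 1)} (h1 : Fin.last n ∉ z.1) (h2 : z.2 (Fin.last n) = 0) :
    lift (dn z) = z := by
  refine Prod.ext ?_ (snoc_init_zero h2)
  ext k
  induction k using Fin.lastCases with
  | last => simp [lift, h1, Fin.castSucc_ne_last]
  | cast k => simp [lift, dn]

variable (F)

open Classical in
/-- Functions of fewer variables, extended by zero. -/
noncomputable def emb : (Pt n → F) →ₗ[F] (Pt (n + 1) → F) where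
  toFun f := fun z => if Fin.last n ∉ z.1 ∧ z.2 (Fin.last n) = 0 then f (dn z) else 0
  map_add' f g := by
    funext z
    simp only [Pi.add_apply]
    split_ifs <;> simp
  map_smul' c f := by
    funext z
    simp only [Pi.smul_apply, smul_eq_mul, RingHom.id_apply]
    split_ifs <;> simp

variable {F}

open Classical in
lemma emb_apply (f : Pt n → F) (z : Pt (n + 1)) :
    emb F f z = if Fin.last n ∉ z.1 ∧ z.2 (Fin.last n) = 0 then f (dn z) else 0 := rfl

lemma emb_lift (f : Pt n → F) (z : Pt n) : emb F f (lift z) = f z := by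
  classical
  rw [emb_apply, if_pos (by simp [lift, Fin.castSucc_ne_last]), dn_lift]

lemma emb_injective : Function.Injective (emb (n := n) F) := fun f g h =>
  funext fun z => by rw [← emb_lift f z, h, emb_lift]

lemma prj_emb (f : Pt n → F) : prj F M (emb F f) = emb F (prj F (base M) f) := by
  classical
  funext z
  rw [prj_apply, emb_apply, emb_apply]
  by_cases h : Fin.last n ∉ z.1 ∧ z.2 (Fin.last n) = 0
  · rw [if_pos h, if_pos h, prj_apply]
    have : (dn z).2 ∈ base M ↔ z.2 ∈ M := by
      show Fin.snoc _ 0 ∈ M ↔ _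
      rw [show (dn z).2 = fun i => z.2 i.castSucc from rfl, snoc_init_zero h.2]
    simp only [this]
  · rw [if_neg h, if_neg h, ite_self]

lemma sg_dn {k : Fin n} {z : Pt (n + 1)} (h : Fin.last n ∉ z.1) :
    sg k.castSucc z.1 = sg k (dn z).1 := by
  unfold sg
  congr 1
  rw [← card_map Fin.castSuccEmb (s := (dn z).1.filter fun a => k < a)]
  refine congrArg Finset.card ?_
  ext a
  induction a using Fin.lastCases with
  | last => simp [h, Fin.castSucc_ne_last]
  | cast a => simp [dn]

lemma dd_emb (f : Pt n → F) : dd F (emb F f) = emb F (dd F f) := by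
  classical
  funext z
  rw [emb_apply, dd_apply]
  by_cases h : Fin.last n ∉ z.1 ∧ z.2 (Fin.last n) = 0
  swap
  · rw [if_neg h]
    refine sum_eq_zero fun k hk => ?_
    split_ifs with hk'
    · rw [emb_apply, if_neg, mul_zero]
      rintro ⟨h1, h2⟩
      simp only [mem_insert, not_or, Pi.sub_apply] at h1 h2
      exact h ⟨h1.2, by simpa [dl, h1.1] using h2⟩
    · rfl
  rw [if_pos h, dd_apply]
  symm
  refine sum_bij_ne_zero (fun k _ _ => k.castSucc) ?_ ?_ ?_ ?_
  · intro k hk _
    simpa [dn] using hk
  · intro a _ _ b _ _ e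
    exact Fin.castSucc_injective n e
  · intro b hb hb'
    obtain ⟨h1, h2⟩ := ite_ne_right_iff.1 hb'
    have hbl : b ≠ Fin.last n := fun e => by rw [e, h.2] at h1; omega
    obtain ⟨k, rfl⟩ := Fin.exists_castSucc_eq.2 hbl
    have hk : k ∈ (dn z).1ᶜ := by simpa [dn] using hb
    refine ⟨k, hk, ?_, rfl⟩
    rw [if_pos (show 1 ≤ (dn z).2 k from h1), ← sg_dn h.1]
    intro e
    apply h2
    rcases mul_eq_zero.1 e with e | e
    · rw [e, zero_mul]
    · rw [emb_apply, if_pos ⟨by simp [h.1, (Fin.castSucc_ne_last k).symm],
        by simp [dl, (Fin.castSucc_ne_last k).symm, h.2]⟩]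
      have : dn (insert k.castSucc z.1, z.2 - dl k.castSucc) =
          (insert k (dn z).1, (dn z).2 - dl k) := by
        refine Prod.ext ?_ ?_
        · ext a; simp [dn]
        · funext i; simp [dn, dl, Pi.single_apply]
      rw [this, e, mul_zero]
  · intro k hk _
    have this : dn (insert k.castSucc z.1, z.2 - dl k.castSucc) =
        (insert k (dn z).1, (dn z).2 - dl k) := by
      refine Prod.ext ?_ ?_
      · ext a; simp [dn]
      · funext i; simp [dn, dl, Pi.single_apply]
    have hc : Fin.last n ∉ (insert k.castSucc z.1, z.2 - dl k.castSucc).1 ∧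
        (insert k.castSucc z.1, z.2 - dl k.castSucc).2 (Fin.last n) = 0 :=
      ⟨by simp [h.1, (Fin.castSucc_ne_last k).symm],
        by simp [dl, (Fin.castSucc_ne_last k).symm, h.2]⟩
    rw [emb_apply, if_pos hc, this, sg_dn h.1]
    rfl

lemma emb_mem {p d : ℕ} {f : Pt n → F} (hf : f ∈ sp F (cells n p d)) :
    emb F f ∈ sp F (cells (n + 1) p d) := by
  classical
  refine mem_sp.2 fun z hz => ?_
  rw [emb_apply]
  split_ifs with h
  · refine mem_sp.1 hf _ fun hc => hz ?_
    obtain ⟨h1, h2⟩ := mem_cells.1 hc
    refine mem_cells.2 ⟨?_, ?_⟩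
    · rw [← lift_dn h.1 h.2, lift, card_map, h1]
    · rw [sum_eq_init_add, h.2, add_zero]; exact h2
  · rfl

lemma emb_unit {z : Pt (n + 1)} (h1 : Fin.last n ∉ z.1) (h2 : z.2 (Fin.last n) = 0) :
    emb F (unit' F (dn z)) = unit' F z := by
  classical
  funext w
  rw [emb_apply]
  split_ifs with h
  · by_cases e : w = z
    · rw [e, unit'_self, unit'_self]
    · rw [unit'_of_ne e, unit'_of_ne]
      intro e'
      exact e (by rw [← lift_dn h.1 h.2, e', lift_dn h1 h2])
  · rw [unit'_of_ne]
    intro e
    exact h (e ▸ ⟨h1, h2⟩)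

lemma dn_mem_cells {p d : ℕ} {z : Pt (n + 1)} (hz : z ∈ cells (n + 1) p d)
    (h1 : Fin.last n ∉ z.1) (h2 : z.2 (Fin.last n) = 0) : dn z ∈ cells n p d := by
  obtain ⟨h3, h4⟩ := mem_cells.1 hz
  refine mem_cells.2 ⟨?_, ?_⟩
  · rw [← h3, ← congrArg (fun w : Pt (n + 1) => w.1.card) (lift_dn h1 h2)]
    simp [lift]
  · rw [sum_eq_init_add, h2, add_zero] at h4
    exact h4

/-- The rank splits at least. -/
theorem rkM_base_add_le (p d : ℕ) :
    rkM F (base M) (p + 1) d + (tops M p d).card ≤ rkM F M (p + 1) d := by
  classical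
  set W := (sp F (cells (n + 1) (p + 1) d)).map (prj F M ∘ₗ dd F)
  set W₀ := (sp F (cells n (p + 1) d)).map (prj F (base M) ∘ₗ dd F) with hW₀
  set R := keep (n := n + 1) F fun z => Fin.last n ∉ z.1 with hR
  set E := W₀.map (emb F)
  set S := sp F (tops M p d)
  have hWfin : FiniteDimensional F W := Module.Finite.map _ _
  have hW₀fin : FiniteDimensional F W₀ := Module.Finite.map _ _
  have hEfin : FiniteDimensional F E := Module.Finite.map _ _
  have hE : finrank F E = finrank F W₀ :=
    (Submodule.equivMapOfInjective _ emb_injective W₀).finrank_eq.symm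
  have hdis : E ⊓ S = ⊥ := by
    rw [Submodule.eq_bot_iff]
    rintro _ ⟨⟨f, -, rfl⟩, hS⟩
    funext z
    rw [Pi.zero_apply, emb_apply]
    split_ifs with h
    · have := mem_sp.1 hS z fun hz => by
        have := (mem_tops.1 hz).2.2.1
        omega
      rwa [emb_apply, if_pos h] at this
    · rfl
  have hsub : E ⊔ S ≤ W.map R := by
    refine sup_le ?_ ?_
    · rintro _ ⟨_, ⟨f, hf, rfl⟩, rfl⟩
      refine ⟨emb F (prj F (base M) (dd F f)), ⟨emb F f, emb_mem hf, ?_⟩, ?_⟩
      · rw [LinearMap.comp_apply, dd_emb, prj_emb]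
      · funext z
        simp only [LinearMap.comp_apply, hR, keep_apply]
        by_cases h : Fin.last n ∈ z.1
        · rw [if_neg (not_not.2 h), emb_apply, if_neg fun h' => h'.1 h]
        · rw [if_pos h]
    · refine Submodule.span_le.2 ?_
      rintro _ ⟨⟨z, hz⟩, rfl⟩
      obtain ⟨hzc, hzT, hzy, hzM⟩ := mem_tops.1 hz
      obtain ⟨h3, h4⟩ := mem_cells.1 hzc
      set u : Pt (n + 1) := (insert (Fin.last n) z.1, z.2 - dl (Fin.last n)) with hu
      have huc : u ∈ cells (n + 1) (p + 1) d := by
        refine mem_cells.2 ⟨by simp [hu, card_insert_of_notMem hzT, h3], ?_⟩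
        have := sum_sub_dl hzy
        simp only [hu] at *
        omega
      refine ⟨prj F M (dd F (unit' F u)), ⟨_, unit'_mem_sp huc, rfl⟩, ?_⟩
      funext w
      simp only [hR, keep_apply, prj_apply]
      by_cases hw : w = z
      · subst hw
        rw [if_pos hzT, if_neg hzM, unit'_self, dd_apply, sum_eq_single (Fin.last n)]
        · rw [if_pos hzy, sg_last]
          simp [← hu, unit'_self]
        · intro k _ hk
          split_ifs
          · rw [unit'_of_ne, mul_zero]
            intro e
            have := (Prod.ext_iff.1 e).1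
            simp only [hu] at this
            have hkm : Fin.last n ∈ insert k w.1 := by rw [this]; exact mem_insert_self _ _
            exact hzT ((mem_insert.1 hkm).resolve_left (Ne.symm hk))
          · rfl
        · exact fun h => absurd (mem_compl.2 hzT) h
      · rw [unit'_of_ne hw]
        by_cases h1 : Fin.last n ∈ w.1
        · rw [if_neg (not_not.2 h1)]
        rw [if_pos h1]
        split_ifs with h2
        · rfl
        · by_contra hne
          obtain ⟨k, hk, hk', e⟩ := dd_unit_ne_zero hne
          simp only [hu, Prod.mk.injEq] at e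
          have hkl : k = Fin.last n := by
            have : Fin.last n ∈ insert k w.1 := e.1 ▸ mem_insert_self _ _
            exact ((mem_insert.1 this).resolve_right h1).symm
          subst hkl
          apply hw
          refine Prod.ext ?_ ?_
          · rw [← erase_insert hk, ← e.1, erase_insert hzT]
          · rw [← sub_add_dl hk', ← e.2, sub_add_dl hzy]
  have hRW : FiniteDimensional F (W.map R) := Module.Finite.map _ _
  have hsum := Submodule.finrank_sup_add_finrank_inf_eq E S
  rw [hdis, finrank_bot, add_zero, hE, finrank_sp] at hsum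
  have h1 := Submodule.finrank_mono hsub
  have h2 := Submodule.finrank_map_le R W
  show finrank F W₀ + _ ≤ finrank F W
  omega

/-- For a set stable in the last variable there is equality. -/
theorem rkM_le_base_add {p d : ℕ} (hst : StableAt M (d + 1)) :
    rkM F M (p + 1) d ≤ rkM F (base M) (p + 1) d + (tops M p d).card := by
  classical
  set W := (sp F (cells (n + 1) (p + 1) d)).map (prj F M ∘ₗ dd F)
  set W₀ := (sp F (cells n (p + 1) d)).map (prj F (base M) ∘ₗ dd F) with hW₀
  set src := (tops M p d).image fun z : Pt (n + 1) =>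
    (insert (Fin.last n) z.1, z.2 - dl (Fin.last n))
  set B := Submodule.span F (Set.range fun u : src => prj F M (dd F (unit' F (u : Pt (n + 1)))))
  set E := W₀.map (emb F)
  have hW₀fin : FiniteDimensional F W₀ := Module.Finite.map _ _
  have hEfin : FiniteDimensional F E := Module.Finite.map _ _
  have hBfin : FiniteDimensional F B := FiniteDimensional.span_of_finite F (Set.finite_range _)
  have hlast : ∀ z ∈ cells (n + 1) (p + 1) d, Fin.last n ∈ z.1 →
      prj F M (dd F (unit' F z)) ∈ E ⊔ B := by
    intro z hz hy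
    obtain ⟨h3, h4⟩ := mem_cells.1 hz
    by_cases hzM : z.2 + dl (Fin.last n) ∈ M
    · convert Submodule.zero_mem (E ⊔ B)
      funext w
      rw [prj_apply, Pi.zero_apply]
      split_ifs with hw
      · rfl
      · by_contra hne
        obtain ⟨k, hk, hk', e⟩ := dd_unit_ne_zero hne
        have ez : z.2 + dl k = w.2 := by rw [e]; exact sub_add_dl hk'
        by_cases hkl : k = Fin.last n
        · exact hw (by rw [← ez, hkl]; exact hzM)
        · refine hw ?_
          have hs := hst _ hzM (by simp [Pi.add_apply, sum_add_distrib, sum_dl, h4]) (by simp [dl]) k hkl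
          rw [← ez]
          convert hs using 1
          funext i
          rcases eq_or_ne i (Fin.last n) with rfl | hi
          · simp [sh, dl, Ne.symm hkl]
          rcases eq_or_ne i k with rfl | hik
          · simp [sh, dl, hi]
          · simp [sh, dl, hi, hik]
    · refine Submodule.mem_sup_right (Submodule.subset_span ⟨⟨z, mem_image.2
        ⟨(z.1.erase (Fin.last n), z.2 + dl (Fin.last n)), mem_tops.2 ⟨?_, notMem_erase _ _,
          by simp [dl], hzM⟩, ?_⟩⟩, rfl⟩)
      · exact mem_cells.2 ⟨by simp [card_erase_of_mem hy, h3],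
          by simp [Pi.add_apply, sum_add_distrib, sum_dl, h4]⟩
      · exact Prod.ext (insert_erase hy) add_sub_dl
  have hall : ∀ z ∈ cells (n + 1) (p + 1) d, prj F M (dd F (unit' F z)) ∈ E ⊔ B := by
    intro z hz
    by_cases hy : Fin.last n ∈ z.1
    · exact hlast z hz hy
    by_cases h0 : z.2 (Fin.last n) = 0
    · refine Submodule.mem_sup_left ⟨prj F (base M) (dd F (unit' F (dn z))),
        ⟨_, unit'_mem_sp (dn_mem_cells hz hy h0), rfl⟩, ?_⟩
      rw [← emb_unit (F := F) hy h0, dd_emb, prj_emb]
    -- a cell whose boundary is a combination of the others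
    obtain ⟨h3, h4⟩ := mem_cells.1 hz
    set u : Pt (n + 1) := (insert (Fin.last n) z.1, z.2 - dl (Fin.last n)) with hu
    have hy1 : 1 ≤ z.2 (Fin.last n) := Nat.one_le_iff_ne_zero.2 h0
    have hd1 := sum_sub_dl hy1
    have huc : u ∈ cells (n + 1) (p + 1 + 1) (d - 1) := by
      refine mem_cells.2 ⟨by simp [hu, card_insert_of_notMem hy, h3], ?_⟩
      simp only [hu]
      omega
    set g := dd F (unit' F u) - unit' F z with hg
    have hgsp : g ∈ sp F ((cells (n + 1) (p + 1) d).filter fun w => Fin.last n ∈ w.1) := by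
      refine mem_sp.2 fun w hw => ?_
      by_contra hne
      have hwz : w ≠ z := by
        rintro rfl
        apply hne
        rw [hg, Pi.sub_apply, unit'_self, dd_apply, sum_eq_single (Fin.last n)]
        · rw [if_pos hy1, sg_last]
          simp [← hu, unit'_self]
        · intro k _ hk
          split_ifs
          · rw [unit'_of_ne, mul_zero]
            intro e
            have := (Prod.ext_iff.1 e).1
            simp only [hu] at this
            have hkm : Fin.last n ∈ insert k w.1 := by rw [this]; exact mem_insert_self _ _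
            exact hy ((mem_insert.1 hkm).resolve_left (Ne.symm hk))
          · rfl
        · exact fun h => absurd (mem_compl.2 hy) h
      rw [hg, Pi.sub_apply, unit'_of_ne hwz, sub_zero] at hne
      obtain ⟨k, hk, hk', e⟩ := dd_unit_ne_zero hne
      simp only [hu, Prod.mk.injEq] at e
      have hwc : w ∈ cells (n + 1) (p + 1) d := by
        by_contra h
        have := dd_mem (unit'_mem_sp (F := F) huc)
        rw [show d - 1 + 1 = d by omega] at this
        exact hne (mem_sp.1 this w h)
      refine hw (mem_filter.2 ⟨hwc, ?_⟩)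
      have hm : Fin.last n ∈ insert k w.1 := e.1 ▸ mem_insert_self _ _
      refine (mem_insert.1 hm).resolve_left fun hkl => hwz ?_
      subst hkl
      refine Prod.ext ?_ ?_
      · rw [← erase_insert hk, ← e.1, erase_insert hy]
      · rw [← sub_add_dl hk', ← e.2, sub_add_dl hy1]
    have hgW : prj F M (dd F g) ∈ E ⊔ B := by
      clear_value g
      clear hg
      induction hgsp using Submodule.span_induction with
      | mem y hy' =>
        obtain ⟨⟨w, hw⟩, rfl⟩ := hy'
        exact hlast w (mem_filter.1 hw).1 (mem_filter.1 hw).2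
      | zero => simp
      | add a b _ _ ha hb => rw [map_add, map_add]; exact Submodule.add_mem _ ha hb
      | smul r a _ ha => rw [map_smul, map_smul]; exact Submodule.smul_mem _ _ ha
    have hzero : prj F M (dd F g) + prj F M (dd F (unit' F z)) = 0 := by
      rw [← map_add, ← map_add, hg, sub_add_cancel, dd_dd, map_zero]
    rw [eq_neg_of_add_eq_zero_right hzero]
    exact Submodule.neg_mem _ hgW
  have hW : W ≤ E ⊔ B := by
    rintro _ ⟨f, hf, rfl⟩
    induction hf using Submodule.span_induction with
    | mem y hy =>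
      obtain ⟨⟨z, hz⟩, rfl⟩ := hy
      exact hall z hz
    | zero => simp
    | add a b _ _ ha hb => rw [map_add]; exact Submodule.add_mem _ ha hb
    | smul r a _ ha => rw [map_smul]; exact Submodule.smul_mem _ _ ha
  have h1 := Submodule.finrank_mono hW
  have h2 := Submodule.finrank_add_le_finrank_add_finrank E B
  have h3 : finrank F E = finrank F W₀ :=
    (Submodule.equivMapOfInjective _ emb_injective W₀).finrank_eq.symm
  have h4 : finrank F B ≤ (tops M p d).card := by
    refine (finrank_range_le_card _).trans ?_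
    rw [Fintype.card_coe]
    exact card_image_le
  show finrank F W ≤ finrank F W₀ + _
  omega

/-- The other end of the complex: the count of cells. -/
lemma card_out_split (M : Set (Fin (n + 1) → ℕ)) (p d : ℕ) :
    (outCells M p d).card + pc n p * num M d =
      (outCells (base M) p d).card + pc n p * (mons (n + 1) d).card +
        (if d = 0 then 0 else n.choose p * ((mons (n + 1) (d - 1)).card - topNum M (d - 1))) := by
  rw [card_outCells, card_outCells, choose_succ_eq, add_mul, add_assoc, ← Nat.mul_add,
    Nat.sub_add_cancel (num_le M d)]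
  suffices n.choose p * ((mons (n + 1) d).card - num M d) =
      n.choose p * ((mons n d).card - num (base M) d) +
      (if d = 0 then 0 else n.choose p * ((mons (n + 1) (d - 1)).card - topNum M (d - 1))) by omega
  cases d with
  | zero =>
    classical
    have hm : ∀ m, mons m 0 = {0} := fun m => by
      ext a; simp [mem_mons, funext_iff]
    have h0 : (Fin.snoc (0 : Fin n → ℕ) 0 : Fin (n + 1) → ℕ) = 0 := by
      funext j
      induction j using Fin.lastCases with
      | last => simp
      | cast j => simp
    simp only [num, hm, base, filter_singleton, Set.mem_ofPred_eq, h0]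
    split_ifs <;> simp
  | succ d =>
    rw [if_neg d.succ_ne_zero, Nat.add_sub_cancel, num_succ, mons_succ, ← Nat.mul_add]
    congr 1
    have := num_le (base M) (d + 1)
    have := topNum_le M d
    omega

/-- The Betti numbers are at most those without the last variable plus a count. -/
theorem hM_le_slice (hM : IsUp M) (p d : ℕ) :
    Free.hM F M p d + pc n p * num M d ≤ Free.hM F (base M) p d + pc n p * topNum M d := by
  have h1 := card_out_split M p d
  have h2 : rkM F (base M) p d + pc n p * ((mons (n + 1) d).card - topNum M d) ≤ rkM F M p d := by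
    cases p with
    | zero => simp [pc, rkM]
    | succ q => rw [pc, ← card_tops]; exact rkM_base_add_le q d
  have h3 : (if d = 0 then 0 else rkM F (base M) (p + 1) (d - 1)) +
      (if d = 0 then 0 else n.choose p * ((mons (n + 1) (d - 1)).card - topNum M (d - 1))) ≤
      if d = 0 then 0 else rkM F M (p + 1) (d - 1) := by
    split_ifs
    · simp
    · rw [← card_tops]; exact rkM_base_add_le p (d - 1)
  have h4 : pc n p * num M d ≤ pc n p * topNum M d := Nat.mul_le_mul_left _ (num_le_topNum hM d)
  have h5 : pc n p * ((mons (n + 1) d).card - topNum M d) + pc n p * topNum M d =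
      pc n p * (mons (n + 1) d).card := by
    rw [← Nat.mul_add, Nat.sub_add_cancel (topNum_le M d)]
  unfold Free.hM
  omega

/-- Stability gives equality. -/
theorem hM_slice (hM : IsUp M) (hst : ∀ e, StableAt M e) (p d : ℕ)
    (hb : rkM F (base M) p d + (if d = 0 then 0 else rkM F (base M) (p + 1) (d - 1)) ≤
      (outCells (base M) p d).card) :
    Free.hM F M p d + pc n p * num M d = Free.hM F (base M) p d + pc n p * topNum M d := by
  have h1 := card_out_split M p d
  have h2 : rkM F M p d = rkM F (base M) p d + pc n p * ((mons (n + 1) d).card - topNum M d) := by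
    cases p with
    | zero => simp [pc, rkM]
    | succ q =>
      rw [pc, ← card_tops]
      exact le_antisymm (rkM_le_base_add (hst _)) (rkM_base_add_le q d)
  have h3 : (if d = 0 then 0 else rkM F M (p + 1) (d - 1)) =
      (if d = 0 then 0 else rkM F (base M) (p + 1) (d - 1)) +
      (if d = 0 then 0 else n.choose p * ((mons (n + 1) (d - 1)).card - topNum M (d - 1))) := by
    split_ifs
    · simp
    · rw [← card_tops]
      exact le_antisymm (rkM_le_base_add (hst _)) (rkM_base_add_le p (d - 1))
  have h4 : pc n p * num M d ≤ pc n p * topNum M d := Nat.mul_le_mul_left _ (num_le_topNum hM d)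
  have h5 : pc n p * ((mons (n + 1) d).card - topNum M d) + pc n p * topNum M d =
      pc n p * (mons (n + 1) d).card := by
    rw [← Nat.mul_add, Nat.sub_add_cancel (topNum_le M d)]
  unfold Free.hM
  omega

/-- Boundaries are cycles, so the two ranks fit in the cells. -/
lemma rkM_add_le {m : ℕ} {N : Set (Fin m → ℕ)} (hN : IsUp N) (p d : ℕ) :
    rkM F N p d + (if d = 0 then 0 else rkM F N (p + 1) (d - 1)) ≤ (outCells N p d).card := by
  classical
  have hout : ∀ q e, (sp F (cells m q e)).map (prj F N) = sp F (outCells N q e) := by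
    intro q e
    refine le_antisymm ?_ fun f hf => ⟨f, mem_sp.2 fun z hz => mem_sp.1 hf z fun h => hz
      (mem_filter.1 h).1, ?_⟩
    · rintro _ ⟨f, hf, rfl⟩
      refine mem_sp.2 fun z hz => ?_
      rw [prj_apply]
      split_ifs with h
      · rfl
      · exact mem_sp.1 hf z fun hc => hz (mem_filter.2 ⟨hc, h⟩)
    · funext z
      rw [prj_apply]
      split_ifs with h
      · exact (mem_sp.1 hf z fun hz => (mem_filter.1 hz).2 h).symm
      · rfl
  cases p with
  | zero =>
    rw [show rkM F N 0 d = 0 from rfl, zero_add]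
    split_ifs with hd
    · exact Nat.zero_le _
    rw [← finrank_sp (F := F), ← hout]
    refine Submodule.finrank_mono ?_
    rintro _ ⟨f, hf, rfl⟩
    refine ⟨dd F f, ?_, rfl⟩
    have := dd_mem hf
    rwa [show d - 1 + 1 = d by omega] at this
  | succ q =>
    set U := sp F (outCells N (q + 1) d) with hU
    set L := prj (n := m) F N ∘ₗ dd F with hL
    have hmap : (sp F (cells m (q + 1) d)).map L = U.map L := by
      rw [hU, ← hout, ← Submodule.map_comp]
      congr 1
      ext f
      simp [hL, prj_dd_prj hN]
    have hr : rkM F N (q + 1) d = finrank F (U.map L) := by rw [← hmap]; rfl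
    have hrn := LinearMap.finrank_range_add_finrank_ker (L.domRestrict U)
    rw [LinearMap.range_domRestrict, ← hr, hU, finrank_sp] at hrn
    split_ifs with hd
    · omega
    suffices rkM F N (q + 1 + 1) (d - 1) ≤ finrank F (LinearMap.ker (L.domRestrict U)) by
      rw [hU] at this
      omega
    rw [← Submodule.finrank_map_subtype_eq]
    refine Submodule.finrank_mono ?_
    rintro _ ⟨f, hf, rfl⟩
    have hmem : (prj F N ∘ₗ dd F) f ∈ U := by
      rw [hU, ← hout]
      refine ⟨dd F f, ?_, rfl⟩
      have := dd_mem hf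
      rwa [show d - 1 + 1 = d by omega] at this
    refine ⟨⟨_, hmem⟩, ?_, rfl⟩
    rw [SetLike.mem_coe, LinearMap.mem_ker, LinearMap.domRestrict_apply]
    simp [hL, prj_dd_prj hN, dd_dd]

end Vale.Agent.P200.Betti.Free
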