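import Vale.Agent.P200.Betti.Free.Lpp

/-!
Adding a free variable keeps the lex-plus-squares bound.
-/

namespace Vale.Agent.P200.Betti.Free

open Finset Module

variable (F : Type*) [Field F]

open Classical in
/-- The bound, together with a linear formula for the extremal sets. -/
def Bound (n c : ℕ) : Prop :=
  (∀ p d, ∀ M L : Set (Fin n → ℕ), IsUp M → HasSq c M → IsLPP c L →
    (∀ k, num L k = num M k) → hM F M p d ≤ hM F L p d) ∧
  ∀ p d, ∃ κ : ℕ, ∃ φ ψ : (Fin n → ℕ) → ℕ, (∀ a, φ a ≤ pc n p) ∧
    ∀ L : Set (Fin n → ℕ), IsLPP c L →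
      hM F L p d + ∑ a ∈ (mons n d).filter (· ∈ L), ψ a =
        κ + ∑ a ∈ (mons n (d + 1)).filter (· ∈ L), φ a

variable {F} {n c : ℕ}

lemma pc_le_succ (n p : ℕ) : pc n p ≤ pc (n + 1) p := by
  cases p with
  | zero => exact le_rfl
  | succ q => exact Nat.choose_le_succ n q

open Classical in
/-- Splitting a sum over a degree at the last variable. -/
lemma sum_filter_split (L : Set (Fin (n + 1) → ℕ)) (d : ℕ) (u : (Fin n → ℕ) → ℕ) :
    ∑ a ∈ (mons (n + 1) d).filter (· ∈ L),
        (if a (Fin.last n) = 0 then u (fun i => a i.castSucc) else 0) =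
      ∑ b ∈ (mons n d).filter (· ∈ base L), u b := by
  rw [← sum_filter]
  refine sum_nbij' (fun a i => a (Fin.castSucc i)) (fun b => Fin.snoc b 0) ?_ ?_ ?_ ?_ ?_
  · intro a ha
    obtain ⟨ha, h0⟩ := Finset.mem_filter.1 (Finset.mem_coe.1 ha)
    obtain ⟨h1, h2⟩ := Finset.mem_filter.1 ha
    rw [mem_mons, sum_eq_init_add, h0, add_zero] at h1
    refine Finset.mem_coe.2 (Finset.mem_filter.2 ⟨mem_mons.2 h1, ?_⟩)
    show Fin.snoc _ 0 ∈ L
    rwa [snoc_init_zero h0]
  · intro b hb
    obtain ⟨h1, h2⟩ := Finset.mem_filter.1 (Finset.mem_coe.1 hb)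
    refine Finset.mem_coe.2 (Finset.mem_filter.2
      ⟨Finset.mem_filter.2 ⟨mem_mons.2 ?_, h2⟩, by simp⟩)
    rw [sum_snoc, mem_mons.1 h1, add_zero]
  · intro a ha
    exact snoc_init_zero (Finset.mem_filter.1 (Finset.mem_coe.1 ha)).2
  · intro b _
    funext i
    simp
  · intro a _
    rfl

open Classical in
lemma topNum_eq (L : Set (Fin (n + 1) → ℕ)) (d : ℕ) (C : ℕ) :
    ∑ a ∈ (mons (n + 1) (d + 1)).filter (· ∈ L), (if a (Fin.last n) = 0 then 0 else C) =
      C * topNum L d := by
  rw [sum_ite, sum_const_zero, zero_add, sum_const, smul_eq_mul, mul_comm, topNum, filter_filter]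
  congr 2
  exact filter_congr fun a _ => by
    rw [Nat.one_le_iff_ne_zero]
    exact and_comm

/-- One more free variable. -/
theorem Bound.succ (hc : c ≤ n) (h : Bound F n c) : Bound F (n + 1) c := by
  classical
  obtain ⟨hmain, hform⟩ := h
  refine ⟨fun p d M L hup hsq hL hnum => ?_, fun p d => ?_⟩
  · obtain ⟨M', hup', hsq', hnum', hst1, hst2, hle⟩ := exists_stable F hc hup hsq d (d + 1)
    obtain ⟨A, hA, hAnum⟩ := exists_isLPP F hc (isUp_base hup') (hasSq_base hsq')
    obtain ⟨κ, φ, ψ, hφ, hf⟩ := hform p d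
    have hL0 := hL.base hc
    have hnd : num L d = num M' d := (hnum d).trans (hnum' d).symm
    have hnd1 : num L (d + 1) = num M' (d + 1) := (hnum _).trans (hnum' _).symm
    have hl0 : num (base L) d ≤ num A d := by
      rw [hAnum]; exact num_base_le F hc hsq' hst1 hL hnd
    have hl1 : num (base L) (d + 1) ≤ num A (d + 1) := by
      rw [hAnum]; exact num_base_le F hc hsq' hst2 hL hnd1
    have hAf := hf A hA
    have hLf := hf (base L) hL0
    -- the extremal set in fewer variables against the base of the extremal set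
    have hψ : ∑ a ∈ (mons n d).filter (· ∈ base L), ψ a ≤
        ∑ a ∈ (mons n d).filter (· ∈ A), ψ a :=
      sum_le_sum_of_subset fun a ha => by
        obtain ⟨h1, h2⟩ := mem_filter.1 ha
        exact mem_filter.2 ⟨h1, hL0.subset hA hl0 h2 (mem_mons.1 h1)⟩
    have hsub : (mons n (d + 1)).filter (· ∈ base L) ⊆ (mons n (d + 1)).filter (· ∈ A) :=
      fun a ha => by
        obtain ⟨h1, h2⟩ := mem_filter.1 ha
        exact mem_filter.2 ⟨h1, hL0.subset hA hl1 h2 (mem_mons.1 h1)⟩
    have hφ' : ∑ a ∈ (mons n (d + 1)).filter (· ∈ A), φ a + pc n p * num (base L) (d + 1) ≤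
        ∑ a ∈ (mons n (d + 1)).filter (· ∈ base L), φ a + pc n p * num A (d + 1) := by
      rw [← sum_sdiff hsub]
      have h1 : ∑ a ∈ (mons n (d + 1)).filter (· ∈ A) \ (mons n (d + 1)).filter (· ∈ base L), φ a ≤
          pc n p * (num A (d + 1) - num (base L) (d + 1)) := by
        refine le_trans (sum_le_card_nsmul _ _ (pc n p) fun a _ => hφ a) ?_
        rw [card_sdiff_of_subset hsub, smul_eq_mul, mul_comm]
        rfl
      have h2 : pc n p * num A (d + 1) = pc n p * (num A (d + 1) - num (base L) (d + 1)) +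
          pc n p * num (base L) (d + 1) := by rw [← Nat.mul_add, Nat.sub_add_cancel hl1]
      omega
    have hsl := hM_le_slice (F := F) hup' p d
    have hih := hmain p d (base M') A (isUp_base hup') (hasSq_base hsq') hA hAnum
    have hLs := hM_slice (F := F) hL.1 (hL.stableAt hc) p d (rkM_add_le hL0.1 p d)
    have hM'1 := num_succ M' d
    have hL1 := num_succ L d
    have e1 : pc n p * num M' (d + 1) =
        pc n p * num A (d + 1) + pc n p * topNum M' d := by rw [hM'1, hAnum, Nat.mul_add]
    have e2 : pc n p * num L (d + 1) =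
        pc n p * num (base L) (d + 1) + pc n p * topNum L d := by rw [hL1, Nat.mul_add]
    have e3 : pc n p * num L (d + 1) = pc n p * num M' (d + 1) := by rw [hnd1]
    have e4 : pc n p * num L d = pc n p * num M' d := by rw [hnd]
    have := hle p d
    omega
  · obtain ⟨κ, φ, ψ, hφ, hf⟩ := hform p d
    refine ⟨κ, fun a => if a (Fin.last n) = 0 then φ (fun i => a i.castSucc) else pc n p,
      fun a => pc n p + if a (Fin.last n) = 0 then ψ (fun i => a i.castSucc) else 0,
      fun a => ?_, fun L hL => ?_⟩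
    · dsimp only
      split_ifs
      · exact (hφ _).trans (pc_le_succ n p)
      · exact pc_le_succ n p
    have hLs := hM_slice (F := F) hL.1 (hL.stableAt hc) p d
      (rkM_add_le (hL.base hc).1 p d)
    have hLf := hf (base L) (hL.base hc)
    have hsplit : ∑ a ∈ (mons (n + 1) (d + 1)).filter (· ∈ L),
        (if a (Fin.last n) = 0 then φ (fun i => a i.castSucc) else pc n p) =
        ∑ b ∈ (mons n (d + 1)).filter (· ∈ base L), φ b + pc n p * topNum L d := by
      rw [← sum_filter_split L (d + 1) φ, ← topNum_eq L d (pc n p), ← sum_add_distrib]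
      exact sum_congr rfl fun a _ => by split_ifs <;> simp
    rw [sum_add_distrib, sum_const, smul_eq_mul, sum_filter_split L d ψ, hsplit, mul_comm]
    unfold num at hLs
    omega

end Vale.Agent.P200.Betti.Free
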